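import Mathlib

/-!
# P177, B7-D1: box ideals

`boxI S b = (X i ^ b i)_i` in `MvPolynomial (Fin d) S`: membership, freeness of the quotient,
the colon ideal by a variable, the sum with a variable, and nilpotence of the variables.
-/

namespace Vale.Agent.P177.SL

open MvPolynomial

universe u

variable {S : Type u} [CommRing S] {d : ℕ}

/-- The box ideal `(X i ^ b i)_i`. -/
noncomputable def boxI (S : Type u) [CommRing S] {d : ℕ} (b : Fin d → ℕ) : Ideal (MvPolynomial (Fin d) S) :=
  Ideal.span (Set.range fun i => (X i : MvPolynomial (Fin d) S) ^ b i)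

theorem X_pow_mem_boxI (b : Fin d → ℕ) (i : Fin d) :
    (X i : MvPolynomial (Fin d) S) ^ b i ∈ boxI S b :=
  Ideal.subset_span ⟨i, rfl⟩

theorem boxI_eq_monomial (b : Fin d → ℕ) :
    boxI S b = Ideal.span ((fun s => monomial s (1 : S)) ''
      (Set.range fun i => Finsupp.single i (b i))) := by
  unfold boxI
  congr 1
  ext x
  simp only [Set.mem_range, Set.mem_image, exists_exists_eq_and, X_pow_eq_monomial]

theorem mem_boxI {b : Fin d → ℕ} {f : MvPolynomial (Fin d) S} :
    f ∈ boxI S b ↔ ∀ β ∈ f.support, ∃ i, b i ≤ β i := by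
  rw [boxI_eq_monomial, mem_ideal_span_monomial_image]
  simp only [Set.mem_range, exists_exists_eq_and, Finsupp.single_le_iff]

theorem mem_boxI' {b : Fin d → ℕ} {f : MvPolynomial (Fin d) S} :
    f ∈ boxI S b ↔ ∀ β : Fin d →₀ ℕ, (∀ i, β i < b i) → coeff β f = 0 := by
  rw [mem_boxI]
  constructor
  · intro h β hβ
    by_contra hne
    obtain ⟨i, hi⟩ := h β (mem_support_iff.2 hne)
    exact absurd (hβ i) (not_lt.2 hi)
  · intro h β hβ
    by_contra hne
    push Not at hne
    exact mem_support_iff.1 hβ (h β hne)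

/-- The index set of the monomial basis. -/
abbrev BoxIdx (b : Fin d → ℕ) : Type := {β : Fin d →₀ ℕ // ∀ i, β i < b i}

instance (b : Fin d → ℕ) : Finite (BoxIdx b) := by
  refine Finite.of_injective (fun β : BoxIdx b => fun i : Fin d => (⟨β.1 i, β.2 i⟩ : Fin (b i))) ?_
  intro β γ h
  apply Subtype.ext
  ext i
  have := congrFun h i
  simpa using this

/-- The coefficients inside the box. -/
noncomputable def boxCoeff (S : Type u) [CommRing S] {d : ℕ} (b : Fin d → ℕ) :
    MvPolynomial (Fin d) S →ₗ[S] (BoxIdx b → S) :=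
  LinearMap.pi fun β => lcoeff S β.1

theorem boxCoeff_apply (b : Fin d → ℕ) (f : MvPolynomial (Fin d) S) (β : BoxIdx b) :
    boxCoeff S b f β = coeff β.1 f := rfl

theorem boxCoeff_surjective (b : Fin d → ℕ) : Function.Surjective (boxCoeff S b) := by
  classical
  have := Fintype.ofFinite (BoxIdx b)
  intro g
  refine ⟨∑ β : BoxIdx b, monomial β.1 (g β), ?_⟩
  funext γ
  rw [boxCoeff_apply, coeff_sum]
  simp only [coeff_monomial]
  rw [Finset.sum_eq_single γ]
  · simp
  · intro β _ hne
    rw [if_neg]
    intro h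
    exact hne (Subtype.ext h)
  · intro h
    exact absurd (Finset.mem_univ _) h

theorem ker_boxCoeff (b : Fin d → ℕ) :
    LinearMap.ker (boxCoeff S b) = (boxI S b).restrictScalars S := by
  ext f
  rw [LinearMap.mem_ker, Submodule.restrictScalars_mem, mem_boxI']
  constructor
  · intro h β hβ
    exact congrFun h ⟨β, hβ⟩
  · intro h
    funext β
    exact h β.1 β.2

/-- The quotient by a box ideal, in the monomial basis. -/
noncomputable def boxEquiv (S : Type u) [CommRing S] {d : ℕ} (b : Fin d → ℕ) :
    (MvPolynomial (Fin d) S ⧸ boxI S b) ≃ₗ[S] (BoxIdx b → S) :=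
  ((Submodule.Quotient.restrictScalarsEquiv S (boxI S b)).symm.trans
    (Submodule.quotEquivOfEq _ _ (ker_boxCoeff b).symm)).trans
      ((boxCoeff S b).quotKerEquivOfSurjective (boxCoeff_surjective b))

@[simp]
theorem boxEquiv_mk (b : Fin d → ℕ) (f : MvPolynomial (Fin d) S) (β : BoxIdx b) :
    boxEquiv S b (Ideal.Quotient.mk _ f) β = coeff β.1 f := rfl

instance box_free (b : Fin d → ℕ) : Module.Free S (MvPolynomial (Fin d) S ⧸ boxI S b) :=
  Module.Free.of_equiv (boxEquiv S b).symm

instance box_finite (b : Fin d → ℕ) : Module.Finite S (MvPolynomial (Fin d) S ⧸ boxI S b) :=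
  Module.Finite.equiv (boxEquiv S b).symm

/-- `boxI : X_i = boxI (b - e_i)`. -/
theorem box_colon {b : Fin d → ℕ} {i : Fin d} (hb : 1 ≤ b i) {f : MvPolynomial (Fin d) S} :
    X i * f ∈ boxI S b ↔ f ∈ boxI S (Function.update b i (b i - 1)) := by
  classical
  rw [mem_boxI, mem_boxI, support_X_mul]
  constructor
  · intro h β hβ
    obtain ⟨j, hj⟩ := h (Finsupp.single i 1 + β)
      (Finset.mem_map.2 ⟨β, hβ, rfl⟩)
    refine ⟨j, ?_⟩
    rcases eq_or_ne j i with rfl | hne
    · simp only [Finsupp.coe_add, Pi.add_apply, Finsupp.single_eq_same] at hj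
      rw [Function.update_self]
      omega
    · rw [Function.update_of_ne hne]
      simpa [Finsupp.single_eq_of_ne hne] using hj
  · intro h β hβ
    obtain ⟨γ, hγ, rfl⟩ := Finset.mem_map.1 hβ
    obtain ⟨j, hj⟩ := h γ hγ
    refine ⟨j, ?_⟩
    simp only [addLeftEmbedding_apply, Finsupp.coe_add, Pi.add_apply]
    rcases eq_or_ne j i with rfl | hne
    · rw [Function.update_self] at hj
      simp only [Finsupp.single_eq_same]
      omega
    · rw [Function.update_of_ne hne] at hj
      omega

/-- `boxI + (X_i) = boxI (b with b_i := 1)`. -/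
theorem box_sup {b : Fin d → ℕ} {i : Fin d} (hb : 1 ≤ b i) :
    boxI S b ⊔ Ideal.span {(X i : MvPolynomial (Fin d) S)} =
      boxI S (Function.update b i 1) := by
  classical
  apply le_antisymm
  · refine sup_le ?_ ?_
    · rw [boxI, Ideal.span_le]
      rintro _ ⟨j, rfl⟩
      show (X j : MvPolynomial (Fin d) S) ^ b j ∈ boxI S (Function.update b i 1)
      rcases eq_or_ne j i with rfl | hne
      · have h := X_pow_mem_boxI (S := S) (Function.update b j 1) j
        rw [Function.update_self, pow_one] at h
        exact Ideal.pow_mem_of_mem _ h _ hb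
      · have h := X_pow_mem_boxI (S := S) (Function.update b i 1) j
        rwa [Function.update_of_ne hne] at h
    · rw [Ideal.span_singleton_le_iff_mem]
      have h := X_pow_mem_boxI (S := S) (Function.update b i 1) i
      rwa [Function.update_self, pow_one] at h
  · conv_lhs => rw [boxI]
    rw [Ideal.span_le]
    rintro _ ⟨j, rfl⟩
    show (X j : MvPolynomial (Fin d) S) ^ (Function.update b i 1 j) ∈
      boxI S b ⊔ Ideal.span {(X i : MvPolynomial (Fin d) S)}
    rcases eq_or_ne j i with rfl | hne
    · rw [Function.update_self, pow_one]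
      exact Ideal.mem_sup_right (Ideal.mem_span_singleton_self _)
    · rw [Function.update_of_ne hne]
      exact Ideal.mem_sup_left (X_pow_mem_boxI b j)

/-- Large powers of the ideal of variables lie in the box ideal. -/
theorem box_nil (b : Fin d → ℕ) :
    (Ideal.span (Set.range (X : Fin d → MvPolynomial (Fin d) S))) ^ (∑ i, (b i - 1) + 1) ≤
      boxI S b := by
  intro f hf
  rw [mem_boxI']
  intro β hβ
  have h := (mem_pow_idealOfVars_iff' (σ := Fin d) (R := S) _ f).1 hf β
  apply h
  rw [Finsupp.degree_eq_sum]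
  have : ∑ i, β i ≤ ∑ i, (b i - 1) := Finset.sum_le_sum fun i _ => by
    have := hβ i
    omega
  omega

/-- The box with all sides `1` is the ideal of variables. -/
theorem boxI_one : boxI S (fun _ : Fin d => 1) =
    Ideal.span (Set.range (X : Fin d → MvPolynomial (Fin d) S)) := by
  unfold boxI
  congr 1
  ext x
  simp

theorem boxI_one_eq_ker : boxI S (fun _ : Fin d => 1) =
    RingHom.ker (constantCoeff : MvPolynomial (Fin d) S →+* S) := by
  ext f
  rw [mem_boxI', RingHom.mem_ker, constantCoeff_eq]
  constructor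
  · intro h
    exact h 0 (fun i => by simp)
  · intro h β hβ
    have : β = 0 := by
      ext i
      have := hβ i
      simp only [Finsupp.coe_zero, Pi.zero_apply]
      omega
    rw [this]
    exact h

/-- `S[X]/(X) = S`, as algebras. -/
noncomputable def boxOneAlg (S : Type u) [CommRing S] (d : ℕ) :
    (MvPolynomial (Fin d) S ⧸ boxI S (fun _ : Fin d => 1)) ≃ₐ[S] S :=
  AlgEquiv.ofBijective
    (Ideal.Quotient.liftₐ (boxI S (fun _ : Fin d => 1)) (aeval (fun _ : Fin d => (0 : S)))
      (fun f hf => by
        rw [boxI_one_eq_ker, RingHom.mem_ker] at hf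
        rw [aeval_zero', hf, map_zero]))
    (by
      constructor
      · rw [injective_iff_map_eq_zero]
        intro x
        obtain ⟨f, rfl⟩ := Ideal.Quotient.mk_surjective x
        intro h
        rw [Ideal.Quotient.eq_zero_iff_mem, boxI_one_eq_ker, RingHom.mem_ker]
        have h2 : aeval (fun _ : Fin d => (0 : S)) f = 0 := h
        rwa [aeval_zero', Algebra.algebraMap_self, RingHom.id_apply] at h2
      · intro s
        refine ⟨Ideal.Quotient.mk _ (C s), ?_⟩
        have : aeval (fun _ : Fin d => (0 : S)) (C s : MvPolynomial (Fin d) S) = s := by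
          rw [aeval_C, Algebra.algebraMap_self, RingHom.id_apply]
        exact this)

@[simp]
theorem boxOneAlg_mk (d : ℕ) (f : MvPolynomial (Fin d) S) :
    boxOneAlg S d (Ideal.Quotient.mk _ f) = constantCoeff f := by
  have : aeval (fun _ : Fin d => (0 : S)) f = constantCoeff f := by
    rw [aeval_zero', Algebra.algebraMap_self, RingHom.id_apply]
  exact this

/-- `S[X]/(X) = S`, as modules. -/
noncomputable def boxOne (S : Type u) [CommRing S] (d : ℕ) :
    (MvPolynomial (Fin d) S ⧸ boxI S (fun _ : Fin d => 1)) ≃ₗ[S] S :=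
  (boxOneAlg S d).toLinearEquiv

@[simp]
theorem boxOne_mk (d : ℕ) (f : MvPolynomial (Fin d) S) :
    boxOne S d (Ideal.Quotient.mk _ f) = constantCoeff f :=
  boxOneAlg_mk d f

theorem boxOne_X (d : ℕ) (i : Fin d) : boxOne S d (Ideal.Quotient.mk _ (X i)) = 0 := by
  rw [boxOne_mk, constantCoeff_X]

theorem boxOne_one (d : ℕ) : boxOne S d 1 = 1 := by
  rw [← map_one (Ideal.Quotient.mk _), boxOne_mk, map_one]

/-- The multiplication by `X i` on the quotient by a box ideal is nilpotent. -/
theorem box_X_pow (b : Fin d → ℕ) (i : Fin d) :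
    (Ideal.Quotient.mk (boxI S b) (X i)) ^ b i = 0 := by
  rw [← map_pow, Ideal.Quotient.eq_zero_iff_mem]
  exact X_pow_mem_boxI b i

end Vale.Agent.P177.SL
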