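import Vale.Agent.P177.SL.Nil
import Vale.Agent.P177.SL.Box
import Vale.Agent.P177.Perf.GrowthK

/-!
The data used in the proof of vanishing and positivity: thickenings of a local ring with
parameters `π, z_1, .., z_d`, and the growth of the Tor modules of `S / (π, z^t)`.
-/

namespace Vale.Agent.P177.SL

open Vale.Agent.P202.Mix Function TensorProduct IsLocalRing
open scoped ENNReal

universe u

/-- the ring `S[X_1, .., X_d] / (X_1 ^ t, .., X_d ^ t)`. -/
abbrev TB (S : Type u) [CommRing S] (d t : ℕ) : Type u :=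
  MvPolynomial (Fin d) S ⧸ boxI S (fun _ : Fin d => t)

/-- the list `π, z_1 ^ t, .., z_d ^ t`. -/
def pz {S : Type u} [CommRing S] {d : ℕ} (π : S) (z : Fin d → S) (t : ℕ) : List S :=
  π :: List.ofFn fun i => z i ^ t

/-- translations `z ↦ z + X`. -/
structure Thick (S : Type u) [CommRing S] [IsLocalRing S] (d : ℕ) (π : S) (z : Fin d → S) where
  Θ : ∀ t : ℕ, S →+* TB S d t
  var : ∀ t i, Θ t (z i) = algebraMap S (TB S d t) (z i) + Ideal.Quotient.mk _ (MvPolynomial.X i)
  near : ∀ t s, Θ t s - algebraMap S (TB S d t) s ∈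
    Ideal.span (Set.range fun i : Fin d =>
      (Ideal.Quotient.mk _ (MvPolynomial.X i) : TB S d t))
  res : ∀ t, 1 ≤ t → Nonempty (Th (Θ t) (TB S d t) (S ⧸ maximalIdeal S) ≃ₗ[S]
    (S ⧸ Ideal.ofList (pz π z t)))

/-- the Tor modules of `S / (π, z ^ t)` with `X` have length `O(t ^ m)`. -/
def BaseGrowth {S D : Type u} [CommRing S] [CommRing D] [Algebra S D] (L : AddLen D) {d : ℕ}
    (π : S) (z : Fin d → S) (m : ℕ) (X : Type u) [AddCommGroup X] [Module D X] : Prop :=
  ∃ B : ℝ≥0∞, B < ⊤ ∧ ∀ t : ℕ, 1 ≤ t → ∀ i,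
    tau S L i (S ⧸ Ideal.ofList (pz π z t)) X ≤ B * (t : ℝ≥0∞) ^ m

/-- some power of the maximal ideal acts on `X` through `I`. -/
def Nilp {S : Type u} (D : Type u) [CommRing S] [IsLocalRing S] [CommRing D] [Algebra S D]
    (I : Ideal S) (X : Type u) [AddCommGroup X] [Module D X] : Prop :=
  ∃ c : ℕ, ∀ s ∈ maximalIdeal S, algebraMap S D (s ^ c) ∈
    I.map (algebraMap S D) ⊔ Module.annihilator D X

end Vale.Agent.P177.SL
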