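import Vale.Agent.P177.SL.Hyp
import Vale.Agent.P177.SL.Base
import Vale.Agent.P177.Nat.AnnE

/-!
# The annihilators of the Tor modules of `WI J'` over `S ⊗ W(C')` (P177)

`D = S ⊗ W(C')` acts on `X = WI J'` through `ψ : S → W(C')`. Elements of `I.map ψ ⊆ W(C')` lie in
`I D + ann X`. The condition `Nilp D I X` for `S` with maximal ideal generated by `p` and the
`x_l`, `ψ x_l = [c_l]`.
-/

namespace Vale.Agent.P177.SL

open Vale.Agent.P202.Mix Function TensorProduct IsLocalRing Vale.Agent.P177.PI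
open scoped ENNReal

universe u

section teich

variable (p : ℕ) [hp : Fact p.Prime] {C' : Type u} [CommRing C'] [CharP C' p] [PerfectRing C' p]

theorem annx_teich_add (a b : C') : WittVector.teichmuller p (a + b) -
    (WittVector.teichmuller p a + WittVector.teichmuller p b) ∈
      Ideal.span {(p : WittVector p C')} := by
  have h1 := (WittVector.mem_span_p_pow_iff_le_coeff_eq_zero
    (WittVector.teichmuller p (a + b) -
      (WittVector.teichmuller p a + WittVector.teichmuller p b)) 1).2 (fun m hm => by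
    have hm0 : m = 0 := by omega
    subst hm0
    have h2 : WittVector.constantCoeff (WittVector.teichmuller p (a + b) -
        (WittVector.teichmuller p a + WittVector.teichmuller p b)) = 0 := by
      have h3 : ∀ x : C', WittVector.constantCoeff (WittVector.teichmuller p x) = x := fun x =>
        WittVector.teichmuller_coeff_zero p x
      rw [map_sub, RingHom.map_add, h3, h3, h3, sub_self]
    exact h2)
  rwa [pow_one] at h1

/-- the elements of `C'` with Teichmueller lift in a radical ideal containing `p`. -/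
def teichIdeal (𝔞 : Ideal (WittVector p C')) (hpa : (p : WittVector p C') ∈ 𝔞.radical) :
    Ideal C' where
  carrier := {x | WittVector.teichmuller p x ∈ 𝔞.radical}
  zero_mem' := by
    change WittVector.teichmuller p (0 : C') ∈ 𝔞.radical
    rw [WittVector.teichmuller_zero]
    exact zero_mem _
  add_mem' := by
    intro a b ha hb
    change WittVector.teichmuller p (a + b) ∈ 𝔞.radical
    have h1 := annx_teich_add p a b
    have h2 : Ideal.span {(p : WittVector p C')} ≤ 𝔞.radical := by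
      rw [Ideal.span_singleton_le_iff_mem]
      exact hpa
    have h3 := add_mem (h2 h1) (add_mem ha hb)
    rwa [sub_add_cancel] at h3
  smul_mem' := by
    intro r a ha
    change WittVector.teichmuller p (r * a) ∈ 𝔞.radical
    rw [map_mul]
    exact Ideal.mul_mem_left _ _ ha

/-- if `c ^ m ∈ (y)` and `p`, all `[y_i]` are in the radical of `𝔞`, so is `[c]`. -/
theorem teich_mem_radical {𝔞 : Ideal (WittVector p C')}
    (hpa : (p : WittVector p C') ∈ 𝔞.radical) {ι : Type*} (y : ι → C')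
    (hy : ∀ i, WittVector.teichmuller p (y i) ∈ 𝔞.radical) {c : C'} {m : ℕ}
    (hc : c ^ m ∈ Ideal.span (Set.range y)) : WittVector.teichmuller p c ∈ 𝔞.radical := by
  have h1 : Ideal.span (Set.range y) ≤ teichIdeal p 𝔞 hpa := by
    rw [Ideal.span_le]
    rintro _ ⟨i, rfl⟩
    exact hy i
  have h2 : WittVector.teichmuller p (c ^ m) ∈ 𝔞.radical := h1 hc
  rw [map_pow] at h2
  have h3 : WittVector.teichmuller p c ∈ 𝔞.radical.radical := ⟨m, h2⟩
  rwa [Ideal.radical_idem] at h3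

end teich

section ann

variable (p : ℕ) [hp : Fact p.Prime] {C' : Type u} [CommRing C'] {S : Type u} [CommRing S]
  (J' : Ideal C') (ψ : S →+* WittVector p C')

/-- the module `WI J'` over `S ⊗ W(C')`. -/
abbrev XS : Type u := XMod p J' (rhoS ψ (RingHom.id (WittVector p C')))

theorem tmul_sub_mem_ann (s : S) : (s ⊗ₜ (1 : WittVector p C') : S ⊗[ℤ] WittVector p C') -
    (1 : S) ⊗ₜ ψ s ∈ Module.annihilator (S ⊗[ℤ] WittVector p C') (XS p J' ψ) := by
  rw [Module.mem_annihilator]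
  intro x
  rw [xmod_smul, map_sub, rhoS_tmul, rhoS_tmul, map_one, map_one, mul_one, one_mul,
    RingHom.id_apply, sub_self, zero_smul]

theorem one_tmul_mem {I : Ideal S} {v : WittVector p C'} (hv : v ∈ I.map ψ) :
    ((1 : S) ⊗ₜ v : S ⊗[ℤ] WittVector p C') ∈
      I.map (algebraMap S (S ⊗[ℤ] WittVector p C')) ⊔
        Module.annihilator (S ⊗[ℤ] WittVector p C') (XS p J' ψ) := by
  let g : WittVector p C' →+* S ⊗[ℤ] WittVector p C' :=
    (Algebra.TensorProduct.includeRight : WittVector p C' →ₐ[ℤ] S ⊗[ℤ] WittVector p C').toRingHom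
  have h1 : I.map ψ ≤ (I.map (algebraMap S (S ⊗[ℤ] WittVector p C')) ⊔
      Module.annihilator (S ⊗[ℤ] WittVector p C') (XS p J' ψ)).comap g := by
    rw [Ideal.map_le_iff_le_comap]
    intro s hs
    change (1 : S) ⊗ₜ ψ s ∈ I.map (algebraMap S (S ⊗[ℤ] WittVector p C')) ⊔
      Module.annihilator (S ⊗[ℤ] WittVector p C') (XS p J' ψ)
    have h2 : algebraMap S (S ⊗[ℤ] WittVector p C') s ∈
        I.map (algebraMap S (S ⊗[ℤ] WittVector p C')) := Ideal.mem_map_of_mem _ hs
    have h3 := Ideal.sub_mem _ (Ideal.mem_sup_left h2 : _ ∈ I.map (algebraMap S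
      (S ⊗[ℤ] WittVector p C')) ⊔ Module.annihilator (S ⊗[ℤ] WittVector p C') (XS p J' ψ))
      (Ideal.mem_sup_right (tmul_sub_mem_ann p J' ψ s))
    have h4 : algebraMap S (S ⊗[ℤ] WittVector p C') s -
        ((s ⊗ₜ (1 : WittVector p C') : S ⊗[ℤ] WittVector p C') - (1 : S) ⊗ₜ ψ s) =
          (1 : S) ⊗ₜ ψ s := by
      have h5 : algebraMap S (S ⊗[ℤ] WittVector p C') s = s ⊗ₜ (1 : WittVector p C') := rfl
      rw [h5, sub_sub_cancel]
    rwa [h4] at h3
  exact h1 hv

theorem algebraMap_mem_of {I : Ideal S} {s : S} (hs : ψ s ∈ I.map ψ) :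
    algebraMap S (S ⊗[ℤ] WittVector p C') s ∈
      I.map (algebraMap S (S ⊗[ℤ] WittVector p C')) ⊔
        Module.annihilator (S ⊗[ℤ] WittVector p C') (XS p J' ψ) := by
  have h1 := Ideal.add_mem _ (Ideal.mem_sup_right (tmul_sub_mem_ann p J' ψ s) :
    _ ∈ I.map (algebraMap S (S ⊗[ℤ] WittVector p C')) ⊔
      Module.annihilator (S ⊗[ℤ] WittVector p C') (XS p J' ψ)) (one_tmul_mem p J' ψ hs)
  rw [sub_add_cancel] at h1
  exact h1

/-- powers of elements of `W(C')` in the radical of `I.map ψ`. -/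
theorem exists_pow_one_tmul_mem {I : Ideal S} {v : WittVector p C'}
    (hv : v ∈ (I.map ψ).radical) : ∃ l : ℕ,
    ((1 : S) ⊗ₜ v : S ⊗[ℤ] WittVector p C') ^ l ∈
      I.map (algebraMap S (S ⊗[ℤ] WittVector p C')) ⊔
        Module.annihilator (S ⊗[ℤ] WittVector p C') (XS p J' ψ) := by
  obtain ⟨l, hl⟩ := hv
  refine ⟨l, ?_⟩
  rw [Algebra.TensorProduct.tmul_pow, one_pow]
  exact one_tmul_mem p J' ψ hl

/-- the condition `Nilp`. -/
theorem nilp_of_le_radical [IsLocalRing S] [IsNoetherianRing S] {I : Ideal S}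
    (h : (maximalIdeal S).map ψ ≤ (I.map ψ).radical) :
    Nilp (S ⊗[ℤ] WittVector p C') I (XS p J' ψ) := by
  obtain ⟨c, hc⟩ := Ideal.exists_pow_le_of_le_radical_of_fg h
    (Ideal.FG.map (IsNoetherian.noetherian (maximalIdeal S)) ψ)
  refine ⟨c, fun s hs => algebraMap_mem_of p J' ψ ?_⟩
  rw [map_pow]
  exact hc (Ideal.pow_mem_pow (Ideal.mem_map_of_mem ψ hs) c)

end ann

section nilp

variable (p : ℕ) [hp : Fact p.Prime] {C' : Type u} [CommRing C'] [CharP C' p] [PerfectRing C' p]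
  {S : Type u} [CommRing S] [IsLocalRing S] [IsNoetherianRing S]
  (J' : Ideal C') (ψ : S →+* WittVector p C') {d : ℕ} (z : Fin d → S) (c : Fin d → C')

/-- `Nilp` from `p ^ K, [y_i] ^ K ∈ I W(C')` and `c_l ^ m ∈ (y)`. -/
theorem nilp_xs (hm : maximalIdeal S ≤ Ideal.span ({(p : S)} ∪ Set.range z))
    (hz : ∀ l, ψ (z l) = WittVector.teichmuller p (c l)) {I : Ideal S}
    (hp' : (p : WittVector p C') ∈ (I.map ψ).radical) {ι : Type*} (y : ι → C')
    (hy : ∀ i, WittVector.teichmuller p (y i) ∈ (I.map ψ).radical)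
    (hc : ∀ l, ∃ m : ℕ, c l ^ m ∈ Ideal.span (Set.range y)) :
    Nilp (S ⊗[ℤ] WittVector p C') I (XS p J' ψ) := by
  apply nilp_of_le_radical
  rw [Ideal.map_le_iff_le_comap]
  refine hm.trans ?_
  rw [Ideal.span_le]
  rintro s (hs | ⟨l, rfl⟩)
  · rw [Set.mem_singleton_iff] at hs
    subst hs
    change ψ (p : S) ∈ (I.map ψ).radical
    rw [map_natCast]
    exact hp'
  · change ψ (z l) ∈ (I.map ψ).radical
    rw [hz]
    obtain ⟨m, hm'⟩ := hc l
    exact teich_mem_radical p hp' y hy hm'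

omit [IsLocalRing S] [IsNoetherianRing S] in
/-- the hypothesis `hy` for the ideal `(p, z)`: powers of `[y]`, `y ^ m ∈ (c)`. -/
theorem teich_mem_radical_pz (hz : ∀ l, ψ (z l) = WittVector.teichmuller p (c l)) {I : Ideal S}
    (hpI : (p : S) ∈ I) (hzI : ∀ l, z l ∈ I) {y : C'} {m : ℕ}
    (hy : y ^ m ∈ Ideal.span (Set.range c)) :
    WittVector.teichmuller p y ∈ (I.map ψ).radical := by
  refine teich_mem_radical p ?_ c (fun l => ?_) hy
  · refine Ideal.le_radical ?_
    have := Ideal.mem_map_of_mem ψ hpI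
    rwa [map_natCast] at this
  · refine Ideal.le_radical ?_
    rw [← hz]
    exact Ideal.mem_map_of_mem ψ (hzI l)

end nilp

section cut

open Vale.Agent.P177.NatC

variable (p : ℕ) [hp : Fact p.Prime] {C' : Type u} [CommRing C'] [CharP C' p] [PerfectRing C' p]
  {S : Type u} [CommRing S] (J' : Ideal C') (φ : S →+* WittVector p C')

/-- `p, [t] ∈ rad (I W(C'))` and `v ∈ rad (I W(C'))` if `φ s` is close to `v` and
`s ∈ rad (I + 𝔥)`. -/
theorem cut_radical {t : C'} {K M : ℕ} (hKM : K < M) {I 𝔥 : Ideal S} {E : S}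
    {z w : WittVector p C'} (hz : IsUnit z) (hEI : E ∈ I)
    (hE : φ E = ((p : WittVector p C') - WittVector.teichmuller p t) * z +
      (p : WittVector p C') ^ M * w)
    (h𝔥 : ∀ x ∈ 𝔥, φ x ∈ XM p t M) (hpK : (p : S) ^ K ∈ I ⊔ 𝔥) :
    (p : WittVector p C') ∈ (I.map φ).radical ∧
      WittVector.teichmuller p t ∈ (I.map φ).radical ∧
      ∀ (s : S) (v : WittVector p C'), s ∈ (I ⊔ 𝔥).radical → φ s - v ∈ XM p t M →
        v ∈ (I.map φ).radical := by
  obtain ⟨h1, h2⟩ := p_pow_mem_map p φ hKM hz hEI hE h𝔥 hpK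
  refine ⟨⟨K, h1⟩, ⟨K, te_pow_mem_map p φ h2 h1⟩, ?_⟩
  rintro s v ⟨k, hk⟩ hv
  exact ⟨k, pow_mem_map_of_sub_mem p φ h2 h𝔥 hk hv⟩

/-- `Nilp` and the powers of `1 ⊗ p`, `1 ⊗ [t]`, `1 ⊗ [u_i]`, all hypotheses together. -/
theorem nilp_cut [IsLocalRing S] [IsNoetherianRing S] {d r : ℕ} (x : Fin d → S) (c : Fin d → C')
    (hm : maximalIdeal S ≤ Ideal.span ({(p : S)} ∪ Set.range x))
    (hx : ∀ l, φ (x l) = WittVector.teichmuller p (c l))
    {t : C'} {u : Fin r → C'} {U : Fin r → S} {K M : ℕ} (hKM : K < M) {I 𝔥 : Ideal S} {E : S}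
    {z w : WittVector p C'} (hz : IsUnit z) (hEI : E ∈ I)
    (hE : φ E = ((p : WittVector p C') - WittVector.teichmuller p t) * z +
      (p : WittVector p C') ^ M * w)
    (h𝔥 : ∀ x ∈ 𝔥, φ x ∈ XM p t M) (hpK : (p : S) ^ K ∈ I ⊔ 𝔥)
    (hU : ∀ i, U i ∈ (I ⊔ 𝔥).radical)
    (hu : ∀ i, φ (U i) - WittVector.teichmuller p (u i) ∈ XM p t M)
    (hc : ∀ l, ∃ m : ℕ, c l ^ m ∈ Ideal.span ({t} ∪ Set.range u)) :
    Nilp (S ⊗[ℤ] WittVector p C') I (XS p J' φ) ∧
      (∃ l : ℕ, ((1 : S) ⊗ₜ (p : WittVector p C') : S ⊗[ℤ] WittVector p C') ^ l ∈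
        I.map (algebraMap S (S ⊗[ℤ] WittVector p C')) ⊔
          Module.annihilator (S ⊗[ℤ] WittVector p C') (XS p J' φ)) ∧
      (∃ l : ℕ, ((1 : S) ⊗ₜ WittVector.teichmuller p t : S ⊗[ℤ] WittVector p C') ^ l ∈
        I.map (algebraMap S (S ⊗[ℤ] WittVector p C')) ⊔
          Module.annihilator (S ⊗[ℤ] WittVector p C') (XS p J' φ)) ∧
      ∀ i, ∃ l : ℕ, ((1 : S) ⊗ₜ WittVector.teichmuller p (u i) : S ⊗[ℤ] WittVector p C') ^ l ∈
        I.map (algebraMap S (S ⊗[ℤ] WittVector p C')) ⊔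
          Module.annihilator (S ⊗[ℤ] WittVector p C') (XS p J' φ) := by
  obtain ⟨h1, h2, h3⟩ := cut_radical p φ hKM hz hEI hE h𝔥 hpK
  have h4 : ∀ i, WittVector.teichmuller p (u i) ∈ (I.map φ).radical := fun i =>
    h3 (U i) _ (hU i) (hu i)
  refine ⟨?_, exists_pow_one_tmul_mem p J' φ h1, exists_pow_one_tmul_mem p J' φ h2, fun i =>
    exists_pow_one_tmul_mem p J' φ (h4 i)⟩
  refine nilp_xs p J' φ x c hm hx h1 (fun o : Option (Fin r) => o.elim t u) ?_ ?_
  · intro o
    cases o with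
    | none => exact h2
    | some i => exact h4 i
  · intro l
    obtain ⟨m, hm'⟩ := hc l
    refine ⟨m, ?_⟩
    have h5 : Set.range (fun o : Option (Fin r) => o.elim t u) = {t} ∪ Set.range u := by
      ext y
      constructor
      · rintro ⟨o, rfl⟩
        cases o with
        | none => exact Or.inl rfl
        | some i => exact Or.inr ⟨i, rfl⟩
      · rintro (hy | ⟨i, rfl⟩)
        · exact ⟨none, (Set.mem_singleton_iff.1 hy).symm⟩
        · exact ⟨some i, rfl⟩
    rw [h5]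
    exact hm'

end cut

end Vale.Agent.P177.SL
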