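import Vale.Agent.P177.Nat.MassW
import Vale.Agent.P177.Perf.KTor
import Vale.Agent.P177.Perf.KzComp
import Vale.Agent.P177.KM.KW
import Vale.Agent.P177.Perf.WJ2

/-!
RHO, Koszul side: the Koszul homology of `WI J`, of `WI J / xi` and of `J`; the top case; the
Euler characteristic of the Koszul homology.
-/

namespace Vale.Agent.P177.SL

open WittVector Vale.Agent.P202.Mix Vale.Agent.P177.PI Vale.Agent.P177.KG Vale.Agent.P177.KM
  Vale.Agent.P177.MN Function
open scoped ENNReal Pointwise

universe u

section chiK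

variable {R : Type u} [CommRing R]

/-- the Euler characteristic of the Koszul homology. -/
noncomputable def chiK (L : ALen R) (n : ℕ) (M : Type u) [AddCommGroup M] [Module R M]
    (xs : List R) : ℝ :=
  ∑ i ∈ Finset.range n, (-1 : ℝ) ^ i * (L.len ((KC M xs).H i)).toReal

variable (L : ALen R) {M N K : Type u} [AddCommGroup M] [Module R M] [AddCommGroup N] [Module R N]
  [AddCommGroup K] [Module R K]

/-- additivity of the length on an exact sequence. -/
theorem ker_range_len {A B D : Type u} [AddCommGroup A] [Module R A] [AddCommGroup B] [Module R B]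
    [AddCommGroup D] [Module R D] (f : A →ₗ[R] B) (g : B →ₗ[R] D) (h : Exact f g) :
    L.len B = L.len ↥(LinearMap.range f) + L.len ↥(LinearMap.range g) := by
  have h1 : LinearMap.ker g = LinearMap.range f := LinearMap.exact_iff.1 h
  have h2 := L.add (LinearMap.ker g).subtype g.rangeRestrict (Submodule.injective_subtype _)
    g.surjective_rangeRestrict (by
      intro x
      rw [← LinearMap.mem_ker, LinearMap.ker_rangeRestrict]
      constructor
      · intro hx
        exact ⟨⟨x, hx⟩, rfl⟩
      · rintro ⟨y, rfl⟩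
        exact y.2)
  rw [h2, h1]

theorem chiK_add {f : M →ₗ[R] N} {g : N →ₗ[R] K} (hf : Injective f) (hg : Surjective g)
    (hfg : Exact f g) (xs : List R) (h1 : ∀ i, L.len ((KC M xs).H i) ≠ ⊤)
    (h2 : ∀ i, L.len ((KC N xs).H i) ≠ ⊤) {n : ℕ} (hn : xs.length < n) :
    chiK L n N xs = chiK L n M xs + chiK L n K xs := by
  have h := KCses hf hg hfg xs
  let a : ℕ → ℝ≥0∞ := fun i => L.len ↥(LinearMap.range (h.delta i))
  let b : ℕ → ℝ≥0∞ := fun i => L.len ↥(LinearMap.range ((KCmap f xs).H i))
  let c : ℕ → ℝ≥0∞ := fun i => L.len ↥(LinearMap.range ((KCmap g xs).H i))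
  have l1 : ∀ i, L.len ((KC M xs).H i) = a i + b i := fun i => ker_range_len L _ _ (h.exact₁ i)
  have l2 : ∀ i, L.len ((KC N xs).H i) = b i + c i := fun i => ker_range_len L _ _ (h.exact₂ i)
  have l3 : ∀ i, L.len ((KC K xs).H (i + 1)) = c (i + 1) + a i := fun i =>
    ker_range_len L _ _ (h.exact₃ i)
  have l4 : L.len ((KC K xs).H 0) = c 0 :=
    (len_congr L (LinearEquiv.ofTop _ (LinearMap.range_eq_top.2 h.surj_zero))).symm
  have f1 : ∀ i, a i ≠ ⊤ := fun i hi => h1 i (by rw [l1, hi, top_add])
  have f2 : ∀ i, b i ≠ ⊤ := fun i hi => h1 i (by rw [l1, hi, add_top])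
  have f3 : ∀ i, c i ≠ ⊤ := fun i hi => h2 i (by rw [l2, hi, add_top])
  have m1 : ∀ i, (L.len ((KC M xs).H i)).toReal = (a i).toReal + (b i).toReal := fun i => by
    rw [l1, ENNReal.toReal_add (f1 i) (f2 i)]
  have m2 : ∀ i, (L.len ((KC N xs).H i)).toReal = (b i).toReal + (c i).toReal := fun i => by
    rw [l2, ENNReal.toReal_add (f2 i) (f3 i)]
  have m3 : ∀ i, (L.len ((KC K xs).H (i + 1))).toReal = (c (i + 1)).toReal + (a i).toReal :=
    fun i => by rw [l3, ENNReal.toReal_add (f3 _) (f1 i)]
  have key : ∀ n, chiK L (n + 1) M xs + chiK L (n + 1) K xs - chiK L (n + 1) N xs =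
      (-1) ^ n * (a n).toReal := by
    intro n
    unfold chiK
    induction n with
    | zero =>
      simp only [zero_add, Finset.sum_range_one, pow_zero, one_mul]
      rw [m1, m2, l4]
      ring
    | succ n ih =>
      rw [Finset.sum_range_succ, Finset.sum_range_succ _ (n + 1), Finset.sum_range_succ _ (n + 1)]
      rw [m1, m2, m3, pow_succ]
      linear_combination ih
  cases n with
  | zero => omega
  | succ n =>
    have h5 : a n = 0 := by
      have h6 := l3 n
      rw [KC_len_eq_zero L K xs (by omega)] at h6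
      exact (add_eq_zero.1 h6.symm).2
    have h7 := key n
    rw [h5, ENNReal.toReal_zero, mul_zero] at h7
    linarith

/-- finiteness for the quotient. -/
theorem KC_right_ne_top {f : M →ₗ[R] N} {g : N →ₗ[R] K} (hf : Injective f) (hg : Surjective g)
    (hfg : Exact f g) (xs : List R) (h1 : ∀ i, L.len ((KC M xs).H i) ≠ ⊤)
    (h2 : ∀ i, L.len ((KC N xs).H i) ≠ ⊤) (i : ℕ) : L.len ((KC K xs).H i) ≠ ⊤ := by
  cases i with
  | zero => exact ne_top_of_le_ne_top (h2 0) (KC_len_right_zero L hf hg hfg xs)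
  | succ i =>
    exact ne_top_of_le_ne_top (ENNReal.add_ne_top.2 ⟨h2 _, h1 _⟩) (KC_len_right L hf hg hfg xs i)

end chiK

section J

variable (p : ℕ) [hp : Fact p.Prime] {C : Type u} [CommRing C] [CharP C p] [PerfectRing C p]

attribute [local instance] algW

/-- `WI J / xi`. -/
abbrev YJ (J : Ideal C) (t : C) : Type u :=
  ↥(WI p J) ⧸ (Ideal.span {(p : WittVector p C) - teichmuller p t} •
    (⊤ : Submodule (WittVector p C) ↥(WI p J)))

variable {p}

theorem coeff_zero_xi (t : C) : ((p : WittVector p C) - teichmuller p t).coeff 0 = -t := by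
  have h : WittVector.constantCoeff ((p : WittVector p C) - teichmuller p t) = -t := by
    rw [map_sub, map_natCast, CharP.cast_eq_zero, zero_sub]
    exact congrArg Neg.neg (teichmuller_coeff_zero p t)
  exact h

theorem mem_xi_smul {J : Ideal C} {t : C} {x : ↥(WI p J)} :
    x ∈ (Ideal.span {(p : WittVector p C) - teichmuller p t} •
      (⊤ : Submodule (WittVector p C) ↥(WI p J))) ↔
      ∃ w ∈ WI p J, (x : WittVector p C) = ((p : WittVector p C) - teichmuller p t) * w := by
  rw [Submodule.ideal_span_singleton_smul, Submodule.mem_smul_pointwise_iff_exists]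
  constructor
  · rintro ⟨w, -, hw⟩
    exact ⟨w, w.2, (congrArg Subtype.val hw).symm⟩
  · rintro ⟨w, hw, h⟩
    exact ⟨⟨w, hw⟩, trivial, Subtype.ext h.symm⟩

/-- `xi` is regular on `W(C)`. -/
theorem xiW_reg {t : C} (ht : t ∈ nonZeroDivisors C) (x : WittVector p C)
    (h : ((p : WittVector p C) - teichmuller p t) * x = 0) : x = 0 := by
  refine Vale.Agent.P177.WJ.eq_zero_of_mul (E := (p : WittVector p C) - teichmuller p t) ?_ h
  rw [coeff_zero_xi]
  rw [← neg_one_mul]
  exact mul_mem (isUnit_one.neg.mem_nonZeroDivisors) ht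

/-- **(C1)**: `H_i(p :: xs; WI J / xi) = H_i([t] :: xs; J)`. -/
theorem len_KC_YJ (L : ALen (WittVector p C)) {J : Ideal C} (hJ : IsPerf p J) {t : C}
    (ht : t ∈ nonZeroDivisors C) (xs : List (WittVector p C)) (i : ℕ) :
    L.len ((KC (YJ p J t) ((p : WittVector p C) :: xs)).H i) =
      L.len ((KC ↥J (teichmuller p t :: xs)).H i) := by
  refine KC_len_WIE L (fun r => rfl) hJ (teichmuller p t) ?_
    ((p : WittVector p C) - teichmuller p t) (-1) ?_ (Submodule.mkQ _)
    (Submodule.mkQ_surjective _) (fun x => ?_) xs i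
  · change (teichmuller p t).coeff 0 ∈ nonZeroDivisors C
    rw [teichmuller_coeff_zero]
    exact ht
  · rw [coeff_zero_xi]
    change _ = _ * (teichmuller p t).coeff 0
    rw [teichmuller_coeff_zero]
    simp
  · rw [Submodule.mkQ_apply, Submodule.Quotient.mk_eq_zero]
    exact mem_xi_smul

/-- `H_i(xi :: xs; WI J) = H_i(xs; WI J / xi)`. -/
theorem len_KC_xi (L : ALen (WittVector p C)) {J : Ideal C} {t : C}
    (ht : t ∈ nonZeroDivisors C) (xs : List (WittVector p C)) (i : ℕ) :
    L.len ((KC ↥(WI p J) (((p : WittVector p C) - teichmuller p t) :: xs)).H i) =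
      L.len ((KC (YJ p J t) xs).H i) := by
  refine KC_len_cons L ((p : WittVector p C) - teichmuller p t) ?_ (Submodule.mkQ _)
    (Submodule.mkQ_surjective _) (fun x => ?_) xs i
  · rintro ⟨x, hx⟩ h
    exact Subtype.ext (xiW_reg ht x (congrArg Subtype.val h))
  · rw [Submodule.mkQ_apply, Submodule.Quotient.mk_eq_zero, mem_xi_smul]
    constructor
    · rintro ⟨w, hw, h⟩
      exact ⟨⟨w, hw⟩, Subtype.ext h.symm⟩
    · rintro ⟨w, rfl⟩
      exact ⟨w, w.2, rfl⟩

/-- **(C2)**: the homology of 855's operators and `KC`. -/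
theorem len_KH_mulJ_eq (L : AddLen (WittVector p C)) (J : Ideal C) {n : ℕ} (y : Fin n → C)
    (i : ℕ) : L.len (KH (fun l => mulJ (WittVector p C) J (y l)) i) =
      (ALen.of L).len ((KC ↥J (List.ofFn fun l => teichmuller p (y l))).H i) := by
  have h := len_KH_eq (R := WittVector p C) (C := WittVector p C) (ALen.of L)
    (fun l => mulJ (WittVector p C) J (y l)) (fun l => teichmuller p (y l)) (by
      intro l v
      apply Subtype.ext
      change y l * (v : C) = (teichmuller p (y l)).coeff 0 * (v : C)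
      rw [teichmuller_coeff_zero]) i
  rw [ALen.res_len] at h
  exact h

/-- the module `C` over `W(C)` and a weakly regular sequence. -/
theorem isWeaklyRegular_te {xs : List C} (h : RingTheory.Sequence.IsWeaklyRegular C xs) :
    RingTheory.Sequence.IsWeaklyRegular C (xs.map (teichmuller p)) := by
  rw [← RingTheory.Sequence.isWeaklyRegular_map_algebraMap_iff C C]
  have h1 : (xs.map (teichmuller p)).map (algebraMap (WittVector p C) C) = xs := by
    rw [List.map_map]
    conv_rhs => rw [← List.map_id xs]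
    refine List.map_congr_left fun x _ => ?_
    exact teichmuller_coeff_zero p x
  rw [h1]
  exact h

/-- `⊤ ≃ C` over `W(C)`. -/
def topE : ↥(⊤ : Ideal C) ≃ₗ[WittVector p C] C where
  toFun x := x
  invFun x := ⟨x, trivial⟩
  left_inv _ := rfl
  right_inv _ := rfl
  map_add' _ _ := rfl
  map_smul' _ _ := rfl

/-- **(C3)**, vanishing. -/
theorem len_KC_top_succ (L : ALen (WittVector p C)) {t : C} {us : List C}
    (h : RingTheory.Sequence.IsWeaklyRegular C (t :: us)) (ht : t ∈ nonZeroDivisors C) (i : ℕ) :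
    L.len ((KC (YJ p (⊤ : Ideal C) t)
      ((p : WittVector p C) :: us.map (teichmuller p))).H (i + 1)) = 0 := by
  rw [len_KC_YJ L (fun _ _ _ _ _ _ _ _ => Submodule.mem_top) ht]
  have h1 := isWeaklyRegular_te (p := p) h
  rw [← (topE (p := p) (C := C)).isWeaklyRegular_congr] at h1
  have := KC_H_succ_subsingleton _ ↥(⊤ : Ideal C) h1 i
  rw [List.map_cons] at this
  exact len_subsingleton L

/-- **(C3)**, degree zero. -/
theorem len_KC_top_zero (L : ALen (WittVector p C)) {t : C} (ht : t ∈ nonZeroDivisors C)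
    (us : List (WittVector p C)) :
    L.len ((KC (YJ p (⊤ : Ideal C) t) ((p : WittVector p C) :: us)).H 0) =
      L.len (WittVector p C ⧸ Ideal.ofList ((p : WittVector p C) :: teichmuller p t :: us)) := by
  rw [len_KC_YJ L (fun _ _ _ _ _ _ _ _ => Submodule.mem_top) ht]
  let f : WittVector p C →ₗ[WittVector p C] (KC ↥(⊤ : Ideal C) (teichmuller p t :: us)).H 0 :=
    LinearMap.toSpanSingleton _ _ (u0 ↥(⊤ : Ideal C) (teichmuller p t :: us) ⟨1, trivial⟩)
  have hf : Surjective f := by
    intro z
    obtain ⟨⟨c, hc⟩, rfl⟩ := u0_surjective _ _ z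
    refine ⟨teichmuller p c, ?_⟩
    change teichmuller p c • u0 ↥(⊤ : Ideal C) (teichmuller p t :: us) ⟨1, trivial⟩ = _
    rw [← map_smul]
    congr 1
    apply Subtype.ext
    change (teichmuller p c).coeff 0 * 1 = c
    rw [teichmuller_coeff_zero, mul_one]
  have hk : LinearMap.ker f = Ideal.ofList ((p : WittVector p C) :: teichmuller p t :: us) := by
    ext w
    have h1 : f w = 0 ↔ (w • (⟨1, trivial⟩ : ↥(⊤ : Ideal C))) ∈
        Ideal.ofList (teichmuller p t :: us) • (⊤ : Submodule (WittVector p C) ↥(⊤ : Ideal C)) := by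
      rw [← ker_u0, LinearMap.mem_ker, map_smul]
      rfl
    have h2 : (⊤ : Submodule (WittVector p C) ↥(⊤ : Ideal C)) =
        Submodule.span (WittVector p C) {(⟨1, trivial⟩ : ↥(⊤ : Ideal C))} := by
      symm
      rw [eq_top_iff]
      rintro ⟨c, hc⟩ -
      refine Submodule.mem_span_singleton.2 ⟨teichmuller p c, Subtype.ext ?_⟩
      change (teichmuller p c).coeff 0 * 1 = c
      rw [teichmuller_coeff_zero, mul_one]
    have h5 : Ideal.ofList ((p : WittVector p C) :: teichmuller p t :: us) =
        Ideal.span {(p : WittVector p C)} ⊔ Ideal.ofList (teichmuller p t :: us) :=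
      Ideal.ofList_cons _ _
    rw [LinearMap.mem_ker, h1, h2, Submodule.mem_smul_span_singleton, h5, Submodule.mem_sup]
    constructor
    · rintro ⟨b, hb, h⟩
      refine ⟨w - b, ?_, b, hb, by ring⟩
      rw [← WittVector.ker_constantCoeff, RingHom.mem_ker, map_sub, sub_eq_zero]
      have h3 : b.coeff 0 * 1 = w.coeff 0 * 1 := congrArg Subtype.val h
      rw [mul_one, mul_one] at h3
      exact h3.symm
    · rintro ⟨a, ha, b, hb, rfl⟩
      refine ⟨b, hb, ?_⟩
      rw [← WittVector.ker_constantCoeff, RingHom.mem_ker] at ha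
      apply Subtype.ext
      change b.coeff 0 * 1 = (a + b).coeff 0 * 1
      have h3 : (a + b).coeff 0 = a.coeff 0 + b.coeff 0 :=
        map_add (WittVector.constantCoeff (p := p) (R := C)) a b
      rw [h3]
      have h4 : a.coeff 0 = 0 := ha
      rw [h4, zero_add]
  rw [← len_congr L (f.quotKerEquivOfSurjective hf), hk]

end J

end Vale.Agent.P177.SL
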