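import Vale.Agent.P177.Eul
import Vale.Agent.P177.FinLength
import Vale.Agent.P177.CPsA

/-!
Finite length under a residually surjective base ring, and systems of parameters for modules.
-/

set_option linter.all false

namespace Vale.Agent.P177.SL

open IsLocalRing Function

universe u

section base

variable {W₀ S : Type u} [CommRing W₀] [CommRing S] [IsLocalRing S] [Algebra W₀ S]

/-- A simple module over `S` is simple over `W₀`. -/
theorem isSimpleModule_of_residual
    (hres : Surjective ((Ideal.Quotient.mk (maximalIdeal S)).comp (algebraMap W₀ S)))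
    (M : Type u) [AddCommGroup M] [Module S M] [Module W₀ M] [IsScalarTower W₀ S M]
    (h : IsSimpleModule S M) : IsSimpleModule W₀ M := by
  have hnt : Nontrivial M := IsSimpleModule.nontrivial S M
  have hann : Module.annihilator S M = maximalIdeal S := by
    have : (Module.annihilator S M).IsMaximal := IsSimpleModule.annihilator_isMaximal
    exact IsLocalRing.eq_maximalIdeal this
  rw [isSimpleModule_iff_toSpanSingleton_surjective] at h ⊢
  refine ⟨hnt, fun x hx y => ?_⟩
  obtain ⟨s, hs⟩ := h.2 x hx y
  obtain ⟨w, hw⟩ := hres (Ideal.Quotient.mk _ s)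
  refine ⟨w, ?_⟩
  rw [RingHom.comp_apply, Ideal.Quotient.mk_eq_mk_iff_sub_mem, ← hann,
    Module.mem_annihilator] at hw
  have h1 := hw x
  rw [sub_smul, sub_eq_zero] at h1
  rw [LinearMap.toSpanSingleton_apply] at hs ⊢
  rw [← hs, ← h1, algebraMap_smul]

theorem isFiniteLength_of_aux
    (hres : Surjective ((Ideal.Quotient.mk (maximalIdeal S)).comp (algebraMap W₀ S)))
    (M : Type u) [AddCommGroup M] [Module S M] (h : IsFiniteLength S M) :
    ∀ [Module W₀ M] [IsScalarTower W₀ S M], IsFiniteLength W₀ M := by
  induction h with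
  | of_subsingleton =>
    intro _ _
    exact IsFiniteLength.of_subsingleton
  | of_simple_quotient hN ih =>
    rename_i M _ _ N hsimple
    intro _ _
    have h1 : IsFiniteLength W₀ N := ih
    have h2 : IsSimpleModule W₀ (M ⧸ N) := isSimpleModule_of_residual hres _ hsimple
    have hex : Exact N.subtype N.mkQ := LinearMap.exact_subtype_mkQ N
    rw [← Module.length_ne_top_iff] at h1 ⊢
    rw [Module.length_eq_add_of_exact (N.subtype.restrictScalars W₀) (N.mkQ.restrictScalars W₀)
      (Submodule.injective_subtype _) (Submodule.mkQ_surjective _) hex]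
    have h3 : Module.length W₀ (M ⧸ N) = 1 := Module.length_eq_one_iff.2 h2
    rw [h3]
    exact WithTop.add_ne_top.2 ⟨h1, ENat.one_ne_top⟩

/-- Finite length descends to a residually surjective base ring. -/
theorem isFiniteLength_of
    (hres : Surjective ((Ideal.Quotient.mk (maximalIdeal S)).comp (algebraMap W₀ S)))
    {M : Type u} [AddCommGroup M] [Module S M] [Module W₀ M] [IsScalarTower W₀ S M]
    (h : IsFiniteLength S M) : IsFiniteLength W₀ M :=
  isFiniteLength_of_aux hres M h

omit [IsLocalRing S] in
/-- Lengths increase under restriction of scalars. -/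
theorem length_le (M : Type u) [AddCommGroup M] [Module S M] [Module W₀ M]
    [IsScalarTower W₀ S M] : Module.length S M ≤ Module.length W₀ M := by
  have h : StrictMono (fun N : Submodule S M => N.restrictScalars W₀) := fun N N' h => h
  have h1 := Order.krullDim_le_of_strictMono _ h
  rw [← Module.coe_length, ← Module.coe_length] at h1
  exact_mod_cast h1

end base

section sop

variable {S : Type u} [CommRing S] [IsLocalRing S] [IsNoetherianRing S]

theorem isFiniteLength_quot (N : Type u) [AddCommGroup N] [Module S N] [Module.Finite S N]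
    (ss : List S) (h : maximalIdeal S ≤ (Module.annihilator S N ⊔ Ideal.ofList ss).radical)
    (n : ℕ) : IsFiniteLength S
      (N ⧸ (Ideal.ofList (ss.map (· ^ n)) • ⊤ : Submodule S N)) := by
  have h1 : FL ([] : List S) (N ⧸ (Ideal.ofList (ss.map (· ^ n)) • ⊤ : Submodule S N)) := by
    unfold FL
    rw [Ideal.ofList_nil, sup_bot_eq]
    refine h.trans ?_
    rw [Ideal.radical_eq_sInf, Ideal.radical_eq_sInf]
    refine le_sInf ?_
    rintro q ⟨hq1, hq⟩
    refine sInf_le ⟨sup_le ?_ ?_, hq⟩
    · refine le_trans ?_ hq1
      exact LinearMap.annihilator_le_of_surjective (Submodule.mkQ _) (Submodule.mkQ_surjective _)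
    · rw [Ideal.ofList, Ideal.span_le]
      intro x hx
      refine hq.mem_of_pow_mem n (hq1 ?_)
      rw [Module.mem_annihilator]
      intro y
      obtain ⟨z, rfl⟩ := Submodule.mkQ_surjective _ y
      rw [← map_smul, Submodule.mkQ_apply, Submodule.Quotient.mk_eq_zero]
      refine Submodule.smul_mem_smul (Ideal.subset_span ?_) trivial
      exact List.mem_map.2 ⟨x, hx, rfl⟩
  rw [← Module.length_ne_top_iff]
  exact h1.length_ne_top

theorem exists_sop (N : Type u) [AddCommGroup N] [Module S N] [Module.Finite S N] (a : ℕ)
    (ha : Module.supportDim S N = a) :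
    ∃ ss : List S, ss.length = a ∧ (∀ x ∈ ss, x ∈ maximalIdeal S) ∧
      maximalIdeal S ≤ (Module.annihilator S N ⊔ Ideal.ofList ss).radical := by
  have h1 : Module.supportDim S (S ⧸ Module.annihilator S N) = (a : WithBot ℕ∞) := by
    rw [Module.supportDim_quotient_eq_ringKrullDim,
      ← Module.supportDim_eq_ringKrullDim_quotient_annihilator, ha]
  refine exists_parameters (Module.annihilator S N) ?_ a h1
  intro htop
  rw [htop] at h1
  have : Subsingleton (S ⧸ (⊤ : Ideal S)) := Ideal.Quotient.subsingleton_iff.2 rfl
  rw [Module.supportDim_eq_bot_of_subsingleton] at h1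
  exact absurd h1.symm (WithBot.coe_ne_bot)

end sop

end Vale.Agent.P177.SL
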