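import Vale.Agent.P177.EulPos
import Vale.Agent.P177.FinLength

/-!
P177: `u ^ n ≤ length (N / (z_1 ^ u, .., z_n ^ u) N)` for `n = dim N`.
-/

namespace Vale.Agent.P177

open TensorProduct Function IsLocalRing Pointwise

universe u

section

variable {B : Type u} [CommRing B] [IsLocalRing B] [IsNoetherianRing B]

omit [IsLocalRing B] [IsNoetherianRing B] in
theorem mem_pow_smul_top {X : Type u} [AddCommGroup X] [Module B X] (z : B) (x : X) :
    x ∈ z • (⊤ : Submodule B X) ↔ ∃ y, z • y = x := by
  rw [Submodule.mem_smul_pointwise_iff_exists]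
  simp

theorem eul_quot_pow (z : B) (ws : List B) (X : Type u) [AddCommGroup X] [Module B X]
    [Module.Finite B X] (hreg : IsSMulRegular X z) (hX : FL (z :: ws) X) (n : ℕ) :
    FL ws (QuotSMulTop (z ^ n) X) ∧
      eul ws (QuotSMulTop (z ^ n) X) = n * eul ws (QuotSMulTop z X) := by
  have hFL : ∀ n : ℕ, FL ws (QuotSMulTop (z ^ n) X) := by
    intro n
    refine (hX.of_surjective _ (Submodule.mkQ_surjective (z ^ n • (⊤ : Submodule B X)))).of_pow n ?_
    exact QuotSMulTop.mem_annihilator X (z ^ n)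
  refine ⟨hFL n, ?_⟩
  induction n with
  | zero =>
    have : Subsingleton (QuotSMulTop (z ^ 0) X) := by
      rw [pow_zero]
      refine ⟨fun a b => ?_⟩
      obtain ⟨a, rfl⟩ := Submodule.mkQ_surjective _ a
      obtain ⟨b, rfl⟩ := Submodule.mkQ_surjective _ b
      rw [← sub_eq_zero, ← map_sub, Submodule.mkQ_apply, Submodule.Quotient.mk_eq_zero,
        mem_pow_smul_top]
      exact ⟨_, one_smul _ _⟩
    rw [eul_subsingleton, Nat.cast_zero, zero_mul]
  | succ n ih =>
    let f : QuotSMulTop (z ^ n) X →ₗ[B] QuotSMulTop (z ^ (n + 1)) X :=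
      Submodule.mapQ _ _ (LinearMap.lsmul B X z) (by
        intro x hx
        rw [mem_pow_smul_top] at hx
        obtain ⟨y, rfl⟩ := hx
        rw [Submodule.mem_comap, mem_pow_smul_top]
        exact ⟨y, by rw [LinearMap.lsmul_apply, smul_smul, pow_succ']⟩)
    let g : QuotSMulTop (z ^ (n + 1)) X →ₗ[B] QuotSMulTop z X :=
      Submodule.mapQ _ _ LinearMap.id (by
        intro x hx
        rw [mem_pow_smul_top] at hx
        obtain ⟨y, rfl⟩ := hx
        rw [Submodule.mem_comap, mem_pow_smul_top]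
        exact ⟨z ^ n • y, by rw [LinearMap.id_apply, smul_smul, pow_succ']⟩)
    have hf : Injective f := by
      rw [injective_iff_map_eq_zero]
      intro x hx
      obtain ⟨x, rfl⟩ := Submodule.mkQ_surjective _ x
      change (z ^ (n + 1) • (⊤ : Submodule B X)).mkQ (z • x) = 0 at hx
      rw [Submodule.mkQ_apply, Submodule.Quotient.mk_eq_zero, mem_pow_smul_top] at hx ⊢
      obtain ⟨y, hy⟩ := hx
      refine ⟨y, hreg ?_⟩
      change z • (z ^ n • y) = z • x
      rw [← hy, smul_smul, pow_succ']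
    have hg : Surjective g := by
      intro x
      obtain ⟨x, rfl⟩ := Submodule.mkQ_surjective _ x
      exact ⟨Submodule.mkQ _ x, rfl⟩
    have hex : Exact f g := by
      intro x
      obtain ⟨x, rfl⟩ := Submodule.mkQ_surjective _ x
      constructor
      · intro hx
        change (z • (⊤ : Submodule B X)).mkQ x = 0 at hx
        rw [Submodule.mkQ_apply, Submodule.Quotient.mk_eq_zero, mem_pow_smul_top] at hx
        obtain ⟨y, rfl⟩ := hx
        exact ⟨Submodule.mkQ _ y, rfl⟩
      · rintro ⟨y, hy⟩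
        rw [← hy]
        obtain ⟨y, rfl⟩ := Submodule.mkQ_surjective _ y
        change (z • (⊤ : Submodule B X)).mkQ (z • y) = 0
        rw [Submodule.mkQ_apply, Submodule.Quotient.mk_eq_zero, mem_pow_smul_top]
        exact ⟨y, rfl⟩
    rw [eul_add ws f g hf hg hex (hFL (n + 1)), ih]
    push_cast
    ring

/-- `eul` is multiplicative in the first parameter. -/
theorem eul_cons_pow (z : B) (ws : List B) (X : Type u) [AddCommGroup X] [Module B X]
    [Module.Finite B X] (hX : FL (z :: ws) X) (n : ℕ) :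
    eul (z ^ n :: ws) X = n * eul (z :: ws) X := by
  obtain ⟨m, Γ, hΓ, hreg⟩ := exists_torsion_pow X z
  have hX' : FL (z ^ n :: ws) X := by
    unfold FL at hX ⊢
    refine hX.trans ?_
    rw [← Ideal.radical_idem (Module.annihilator B X ⊔ Ideal.ofList (z ^ n :: ws))]
    apply Ideal.radical_mono
    rw [Ideal.ofList_cons, Ideal.ofList_cons]
    refine sup_le ?_ (sup_le ?_ ?_)
    · exact le_sup_left.trans Ideal.le_radical
    · rw [Ideal.span_singleton_le_iff_mem]
      exact ⟨n, Ideal.mem_sup_right (Ideal.mem_sup_left (Ideal.mem_span_singleton_self _))⟩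
    · exact (le_sup_right.trans le_sup_right).trans Ideal.le_radical
  have hex : Exact Γ.subtype Γ.mkQ := by
    intro x
    simp
  have h1 := eul_add (z :: ws) Γ.subtype Γ.mkQ (Submodule.injective_subtype _)
    (Submodule.mkQ_surjective _) hex hX
  have h2 := eul_add (z ^ n :: ws) Γ.subtype Γ.mkQ (Submodule.injective_subtype _)
    (Submodule.mkQ_surjective _) hex hX'
  have hFLΓ : FL ws Γ :=
    (hX.of_injective Γ.subtype (Submodule.injective_subtype _)).of_pow m hΓ
  rw [eul_cons_eq_zero z ws Γ hFLΓ, zero_add] at h1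
  rw [eul_cons_eq_zero (z ^ n) ws Γ hFLΓ, zero_add] at h2
  have hFLQ : FL (z :: ws) (X ⧸ Γ) := hX.of_surjective Γ.mkQ (Submodule.mkQ_surjective _)
  have key : ∀ y : B, IsSMulRegular (X ⧸ Γ) y →
      eul (y :: ws) (X ⧸ Γ) = eul ws (QuotSMulTop y (X ⧸ Γ)) := by
    intro y hy
    have htors : Subsingleton (Submodule.torsionBy B (X ⧸ Γ) y) := by
      refine subsingleton_of_forall_eq 0 ?_
      rintro ⟨x, hx⟩
      apply Subtype.ext
      rw [isSMulRegular_iff_right_eq_zero_of_smul] at hy
      exact hy x hx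
    change eul ws (QuotSMulTop y (X ⧸ Γ)) - eul ws (Submodule.torsionBy B (X ⧸ Γ) y) = _
    rw [eul_subsingleton ws (Submodule.torsionBy B (X ⧸ Γ) y), sub_zero]
  rw [h2, h1, key z hreg, key (z ^ n) (hreg.pow n)]
  exact (eul_quot_pow z ws (X ⧸ Γ) hreg hFLQ n).2

omit [IsNoetherianRing B] in
theorem FL.map_pow {zs : List B} {X : Type u} [AddCommGroup X] [Module B X] {n : ℕ}
    (hX : FL zs X) : FL (zs.map (· ^ n)) X := by
  unfold FL at hX ⊢
  refine hX.trans ?_
  rw [← Ideal.radical_idem (Module.annihilator B X ⊔ Ideal.ofList (zs.map (· ^ n)))]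
  apply Ideal.radical_mono
  refine sup_le (le_sup_left.trans Ideal.le_radical) ?_
  rw [Ideal.ofList, Ideal.span_le]
  intro y hy
  exact ⟨n, Ideal.mem_sup_right (Ideal.subset_span (List.mem_map.2 ⟨y, hy, rfl⟩))⟩

theorem eul_map_pow (zs : List B) (X : Type u) [AddCommGroup X] [Module B X]
    [Module.Finite B X] (hX : FL zs X) (n : ℕ) :
    eul (zs.map (· ^ n)) X = (n : ℤ) ^ zs.length * eul zs X := by
  induction zs generalizing X with
  | nil => simp
  | cons z zs ih =>
    rw [List.map_cons, eul_cons_pow z _ X ?_ n]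
    · change (n : ℤ) * (eul (zs.map (· ^ n)) (QuotSMulTop z X) -
        eul (zs.map (· ^ n)) (Submodule.torsionBy B X z)) = (n : ℤ) ^ (z :: zs).length *
          (eul zs (QuotSMulTop z X) - eul zs (Submodule.torsionBy B X z))
      rw [ih _ hX.quot, ih _ hX.torsionBy, List.length_cons, pow_succ]
      ring
    · unfold FL at hX ⊢
      refine hX.trans ?_
      rw [← Ideal.radical_idem (Module.annihilator B X ⊔ Ideal.ofList (z :: zs.map (· ^ n)))]
      apply Ideal.radical_mono
      rw [Ideal.ofList_cons, Ideal.ofList_cons]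
      refine sup_le ?_ (sup_le ?_ ?_)
      · exact le_sup_left.trans Ideal.le_radical
      · exact (le_sup_left.trans le_sup_right).trans Ideal.le_radical
      · rw [Ideal.ofList, Ideal.span_le]
        intro y hy
        exact ⟨n, Ideal.mem_sup_right (Ideal.mem_sup_right
          (Ideal.subset_span (List.mem_map.2 ⟨y, hy, rfl⟩)))⟩

theorem eul_le_length (zs : List B) (hzs : ∀ z ∈ zs, z ∈ maximalIdeal B) (X : Type u)
    [AddCommGroup X] [Module B X] [Module.Finite B X] (hX : FL zs X) :
    ((eul zs X).toNat : ℕ∞) ≤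
      Module.length B (X ⧸ (Ideal.ofList zs • ⊤ : Submodule B X)) := by
  induction zs generalizing X with
  | nil =>
    have h1 : Module.length B (X ⧸ (Ideal.ofList ([] : List B) • ⊤ : Submodule B X)) =
        Module.length B X := by
      rw [Ideal.ofList_nil]
      exact (Submodule.quotEquivOfEqBot _ (by simp)).length_eq
    rw [h1]
    unfold eul
    rw [Int.toNat_natCast]
    exact ENat.natCast_toNat_le_self _
  | cons z zs ih =>
    have hzs' : ∀ y ∈ zs, y ∈ maximalIdeal B := fun y hy => hzs y (List.mem_cons_of_mem _ hy)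
    have h1 := ih hzs' (QuotSMulTop z X) hX.quot
    have h2 := (eul_nonneg_pos zs hzs' (Submodule.torsionBy B X z) hX.torsionBy).1
    have h3 : eul (z :: zs) X ≤ eul zs (QuotSMulTop z X) := by
      change eul zs (QuotSMulTop z X) - eul zs (Submodule.torsionBy B X z) ≤ _
      linarith
    have h4 : ((eul (z :: zs) X).toNat : ℕ∞) ≤ ((eul zs (QuotSMulTop z X)).toNat : ℕ∞) := by
      exact_mod_cast Int.toNat_le_toNat h3
    refine (h4.trans h1).trans ?_
    -- `X / (z, zs) X → (X / z X) / zs (X / z X)` is surjective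
    let φ : (X ⧸ (Ideal.ofList (z :: zs) • ⊤ : Submodule B X)) →ₗ[B]
        (QuotSMulTop z X ⧸ (Ideal.ofList zs • ⊤ : Submodule B (QuotSMulTop z X))) :=
      Submodule.mapQ _ _ (Submodule.mkQ _) (by
        rw [Ideal.ofList_cons, Submodule.sup_smul]
        refine sup_le ?_ ?_
        · rw [Submodule.smul_le]
          intro r hr x _
          rw [Ideal.mem_span_singleton'] at hr
          obtain ⟨a, rfl⟩ := hr
          rw [Submodule.mem_comap, mul_smul, map_smul]
          refine Submodule.smul_mem _ _ ?_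
          have : (z • (⊤ : Submodule B X)).mkQ (z • x) = 0 := by
            rw [Submodule.mkQ_apply, Submodule.Quotient.mk_eq_zero, mem_pow_smul_top]
            exact ⟨x, rfl⟩
          rw [this]
          exact zero_mem _
        · rw [Submodule.smul_le]
          intro r hr x _
          rw [Submodule.mem_comap, map_smul]
          exact Submodule.smul_mem_smul hr Submodule.mem_top)
    refine Module.length_le_of_surjective φ ?_
    intro x
    obtain ⟨x, rfl⟩ := Submodule.mkQ_surjective _ x
    obtain ⟨x, rfl⟩ := Submodule.mkQ_surjective _ x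
    exact ⟨Submodule.mkQ _ x, rfl⟩

/-- `u ^ n ≤ length (N / (z ^ u) N)`, `n = dim N`. -/
theorem pow_le_length (N : Type u) [AddCommGroup N] [Module B N] [Module.Finite B N]
    (zs : List B) (hz : ∀ z ∈ zs, z ∈ maximalIdeal B)
    (hdim : Module.supportDim B N = zs.length) (n : ℕ) (hn : 1 ≤ n) :
    ((n ^ zs.length : ℕ) : ℕ∞) ≤
      Module.length B (N ⧸ (Ideal.ofList (zs.map (· ^ n)) • ⊤ : Submodule B N)) := by
  by_cases htop : Module.length B (N ⧸ (Ideal.ofList (zs.map (· ^ n)) • ⊤ : Submodule B N)) = ⊤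
  · rw [htop]; exact le_top
  have hFL' : FL (zs.map (· ^ n)) N := by
    set I := Ideal.ofList (zs.map (· ^ n)) with hI
    have e := TensorProduct.tensorQuotEquivQuotSMul N I
    have h1 : Module.length B (N ⊗[B] (B ⧸ I)) ≠ ⊤ := by
      rw [e.length_eq]
      exact htop
    obtain ⟨k, hk⟩ := exists_pow_le_sup_annihilator N (B ⧸ I) h1
    rw [Ideal.annihilator_quotient] at hk
    intro x hx
    exact ⟨k, hk (Ideal.pow_mem_pow hx k)⟩
  have hFL : FL zs N := by
    refine hFL'.mono (sup_le_sup_left ?_ _)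
    rw [Ideal.ofList, Ideal.span_le]
    rintro _ hy
    obtain ⟨y, hy2, rfl⟩ := List.mem_map.1 hy
    have h0 : y ∈ Ideal.ofList zs := Ideal.subset_span (show y ∈ {r | r ∈ zs} from hy2)
    exact Ideal.pow_mem_of_mem _ h0 n hn
  have h1 := (eul_nonneg_pos zs hz N hFL).2 hdim.ge
  have h2 := eul_map_pow zs N hFL n
  have h3 := eul_le_length (zs.map (· ^ n)) (by
    intro y hy
    obtain ⟨y, hy2, rfl⟩ := List.mem_map.1 hy
    exact Ideal.pow_mem_of_mem _ (hz y hy2) n hn) N hFL'
  refine le_trans ?_ h3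
  rw [h2]
  have h4 : ((n ^ zs.length : ℕ) : ℤ) ≤ (n : ℤ) ^ zs.length * eul zs N := by
    push_cast
    have h5 : (0 : ℤ) ≤ (n : ℤ) ^ zs.length := by positivity
    nlinarith
  have h5 := Int.toNat_le_toNat h4
  rw [Int.toNat_natCast] at h5
  exact_mod_cast h5

end

end Vale.Agent.P177
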