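import Vale.Agent.P177.SL.Base
import Vale.Agent.P177.TorShift

/-!
P177, B7, L3: lower bounds for the zeroth Tor module of a thickening.
-/

set_option linter.all false

namespace Vale.Agent.P177.SL

open Vale.Agent.P202.Mix Function TensorProduct IsLocalRing
open scoped ENNReal

universe u

section zero

variable {S D : Type u} [CommRing S] [CommRing D] [Algebra S D] (L : AddLen D) {d t : ℕ}
  (Θ : S →+* TB S d t)

/-- the zeroth Tor module. -/
noncomputable def ttZero (N : Type u) [AddCommGroup N] [Module S N] (X : Type u) [AddCommGroup X]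
    [Module D X] : TT S D 0 N X ≃ₗ[D] (D ⊗[S] N) ⊗[D] X := torZero (D ⊗[S] N) X

theorem tau_zero_eq (N : Type u) [AddCommGroup N] [Module S N] (X : Type u) [AddCommGroup X]
    [Module D X] : tau S L 0 N X = L.len ((D ⊗[S] N) ⊗[D] X) :=
  len_congr L (ttZero N X)

theorem tau_zero_le {N N' : Type u} [AddCommGroup N] [Module S N] [AddCommGroup N'] [Module S N']
    {X X' : Type u} [AddCommGroup X] [Module D X] [AddCommGroup X'] [Module D X']
    (f : N →ₗ[S] N') (hf : Surjective f) (g : X →ₗ[D] X') (hg : Surjective g) :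
    tau S L 0 (Th Θ (TB S d t) N') X' ≤ tau S L 0 (Th Θ (TB S d t) N) X := by
  rw [tau_zero_eq, tau_zero_eq]
  have h1 : Surjective (thMap Θ (TB S d t) f) := LinearMap.lTensor_surjective _ hf
  have h2 : Surjective ((thMap Θ (TB S d t) f).baseChange D) :=
    LinearMap.lTensor_surjective D h1
  exact len_le_of_surjective L (TensorProduct.map ((thMap Θ (TB S d t) f).baseChange D) g)
    (TensorProduct.map_surjective h2 hg)

end zero

section act

variable {W₀ S D : Type u} [CommRing W₀] [CommRing S] [CommRing D] [Algebra W₀ S] [Algebra W₀ D]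
  (N Y : Type u) [AddCommGroup N] [Module S N] [Module W₀ N] [IsScalarTower W₀ S N]
  [AddCommGroup Y] [Module D Y] [Module W₀ Y] [IsScalarTower W₀ D Y]

/-- the action of `D ⊗ S` on `Y ⊗ N`. -/
noncomputable def actE : D ⊗[W₀] S →ₐ[W₀] Module.End W₀ (Y ⊗[W₀] N) :=
  (Module.endTensorEndAlgHom (R := W₀) (S := W₀) (A := W₀) (M := Y) (N := N)).comp
    (Algebra.TensorProduct.map (Algebra.lsmul W₀ W₀ Y) (Algebra.lsmul W₀ W₀ N))

theorem actE_tmul (a : D) (s : S) (y : Y) (n : N) :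
    actE (W₀ := W₀) N Y (a ⊗ₜ s) (y ⊗ₜ n) = (a • y) ⊗ₜ (s • n) := rfl

theorem actE_left (a : D) (m : Y ⊗[W₀] N) : actE (W₀ := W₀) (S := S) N Y (a ⊗ₜ 1) m = a • m := by
  induction m using TensorProduct.induction_on with
  | zero => rw [map_zero, smul_zero]
  | tmul y n => rw [actE_tmul, one_smul, TensorProduct.smul_tmul']
  | add x y hx hy => rw [map_add, hx, hy, smul_add]

/-- the ring of operators. -/
abbrev opE (W₀ : Type u) (S D : Type u) [CommRing W₀] [CommRing S] [CommRing D] [Algebra W₀ S]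
    [Algebra W₀ D] (N Y : Type u) [AddCommGroup N] [Module S N] [Module W₀ N]
    [IsScalarTower W₀ S N] [AddCommGroup Y] [Module D Y] [Module W₀ Y] [IsScalarTower W₀ D Y] :
    Type u :=
  (D ⊗[W₀] S) ⧸ RingHom.ker ((actE (W₀ := W₀) (S := S) (D := D) N Y) :
    D ⊗[W₀] S →+* Module.End W₀ (Y ⊗[W₀] N))

/-- the action of the ring of operators. -/
noncomputable def opA : opE W₀ S D N Y →+* Module.End W₀ (Y ⊗[W₀] N) :=
  RingHom.kerLift _

/-- the class of an operator. -/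
noncomputable def opM : D ⊗[W₀] S →+* opE W₀ S D N Y := Ideal.Quotient.mk _

theorem opA_opM (x : D ⊗[W₀] S) (m : Y ⊗[W₀] N) :
    opA N Y (opM N Y x) m = actE (W₀ := W₀) N Y x m := rfl

theorem opM_eq_zero {x : D ⊗[W₀] S} (h : ∀ (y : Y) (n : N), actE (W₀ := W₀) N Y x (y ⊗ₜ n) = 0) :
    opM N Y x = 0 := by
  refine Ideal.Quotient.eq_zero_iff_mem.2 ?_
  rw [RingHom.mem_ker]
  apply LinearMap.ext
  intro m
  induction m using TensorProduct.induction_on with
  | zero => rw [map_zero, map_zero]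
  | tmul y n => exact h y n
  | add x y hx hy => rw [map_add, hx, hy, map_add]

variable {N Y} in
theorem opA_comm (a : D) (x : opE W₀ S D N Y) (m : Y ⊗[W₀] N) :
    opA N Y x (a • m) = a • opA N Y x m := by
  rw [← actE_left (S := S) N Y, ← actE_left (S := S) N Y, ← opA_opM, ← opA_opM,
    ← Module.End.mul_apply, ← Module.End.mul_apply, ← map_mul, ← map_mul, mul_comm]

end act

section main

variable {W₀ S D : Type u} [CommRing W₀] [CommRing S] [CommRing D] [Algebra W₀ S] [Algebra S D]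
  [Algebra W₀ D] [IsScalarTower W₀ S D] (L : AddLen D) {d t : ℕ} (z : Fin d → S)
  (Θ : S →+* TB S d t)
  (N : Type u) [AddCommGroup N] [Module S N] [Module W₀ N] [IsScalarTower W₀ S N]
  (Y : Type u) [AddCommGroup Y] [Module D Y] [Module W₀ Y] [IsScalarTower W₀ D Y]
  (t1 t2 : ℕ) (hN : ∀ i (m : N), z i ^ t1 • m = 0)
  (hY : ∀ i (y : Y), (algebraMap S D (z i)) ^ t2 • y = 0) (ht : t1 + t2 ≤ t + 1)

/-- `S` acting on `N`. -/
noncomputable def sjR : S →+* opE W₀ S D N Y :=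
  (opM N Y).comp (Algebra.TensorProduct.includeRight (R := W₀) (A := D) (B := S) : S →+* D ⊗[W₀] S)

/-- `S` acting on `Y`. -/
noncomputable def sjL : S →+* opE W₀ S D N Y :=
  (opM N Y).comp ((Algebra.TensorProduct.includeLeftRingHom : D →+* D ⊗[W₀] S).comp
    (algebraMap S D))

theorem sjL_apply (s : S) (m : Y ⊗[W₀] N) : opA N Y (sjL (W₀ := W₀) (D := D) N Y s) m =
    algebraMap S D s • m :=
  actE_left (S := S) N Y _ m

theorem sjR_tmul (s : S) (y : Y) (n : N) : opA N Y (sjR (W₀ := W₀) (D := D) N Y s) (y ⊗ₜ n) =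
    y ⊗ₜ (s • n) := by
  change actE (W₀ := W₀) N Y ((1 : D) ⊗ₜ s) (y ⊗ₜ n) = _
  rw [actE_tmul, one_smul]

variable {z N Y t1 t2}

include hN in
theorem sjR_pow (i : Fin d) : sjR (W₀ := W₀) (D := D) N Y (z i) ^ t1 = 0 := by
  rw [← map_pow]
  apply opM_eq_zero
  intro y n
  change actE (W₀ := W₀) N Y ((1 : D) ⊗ₜ (z i ^ t1)) (y ⊗ₜ n) = 0
  rw [actE_tmul, hN, TensorProduct.tmul_zero]

include hY in
theorem sjL_pow (i : Fin d) : sjL (W₀ := W₀) (D := D) N Y (z i) ^ t2 = 0 := by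
  rw [← map_pow]
  apply opM_eq_zero
  intro y n
  change actE (W₀ := W₀) N Y ((algebraMap S D (z i ^ t2)) ⊗ₜ 1) (y ⊗ₜ n) = 0
  rw [actE_tmul, map_pow, hY, TensorProduct.zero_tmul]

include hN hY ht in
theorem sj_sub_pow (i : Fin d) : (sjL (W₀ := W₀) (D := D) N Y (z i) -
    sjR (W₀ := W₀) (D := D) N Y (z i)) ^ t = 0 := by
  rw [sub_eq_add_neg]
  refine (Commute.all _ _).add_pow_eq_zero_of_add_le_succ_of_pow_eq_zero (sjL_pow hY i) ?_
    (by omega : t2 + t1 ≤ t + 1)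
  rw [neg_pow, sjR_pow hN i, mul_zero]

/-- the action of the thickening. -/
noncomputable def sj : TB S d t →+* opE W₀ S D N Y :=
  Ideal.Quotient.lift (boxI S fun _ : Fin d => t)
    (MvPolynomial.eval₂Hom (sjR (W₀ := W₀) (D := D) N Y)
      fun i => sjL (W₀ := W₀) (D := D) N Y (z i) - sjR (W₀ := W₀) (D := D) N Y (z i)) (by
    intro a ha
    have h : boxI S (fun _ : Fin d => t) ≤ RingHom.ker
        (MvPolynomial.eval₂Hom (sjR (W₀ := W₀) (D := D) N Y)
      fun i => sjL (W₀ := W₀) (D := D) N Y (z i) - sjR (W₀ := W₀) (D := D) N Y (z i)) := by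
      rw [boxI, Ideal.span_le]
      rintro _ ⟨i, rfl⟩
      rw [SetLike.mem_coe, RingHom.mem_ker, map_pow, MvPolynomial.eval₂Hom_X']
      exact sj_sub_pow hN hY ht i
    exact h ha)

theorem sj_algebraMap (s : S) : sj (W₀ := W₀) hN hY ht (algebraMap S (TB S d t) s) =
    sjR (W₀ := W₀) (D := D) N Y s := by
  change MvPolynomial.eval₂Hom (sjR (W₀ := W₀) (D := D) N Y) _ (MvPolynomial.C s) = _
  rw [MvPolynomial.eval₂Hom_C]

theorem sj_X (i : Fin d) : sj (W₀ := W₀) hN hY ht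
      (Ideal.Quotient.mk _ (MvPolynomial.X i) : TB S d t) =
    sjL (W₀ := W₀) (D := D) N Y (z i) - sjR (W₀ := W₀) (D := D) N Y (z i) := by
  change MvPolynomial.eval₂Hom (sjR (W₀ := W₀) (D := D) N Y) _ (MvPolynomial.X i) = _
  rw [MvPolynomial.eval₂Hom_X']

variable {Θ}

theorem sj_theta
    (hvar : ∀ i, Θ (z i) = algebraMap S (TB S d t) (z i) + Ideal.Quotient.mk _ (MvPolynomial.X i))
    (hΘ : ∀ w : W₀, Θ (algebraMap W₀ S w) = algebraMap S (TB S d t) (algebraMap W₀ S w))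
    (hgen : ∀ (s : S) (M : ℕ), ∃ q : MvPolynomial (Fin d) W₀,
      s - MvPolynomial.aeval z q ∈ Ideal.span (Set.range z) ^ M) (s : S) :
    sj (W₀ := W₀) hN hY ht (Θ s) = sjL (W₀ := W₀) (D := D) N Y s := by
  set φ1 : S →+* opE W₀ S D N Y := (sj (W₀ := W₀) hN hY ht).comp Θ with hφ1
  set φ2 : S →+* opE W₀ S D N Y := sjL (W₀ := W₀) (D := D) N Y with hφ2
  have h1 : ∀ i, φ1 (z i) = φ2 (z i) := by
    intro i
    rw [hφ1, RingHom.comp_apply, hvar, map_add, sj_algebraMap, sj_X]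
    ring
  have h2 : ∀ w : W₀, φ1 (algebraMap W₀ S w) = φ2 (algebraMap W₀ S w) := by
    intro w
    rw [hφ1, RingHom.comp_apply, hΘ, sj_algebraMap]
    change opM N Y ((1 : D) ⊗ₜ (algebraMap W₀ S w)) =
      opM N Y ((algebraMap S D (algebraMap W₀ S w)) ⊗ₜ 1)
    rw [← IsScalarTower.algebraMap_apply W₀ S D, Algebra.algebraMap_eq_smul_one,
      Algebra.algebraMap_eq_smul_one, TensorProduct.tmul_smul, TensorProduct.smul_tmul']
  have h3 : ∀ q : MvPolynomial (Fin d) W₀,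
      φ1 (MvPolynomial.aeval z q) = φ2 (MvPolynomial.aeval z q) := by
    intro q
    induction q using MvPolynomial.induction_on with
    | C w => rw [MvPolynomial.aeval_C]; exact h2 w
    | add p q hp hq => rw [map_add, map_add, map_add, hp, hq]
    | mul_X p i hp => rw [map_mul, map_mul, map_mul, MvPolynomial.aeval_X, hp, h1]
  -- the ideal `(z)` is nilpotent
  obtain ⟨M, hM⟩ : ∃ M : ℕ, Ideal.span (Set.range fun i => φ2 (z i)) ^ M = ⊥ := by
    have h4 : Ideal.span (Set.range fun i => φ2 (z i)) ≤ (⊥ : Ideal (opE W₀ S D N Y)).radical := by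
      rw [Ideal.span_le]
      rintro _ ⟨i, rfl⟩
      exact ⟨t2, by rw [sjL_pow hY i]; exact Ideal.zero_mem _⟩
    obtain ⟨M, hM⟩ := Ideal.exists_pow_le_of_le_radical_of_fg h4
      (Submodule.fg_span (Set.finite_range _))
    exact ⟨M, le_bot_iff.1 hM⟩
  have h5 : ∀ x ∈ Ideal.span (Set.range z) ^ M, φ1 x = 0 ∧ φ2 x = 0 := by
    intro x hx
    constructor
    · have h6 := Ideal.mem_map_of_mem φ1 hx
      rw [Ideal.map_pow, Ideal.map_span, ← Set.range_comp] at h6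
      have h7 : φ1 ∘ z = fun i => φ2 (z i) := funext h1
      rw [h7, hM] at h6
      exact h6
    · have h6 := Ideal.mem_map_of_mem φ2 hx
      rw [Ideal.map_pow, Ideal.map_span, ← Set.range_comp] at h6
      have h7 : φ2 ∘ z = fun i => φ2 (z i) := rfl
      rw [h7, hM] at h6
      exact h6
  obtain ⟨q, hq⟩ := hgen s M
  obtain ⟨h6, h7⟩ := h5 _ hq
  rw [map_sub, sub_eq_zero] at h6 h7
  change φ1 s = φ2 s
  rw [h6, h7, h3]

/-- `y ↦ x (y ⊗ n)`. -/
noncomputable def ellA (x : opE W₀ S D N Y) (n : N) : Y →ₗ[D] Y ⊗[W₀] N where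
  toFun y := opA N Y x (y ⊗ₜ n)
  map_add' a b := by rw [TensorProduct.add_tmul, map_add]
  map_smul' a y := by
    rw [← TensorProduct.smul_tmul', opA_comm]
    rfl

theorem ellA_apply (x : opE W₀ S D N Y) (n : N) (y : Y) :
    ellA x n y = opA N Y x (y ⊗ₜ n) := rfl

/-- `ellA` as a biadditive map. -/
noncomputable def ellB : opE W₀ S D N Y →+ N →+ (Y →ₗ[D] Y ⊗[W₀] N) :=
  AddMonoidHom.mk' (fun x => AddMonoidHom.mk' (fun n => ellA x n) (fun a b => by
      apply LinearMap.ext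
      intro y
      rw [LinearMap.add_apply, ellA_apply, ellA_apply, ellA_apply, TensorProduct.tmul_add,
        map_add]))
    (fun a b => by
      apply AddMonoidHom.ext
      intro n
      apply LinearMap.ext
      intro y
      change opA N Y (a + b) (y ⊗ₜ n) = opA N Y a (y ⊗ₜ n) + opA N Y b (y ⊗ₜ n)
      rw [map_add]
      rfl)

theorem ellB_apply (x : opE W₀ S D N Y) (n : N) (y : Y) :
    ellB x n y = opA N Y x (y ⊗ₜ n) := rfl

/-- the map `T ⊗ N → Hom_D (Y, Y ⊗ N)`. -/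
noncomputable def ell0 : (TB S d t) ⊗[S] N →+ (Y →ₗ[D] Y ⊗[W₀] N) :=
  TensorProduct.liftAddHom
    ((ellB (W₀ := W₀) (S := S) (D := D) (N := N) (Y := Y)).comp
      (sj (W₀ := W₀) hN hY ht : TB S d t →+* opE W₀ S D N Y).toAddMonoidHom)
    (by
      intro s τ n
      apply LinearMap.ext
      intro y
      change opA N Y (sj (W₀ := W₀) hN hY ht (s • τ)) (y ⊗ₜ n) =
        opA N Y (sj (W₀ := W₀) hN hY ht τ) (y ⊗ₜ (s • n))
      have h1 : (s • τ : TB S d t) = τ * algebraMap S (TB S d t) s := by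
        rw [mul_comm]; exact Algebra.smul_def s τ
      rw [h1, map_mul, map_mul, Module.End.mul_apply, sj_algebraMap, sjR_tmul])

theorem ell0_tmul (τ : TB S d t) (n : N) (y : Y) :
    ell0 (W₀ := W₀) hN hY ht (τ ⊗ₜ n) y =
      opA N Y (sj (W₀ := W₀) hN hY ht τ) (y ⊗ₜ n) := rfl

theorem ell0_theta
    (hvar : ∀ i, Θ (z i) = algebraMap S (TB S d t) (z i) + Ideal.Quotient.mk _ (MvPolynomial.X i))
    (hΘ : ∀ w : W₀, Θ (algebraMap W₀ S w) = algebraMap S (TB S d t) (algebraMap W₀ S w))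
    (hgen : ∀ (s : S) (M : ℕ), ∃ q : MvPolynomial (Fin d) W₀,
      s - MvPolynomial.aeval z q ∈ Ideal.span (Set.range z) ^ M) (s : S)
    (x : (TB S d t) ⊗[S] N) :
    ell0 (W₀ := W₀) hN hY ht (Θ s • x) = algebraMap S D s • ell0 (W₀ := W₀) hN hY ht x := by
  induction x using TensorProduct.induction_on with
  | zero => rw [smul_zero, map_zero, smul_zero]
  | tmul τ n =>
    apply LinearMap.ext
    intro y
    have h1 : (Θ s • (τ ⊗ₜ[S] n) : (TB S d t) ⊗[S] N) = (Θ s * τ) ⊗ₜ[S] n := by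
      rw [TensorProduct.smul_tmul', smul_eq_mul]
    rw [h1, ell0_tmul, map_mul, map_mul, Module.End.mul_apply,
      sj_theta (W₀ := W₀) hN hY ht hvar hΘ hgen s, sjL_apply, LinearMap.smul_apply, ell0_tmul]
  | add a b ha hb => rw [smul_add, map_add, ha, hb, map_add, smul_add]

variable (N Y) in
theorem len_ten_le_tau
    (hvar : ∀ i, Θ (z i) = algebraMap S (TB S d t) (z i) + Ideal.Quotient.mk _ (MvPolynomial.X i))
    (hΘ : ∀ w : W₀, Θ (algebraMap W₀ S w) = algebraMap S (TB S d t) (algebraMap W₀ S w))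
    (hgen : ∀ (s : S) (M : ℕ), ∃ q : MvPolynomial (Fin d) W₀,
      s - MvPolynomial.aeval z q ∈ Ideal.span (Set.range z) ^ M) (t1 t2 : ℕ)
    (hN : ∀ i (m : N), z i ^ t1 • m = 0)
    (hY : ∀ i (y : Y), (algebraMap S D (z i)) ^ t2 • y = 0) (ht : t1 + t2 ≤ t + 1) :
    L.len (Y ⊗[W₀] N) ≤ tau S L 0 (Th Θ (TB S d t) N) Y := by
  rw [tau_zero_eq]
  letI : Module S (Y →ₗ[D] Y ⊗[W₀] N) := Module.compHom _ (algebraMap S D)
  haveI : IsScalarTower S D (Y →ₗ[D] Y ⊗[W₀] N) :=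
    IsScalarTower.of_algebraMap_smul fun _ _ => rfl
  let e1 : Th Θ (TB S d t) N →ₗ[S] (Y →ₗ[D] Y ⊗[W₀] N) :=
    { toFun := fun x => ell0 (W₀ := W₀) hN hY ht (toTen Θ _ _ x)
      map_add' := fun a b => map_add (ell0 (W₀ := W₀) hN hY ht) _ _
      map_smul' := fun s x => ell0_theta (W₀ := W₀) hN hY ht hvar hΘ hgen s (toTen Θ _ _ x) }
  let e2 : (D ⊗[S] Th Θ (TB S d t) N) →ₗ[D] (Y →ₗ[D] Y ⊗[W₀] N) := e1.liftBaseChange D
  let e3 : (D ⊗[S] Th Θ (TB S d t) N) ⊗[D] Y →ₗ[D] Y ⊗[W₀] N := TensorProduct.lift e2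
  have he3 : ∀ (a : D) (x : Th Θ (TB S d t) N) (y : Y), e3 ((a ⊗ₜ x) ⊗ₜ y) =
      a • ell0 (W₀ := W₀) hN hY ht (toTen Θ _ _ x) y := fun a x y => rfl
  refine len_le_of_surjective L e3 ?_
  have hr : ∀ m : Y ⊗[W₀] N, m ∈ LinearMap.range e3 := by
    intro m
    induction m using TensorProduct.induction_on with
    | zero => exact Submodule.zero_mem _
    | tmul y n =>
      let x : Th Θ (TB S d t) N := (show (TB S d t) ⊗[S] N from (1 : TB S d t) ⊗ₜ[S] n)
      refine ⟨(1 ⊗ₜ x) ⊗ₜ y, ?_⟩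
      rw [he3, one_smul]
      change ell0 (W₀ := W₀) hN hY ht ((1 : TB S d t) ⊗ₜ[S] n) y = _
      rw [ell0_tmul, map_one, map_one]
      rfl
    | add a b ha hb => exact Submodule.add_mem _ ha hb
  exact hr

end main

end Vale.Agent.P177.SL
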