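import Vale.Agent.P177.SL.PowReg
import Vale.Agent.P177.SL.Surj
import Vale.Agent.P177.SL.FinLen
import Vale.Agent.P177.SL.LenPow

/-!
Lower bound for the length of the tensor product of a thickening.
-/

namespace Vale.Agent.P177.SL

open Vale.Agent.P202.Mix Function TensorProduct IsLocalRing
open scoped ENNReal

universe u

/-- powers of an element of `(l) + A` lie in `(l ^ n) + A`. -/
theorem pow_mem_sup {R : Type u} [CommRing R] {A : Ideal R} {l : List R} {x : R} {c n q : ℕ}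
    (hx : x ^ c ∈ Ideal.ofList l ⊔ A) (hq : l.length * n + 1 ≤ q) :
    x ^ (c * q) ∈ Ideal.ofList (l.map (· ^ n)) ⊔ A := by
  have e1 : ∀ J : Ideal R, (J.map (Ideal.Quotient.mk A)).comap (Ideal.Quotient.mk A) = J ⊔ A := by
    intro J
    rw [Ideal.comap_map_of_surjective _ Ideal.Quotient.mk_surjective, ← RingHom.ker_eq_comap_bot,
      Ideal.mk_ker]
  rw [← e1, Ideal.mem_comap] at hx
  rw [← e1, Ideal.mem_comap, pow_mul, map_pow]
  have h1 := Ideal.pow_mem_pow hx q
  rw [← Ideal.map_pow] at h1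
  exact Ideal.map_mono ((Ideal.pow_le_pow_right hq).trans (KG.ofList_pow_le l n)) h1

/-- tensoring with a module killed by `c` only sees `Y / c Y`. -/
theorem len_ten_quot {W₀ D : Type u} [CommRing W₀] [CommRing D] [Algebra W₀ D] (L : AddLen D)
    {Y Z : Type u} [AddCommGroup Y] [Module D Y] [Module W₀ Y] [IsScalarTower W₀ D Y]
    [AddCommGroup Z] [Module D Z] [Module W₀ Z] [IsScalarTower W₀ D Z] (c : W₀)
    (q : Y →ₗ[D] Z) (hq : Surjective q) (hk : ∀ y, q y = 0 → ∃ x, c • x = y)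
    (M : Type u) [AddCommGroup M] [Module W₀ M] (hc : ∀ m : M, c • m = 0) :
    L.len (Y ⊗[W₀] M) ≤ L.len (Z ⊗[W₀] M) := by
  let q' : Y →ₗ[W₀] Z := q.restrictScalars W₀
  have hex : Exact (LinearMap.ker q').subtype q' := by
    intro y
    rw [← LinearMap.mem_ker, Submodule.coe_subtype, Subtype.range_coe]
    rfl
  have h1 := rTensor_exact M hex hq
  have h2 : ∀ x : (LinearMap.ker q') ⊗[W₀] M, (LinearMap.ker q').subtype.rTensor M x = 0 := by
    intro x
    induction x using TensorProduct.induction_on with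
    | zero => rw [map_zero]
    | tmul y m =>
      obtain ⟨x, hx⟩ := hk y.1 y.2
      rw [LinearMap.rTensor_tmul, Submodule.subtype_apply, ← hx, TensorProduct.smul_tmul, hc,
        TensorProduct.tmul_zero]
    | add a b ha hb => rw [map_add, ha, hb, add_zero]
  refine len_le_of_injective L (AlgebraTensorModule.rTensor W₀ M q) ?_
  rw [injective_iff_map_eq_zero]
  intro x hx
  obtain ⟨y, rfl⟩ := (h1 x).1 hx
  exact h2 y

/-- an element of `I ⊔ ann X` kills `X / I X`. -/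
theorem smul_quot_eq_zero {R : Type u} [CommRing R] (X : Type u) [AddCommGroup X] [Module R X]
    (I : Ideal R) {c : R} (hc : c ∈ I ⊔ Module.annihilator R X) (x : X) :
    c • (Submodule.mkQ (I • ⊤ : Submodule R X) x) = 0 := by
  obtain ⟨a, ha, b, hb, rfl⟩ := Submodule.mem_sup.1 hc
  rw [← map_smul, add_smul, (Module.mem_annihilator.1 hb) x, add_zero, Submodule.mkQ_apply,
    Submodule.Quotient.mk_eq_zero]
  exact Submodule.smul_mem_smul ha Submodule.mem_top

theorem ofList_pow_le_pow {R : Type u} [CommRing R] (l : List R) {m n : ℕ} (h : m ≤ n) :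
    Ideal.ofList (l.map (· ^ n)) ≤ Ideal.ofList (l.map (· ^ m)) := by
  unfold Ideal.ofList
  rw [Ideal.span_le]
  intro x hx
  obtain ⟨y, hy, rfl⟩ := List.mem_map.1 hx
  have h1 : y ^ m ∈ Ideal.span {x | x ∈ l.map (· ^ m)} :=
    Ideal.subset_span (List.mem_map.2 ⟨y, hy, rfl⟩)
  have h2 : y ^ n = y ^ (n - m) * y ^ m := by rw [← pow_add]; congr 1; omega
  rw [SetLike.mem_coe, h2]
  exact Ideal.mul_mem_left _ _ h1

section lower

variable {W₀ S D : Type u} [CommRing W₀] [IsDomain W₀] [IsDiscreteValuationRing W₀] [CommRing S]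
  [IsLocalRing S] [IsNoetherianRing S] [CommRing D] [Algebra W₀ S] [Algebra S D] [Algebra W₀ D]
  [IsScalarTower W₀ S D] (L : AddLen D) {d : ℕ} (π : W₀) (hπ : Irreducible π) {z : Fin d → S}
  (T : Thick S d (algebraMap W₀ S π) z)
  (hΘ : ∀ (t : ℕ) (w : W₀),
    T.Θ t (algebraMap W₀ S w) = algebraMap S (TB S d t) (algebraMap W₀ S w))
  (hgen : ∀ (s : S) (M : ℕ), ∃ q : MvPolynomial (Fin d) W₀,
    s - MvPolynomial.aeval z q ∈ Ideal.span (Set.range z) ^ M)
  (hres : Surjective ((Ideal.Quotient.mk (maximalIdeal S)).comp (algebraMap W₀ S)))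
  (hzm : ∀ i, z i ∈ maximalIdeal S) (hπm : algebraMap W₀ S π ∈ maximalIdeal S)
  (X : Type u) [AddCommGroup X] [Module D X] [Module W₀ X] [IsScalarTower W₀ D X] (ys : List D)
  (h0 : ∀ i, 1 ≤ i → L.len ((KG.KC X (algebraMap W₀ D π :: ys)).H i) = 0)
  (hz : ∃ l : ℕ, ∀ i, algebraMap S D (z i) ^ l ∈
    Ideal.ofList (algebraMap W₀ D π :: ys) ⊔ Module.annihilator D X)

include hπ hΘ hgen hres hzm hπm h0 hz in
/-- the lower bound. -/
theorem tau_zero_lower (N : Type u) [AddCommGroup N] [Module S N] [Module.Finite S N]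
    [Module W₀ N] [IsScalarTower W₀ S N] (a : ℕ) (ha : Module.supportDim S N = a) :
    ∃ κ : ℕ, 1 ≤ κ ∧ ∀ u : ℕ, 1 ≤ u → ((u ^ a : ℕ) : ℝ≥0∞) * ((u : ℝ≥0∞) ^ ys.length *
      L.len ((KG.KC X (algebraMap W₀ D π :: ys)).H 0)) ≤
        tau S L 0 (Th (T.Θ (κ * u)) (TB S d (κ * u)) N) X := by
  obtain ⟨ss, hsa, hssm, hrad⟩ := exists_sop N a ha
  obtain ⟨l, hl⟩ := hz
  -- a power of the maximal ideal lies in `(ss) + ann N`
  obtain ⟨K, hK⟩ : ∃ K : ℕ, ∀ x ∈ maximalIdeal S, x ^ K ∈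
      Ideal.ofList ss ⊔ Module.annihilator S N := by
    obtain ⟨K, hK⟩ := Ideal.exists_pow_le_of_le_radical_of_fg hrad
      (IsNoetherian.noetherian (maximalIdeal S))
    exact ⟨K, fun x hx => by
      have := hK (Ideal.pow_mem_pow hx K)
      rwa [sup_comm] at this⟩
  refine ⟨(K + 1) * (a + 1) * (1 + (l + 1) * (ys.length + 2)), ?_, fun u hu => ?_⟩
  · exact Nat.mul_pos (Nat.mul_pos (Nat.succ_pos _) (Nat.succ_pos _)) (by omega)
  -- exponents
  obtain ⟨E, hE⟩ : ∃ E : ℕ, E = (K + 1) * ((a + 1) * u) := ⟨_, rfl⟩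
  have hEu : u ≤ E := by
    rw [hE]
    calc u = 1 * (1 * u) := by ring
      _ ≤ (K + 1) * ((a + 1) * u) := Nat.mul_le_mul (Nat.succ_pos _)
        (Nat.mul_le_mul_right u (Nat.succ_pos _))
  have hE1 : 1 ≤ E := hu.trans hEu
  -- the quotient of `N`
  let Nb := N ⧸ (Ideal.ofList (ss.map (· ^ u)) • ⊤ : Submodule S N)
  have hkillN : ∀ x ∈ maximalIdeal S, ∀ m : Nb, x ^ E • m = 0 := by
    intro x hx m
    obtain ⟨m, rfl⟩ := Submodule.mkQ_surjective _ m
    apply smul_quot_eq_zero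
    have h1 : x ^ (K + 1) ∈ Ideal.ofList ss ⊔ Module.annihilator S N := by
      rw [pow_succ]
      exact Ideal.mul_mem_right _ _ (hK x hx)
    rw [hE]
    apply pow_mem_sup h1
    rw [hsa, add_mul, one_mul]
    omega
  have hfl : IsFiniteLength S Nb := isFiniteLength_quot N ss hrad u
  have hflW : IsFiniteLength W₀ Nb := isFiniteLength_of hres hfl
  have hlen : ((u ^ a : ℕ) : ℕ∞) ≤ Module.length W₀ Nb := by
    refine le_trans ?_ (length_le (W₀ := W₀) (S := S) Nb)
    have h1 := pow_le_length N ss hssm (by rw [hsa]; exact ha) u hu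
    rw [hsa] at h1
    exact h1
  -- the quotients of `X`
  let Y' := X ⧸ (Ideal.ofList (ys.map (· ^ u)) • ⊤ : Submodule D X)
  let Y := Y' ⧸ (LinearMap.range (LinearMap.lsmul D Y' (algebraMap W₀ D π ^ E)))
  have hkillY : ∀ i (y : Y), algebraMap S D (z i) ^ ((l + 1) * ((ys.length + 1) * E + 1)) • y = 0 := by
    intro i y
    obtain ⟨y, rfl⟩ := Submodule.mkQ_surjective _ y
    obtain ⟨x, rfl⟩ := Submodule.mkQ_surjective _ y
    have h1 : algebraMap S D (z i) ^ (l + 1) ∈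
        Ideal.ofList (algebraMap W₀ D π :: ys) ⊔ Module.annihilator D X := by
      rw [pow_succ]
      exact Ideal.mul_mem_right _ _ (hl i)
    have h2 := pow_mem_sup (n := E) (q := (ys.length + 1) * E + 1) h1 (by
      rw [List.length_cons])
    rw [List.map_cons, Ideal.ofList_cons] at h2
    obtain ⟨b, hb, c, hc, hbc⟩ := Submodule.mem_sup.1 h2
    obtain ⟨b1, hb1, b2, hb2, rfl⟩ := Submodule.mem_sup.1 hb
    rw [← hbc, ← map_smul, ← map_smul, Submodule.mkQ_apply, Submodule.Quotient.mk_eq_zero,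
      add_smul, (Module.mem_annihilator.1 hc) x, add_zero, add_smul, map_add]
    obtain ⟨e, rfl⟩ := Ideal.mem_span_singleton'.1 hb1
    have h3 : (Submodule.mkQ (Ideal.ofList (ys.map (· ^ u)) • ⊤ : Submodule D X)) (b2 • x) = 0 := by
      rw [Submodule.mkQ_apply, Submodule.Quotient.mk_eq_zero]
      exact Submodule.smul_mem_smul (ofList_pow_le_pow ys hEu hb2) Submodule.mem_top
    rw [h3, add_zero]
    exact ⟨e • Submodule.mkQ _ x, by
      rw [LinearMap.lsmul_apply, smul_smul, ← map_smul, mul_comm]⟩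
  have s1 := le_len_ten L X π hπ ys h0 u Nb (u ^ a) hlen hflW
  have s2 : L.len (Y' ⊗[W₀] Nb) ≤ L.len (Y ⊗[W₀] Nb) := by
    refine len_ten_quot L (π ^ E) (Submodule.mkQ _ : Y' →ₗ[D] Y) (Submodule.mkQ_surjective _) ?_
      Nb ?_
    · intro y hy
      rw [Submodule.mkQ_apply, Submodule.Quotient.mk_eq_zero] at hy
      obtain ⟨x, hx⟩ := hy
      refine ⟨x, ?_⟩
      rw [← hx, LinearMap.lsmul_apply, ← map_pow, algebraMap_smul]
    · intro m
      have := hkillN _ hπm m
      rwa [← map_pow, algebraMap_smul] at this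
  have s3 : L.len (Y ⊗[W₀] Nb) ≤
      tau S L 0 (Th (T.Θ ((K + 1) * (a + 1) * (1 + (l + 1) * (ys.length + 2)) * u))
        (TB S d ((K + 1) * (a + 1) * (1 + (l + 1) * (ys.length + 2)) * u)) Nb) Y := by
    refine len_ten_le_tau L Nb Y (T.var _) (hΘ _) hgen E
      ((l + 1) * ((ys.length + 1) * E + 1)) (fun i m => hkillN _ (hzm i) m) hkillY ?_
    have h1 : (K + 1) * (a + 1) * (1 + (l + 1) * (ys.length + 2)) * u =
        E + (l + 1) * ((ys.length + 1) * E + E) := by
      rw [hE]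
      ring
    rw [h1]
    have h2 : (l + 1) * ((ys.length + 1) * E + 1) ≤ (l + 1) * ((ys.length + 1) * E + E) :=
      Nat.mul_le_mul_left _ (by omega)
    omega
  refine s1.trans (s2.trans (s3.trans ?_))
  exact tau_zero_le L _ (Submodule.mkQ _ : N →ₗ[S] Nb) (Submodule.mkQ_surjective _)
    ((Submodule.mkQ _ : Y' →ₗ[D] Y) ∘ₗ (Submodule.mkQ _ : X →ₗ[D] Y'))
    ((Submodule.mkQ_surjective _).comp (Submodule.mkQ_surjective _))

end lower

end Vale.Agent.P177.SL
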