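import Vale.Agent.P177.SL.Base
import Vale.Agent.P177.Perf.KTor

/-!
P177, block B7-L6: vanishing of the lengths of `Tor_i(D ⊗ S/(gs), X)`, `i ≥ 1`, for a weakly
regular sequence `gs` when a list `ys` of the same length in the radical of `(gs)` has
Koszul homology of length zero in positive degrees.
-/

namespace Vale.Agent.P177.KG

open scoped ENNReal

universe u

section Ann

variable {R : Type u} [CommRing R]

/-- the cone only depends on the action of the element. -/
theorem Cx.cone_congr (A : Cx R) {y a : R} (h : ∀ i (x : A.X i), y • x = a • x) :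
    A.cone y = A.cone a := by
  have h1 : A.coneD y = A.coneD a := by
    funext i
    cases i with
    | zero =>
      refine LinearMap.ext fun x => ?_
      show A.d 0 x.1 + y • x.2 = A.d 0 x.1 + a • x.2
      rw [h]
    | succ i =>
      refine LinearMap.ext fun x => ?_
      show ((A.d (i + 1) x.1 + y • x.2, - A.d i x.2) : A.X (i + 1) × A.X i) =
        ((A.d (i + 1) x.1 + a • x.2, - A.d i x.2) : A.X (i + 1) × A.X i)
      rw [h]
  unfold Cx.cone
  congr 1

variable (M : Type u) [AddCommGroup M] [Module R M]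

/-- the Koszul complex only depends on the action of the elements. -/
theorem KC_map_congr (f : R → R) (ys : List R)
    (h : ∀ y ∈ ys, ∀ m : M, y • m = f y • m) : KC M (ys.map f) = KC M ys := by
  induction ys with
  | nil => rfl
  | cons y ys ih =>
    rw [List.map_cons]
    have h1 := ih fun y' hy' => h y' (List.mem_cons_of_mem _ hy')
    show (KC M (ys.map f)).cone (f y) = (KC M ys).cone y
    rw [h1]
    refine Cx.cone_congr _ fun i x => ?_
    have h0 : ∀ m : M, (LinearMap.lsmul R M y) m = f y • m := h y List.mem_cons_self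
    rw [← KCmap_smul (f y) (LinearMap.lsmul R M y) h0 ys i x,
      KCmap_smul y (LinearMap.lsmul R M y) (fun m => rfl) ys i x]

/-- **growth 1** modulo the annihilator. -/
theorem KC_growth1_ann (L : ALen R) {cs ys : List R}
    (h : ∀ y ∈ ys, y ∈ Ideal.ofList cs ⊔ Module.annihilator R M) (i : ℕ) :
    L.len ((KC M cs).H i) ≤
      KFam.bsum cs.length (fun q => L.len ((KC M ys).H q)) (i + ys.length) := by
  classical
  have h' : ∀ y, ∃ a, y ∈ ys → a ∈ Ideal.ofList cs ∧ ∀ m : M, y • m = a • m := by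
    intro y
    by_cases hy : y ∈ ys
    · obtain ⟨a, ha, b, hb, hab⟩ := Submodule.mem_sup.1 (h y hy)
      refine ⟨a, fun _ => ⟨ha, fun m => ?_⟩⟩
      rw [← hab, add_smul, Module.mem_annihilator.1 hb m, add_zero]
    · exact ⟨0, fun h => absurd h hy⟩
  choose f hf using h'
  have h1 := (kfam M).growth1' L (cs := cs) (ys := ys.map f) (by
    intro y' hy'
    obtain ⟨y, hy, rfl⟩ := List.mem_map.1 hy'
    exact (hf y hy).1) i
  rw [List.length_map] at h1
  refine h1.trans (le_of_eq ?_)
  congr 1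
  funext q
  show L.len ((KC M (ys.map f)).H q) = _
  rw [KC_map_congr M f ys fun y hy => (hf y hy).2]

/-- a common exponent. -/
theorem exists_common_pow (I : Ideal R) (ys : List R) (h : ∀ y ∈ ys, ∃ l : ℕ, y ^ l ∈ I) :
    ∃ l : ℕ, ∀ y ∈ ys, y ^ l ∈ I := by
  induction ys with
  | nil => exact ⟨0, fun y hy => absurd hy (List.not_mem_nil)⟩
  | cons y ys ih =>
    obtain ⟨l1, h1⟩ := h y List.mem_cons_self
    obtain ⟨l2, h2⟩ := ih fun y' hy' => h y' (List.mem_cons_of_mem _ hy')
    refine ⟨l1 + l2, fun y' hy' => ?_⟩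
    rcases List.mem_cons.1 hy' with rfl | hy'
    · rw [pow_add]
      exact Ideal.mul_mem_right _ _ h1
    · rw [pow_add]
      exact Ideal.mul_mem_left _ _ (h2 y' hy')

/-- lists of the same length with the same radical: vanishing and finiteness. -/
theorem KC_len_zero_of_rad (L : ALen R) {cs ys : List R} (hlen : cs.length = ys.length)
    (h0 : ∀ i, 1 ≤ i → L.len ((KC M ys).H i) = 0) (h1 : L.len ((KC M ys).H 0) ≠ ⊤)
    (hy : ∀ y ∈ ys, ∃ l : ℕ, y ^ l ∈ Ideal.ofList cs ⊔ Module.annihilator R M) :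
    (∀ i, 1 ≤ i → L.len ((KC M cs).H i) = 0) ∧ L.len ((KC M cs).H 0) ≠ ⊤ := by
  obtain ⟨l, hl⟩ := exists_common_pow _ ys hy
  have g2 : ∀ q, L.len ((KC M (ys.map (· ^ l))).H q) ≤
      (l : ℝ≥0∞) ^ ys.length * L.len ((KC M ys).H q) := fun q => KC_growth2 L M ys l q
  have g1 : ∀ i, L.len ((KC M cs).H i) ≤ KFam.bsum cs.length
      (fun q => L.len ((KC M (ys.map (· ^ l))).H q)) (i + ys.length) := by
    intro i
    have := KC_growth1_ann M L (cs := cs) (ys := ys.map (· ^ l)) (by
      intro y' hy'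
      obtain ⟨y, hy'', rfl⟩ := List.mem_map.1 hy'
      exact hl y hy'') i
    rwa [List.length_map] at this
  have gz : ∀ q, 1 ≤ q → L.len ((KC M (ys.map (· ^ l))).H q) = 0 := by
    intro q hq
    have := g2 q
    rw [h0 q hq, mul_zero] at this
    exact nonpos_iff_eq_zero.1 this
  constructor
  · intro i hi
    refine nonpos_iff_eq_zero.1 ((g1 i).trans (le_of_eq (Finset.sum_eq_zero ?_)))
    rintro ⟨j, q⟩ hjq
    rw [Finset.HasAntidiagonal.mem_antidiagonal] at hjq
    dsimp only at hjq ⊢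
    rcases Nat.eq_zero_or_pos q with rfl | hq
    · have : cs.length.choose j = 0 := Nat.choose_eq_zero_of_lt (by omega)
      rw [this, Nat.cast_zero, zero_mul]
    · rw [gz q hq, mul_zero]
  · refine ne_top_of_le_ne_top ?_ (g1 0)
    refine ENNReal.sum_ne_top.2 fun jq _ => ENNReal.mul_ne_top (ENNReal.natCast_ne_top _) ?_
    show L.len ((KC M (ys.map (· ^ l))).H jq.2) ≠ ⊤
    rcases Nat.eq_zero_or_pos jq.2 with hq | hq
    · rw [hq]
      exact ne_top_of_le_ne_top (ENNReal.mul_ne_top
        (ENNReal.pow_ne_top (ENNReal.natCast_ne_top _)) h1) (g2 0)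
    · rw [gz _ hq]
      exact ENNReal.zero_ne_top

end Ann

end Vale.Agent.P177.KG

namespace Vale.Agent.P177.SL

open Vale.Agent.P202.Mix Function TensorProduct IsLocalRing
open scoped ENNReal

universe u

variable {S D : Type u} [CommRing S] [CommRing D] [Algebra S D] [Module.Flat S D] (L : AddLen D)
  (X : Type u) [AddCommGroup X] [Module D X]

/-- the lengths of Tor are lengths of Koszul homology. -/
theorem tau_quot_eq (gs : List S) (hreg : RingTheory.Sequence.IsWeaklyRegular S gs) (i : ℕ) :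
    tau S L i (S ⧸ Ideal.ofList gs) X =
      (KG.ALen.of L).len ((KG.KC X (gs.map (algebraMap S D))).H i) := by
  obtain ⟨e1⟩ := tor_symm (R := D) i (D ⊗[S] (S ⧸ Ideal.ofList gs)) X
  obtain ⟨e2⟩ := KG.tor_equiv_flat (D := D) hreg i X
  exact len_congr L (e1.trans e2)

/-- **L6**. -/
theorem tau_ci_eq_zero (gs : List S) (hreg : RingTheory.Sequence.IsWeaklyRegular S gs)
    (ys : List D) (hlen : gs.length = ys.length)
    (h0 : ∀ i, 1 ≤ i → L.len ((KG.KC X ys).H i) = 0) (h1 : L.len ((KG.KC X ys).H 0) ≠ ⊤)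
    (hy : ∀ y ∈ ys, ∃ l : ℕ, y ^ l ∈
      (Ideal.ofList gs).map (algebraMap S D) ⊔ Module.annihilator D X) :
    (∀ i, 1 ≤ i → tau S L i (S ⧸ Ideal.ofList gs) X = 0) ∧
      tau S L 0 (S ⧸ Ideal.ofList gs) X ≠ ⊤ := by
  have h := KG.KC_len_zero_of_rad X (KG.ALen.of L) (cs := gs.map (algebraMap S D)) (ys := ys)
    (by rw [List.length_map, hlen]) h0 h1 (by
      intro y hy'
      obtain ⟨l, hl⟩ := hy y hy'
      refine ⟨l, ?_⟩
      rwa [Ideal.map_ofList] at hl)
  constructor
  · intro i hi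
    rw [tau_quot_eq L X gs hreg i]
    exact h.1 i hi
  · rw [tau_quot_eq L X gs hreg 0]
    exact h.2

end Vale.Agent.P177.SL
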