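import Vale.Agent.P177.SL.Upper
import Vale.Agent.P177.SL.Lower
import Vale.Agent.P177.SL.TorKos

/-!
Positivity of the Euler characteristic in the complementary dimension.
-/

namespace Vale.Agent.P177.SL

open Vale.Agent.P202.Mix Function TensorProduct IsLocalRing
open scoped ENNReal

universe u

/-- **positivity**: `dim S / P + |ys| = d`. -/
theorem chi_pos {W₀ S D : Type u} [CommRing W₀] [IsDomain W₀] [IsDiscreteValuationRing W₀]
    [CommRing S] [IsLocalRing S] [IsNoetherianRing S] [CommRing D] [Algebra W₀ S] [Algebra S D]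
    [Module.Flat S D] [Algebra W₀ D] [IsScalarTower W₀ S D] (L : AddLen D) {d : ℕ} (π : W₀)
    (hπ : Irreducible π) {z : Fin d → S} (T : Thick S d (algebraMap W₀ S π) z)
    (hΘ : ∀ (t : ℕ) (w : W₀),
      T.Θ t (algebraMap W₀ S w) = algebraMap S (TB S d t) (algebraMap W₀ S w))
    (hgen : ∀ (s : S) (M : ℕ), ∃ q : MvPolynomial (Fin d) W₀,
      s - MvPolynomial.aeval z q ∈ Ideal.span (Set.range z) ^ M)
    (hres : Surjective ((Ideal.Quotient.mk (maximalIdeal S)).comp (algebraMap W₀ S)))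
    (hzm : ∀ i, z i ∈ maximalIdeal S) (hπm : algebraMap W₀ S π ∈ maximalIdeal S)
    (X : Type u) [AddCommGroup X] [Module D X] [Module W₀ X] [IsScalarTower W₀ D X]
    (ys : List D)
    (h0 : ∀ i, 1 ≤ i → L.len ((KG.KC X (algebraMap W₀ D π :: ys)).H i) = 0)
    (h1 : L.len ((KG.KC X (algebraMap W₀ D π :: ys)).H 0) ≠ ⊤)
    (h2 : L.len ((KG.KC X (algebraMap W₀ D π :: ys)).H 0) ≠ 0)
    (hz : ∃ l : ℕ, ∀ i, algebraMap S D (z i) ^ l ∈
      Ideal.ofList (algebraMap W₀ D π :: ys) ⊔ Module.annihilator D X)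
    (hG : BaseGrowth L (algebraMap W₀ S π) z ys.length X)
    (P : Ideal S) [P.IsPrime] (hXP : Nilp D P X) (gs : List S)
    (hgs : RingTheory.Sequence.IsWeaklyRegular S gs) (hlen : gs.length = ys.length + 1)
    (hgP : Ideal.ofList gs ≤ P) (s : S) (hs : s ∉ P) (hsP : ∀ x ∈ P, s * x ∈ Ideal.ofList gs)
    (hy : ∀ y ∈ algebraMap W₀ D π :: ys, ∃ l : ℕ, y ^ l ∈
      (Ideal.ofList gs).map (algebraMap S D) ⊔ Module.annihilator D X)
    (a : ℕ) (ha : Module.supportDim S (S ⧸ P) = a) (had : a + ys.length = d) (n : ℕ)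
    (hn : tau S L (n + 1) (S ⧸ P) X = 0) : 0 < chi S L (n + 1) (S ⧸ P) X := by
  have hPann : P ≤ Module.annihilator S (S ⧸ P) := by
    rw [Ideal.annihilator_quotient]
  have hfin : ∀ i, tau S L i (S ⧸ P) X ≠ ⊤ := fun i => tau_ne_top T hG hXP ⟨a, ha.le⟩ hPann i
  obtain ⟨hK, -⟩ := tau_ci_eq_zero L X gs hgs (algebraMap W₀ D π :: ys)
    (by rw [List.length_cons]; exact hlen) h0 h1 hy
  let α : S ⧸ P →ₗ[S] S ⧸ Ideal.ofList gs :=
    Submodule.mapQ P (Ideal.ofList gs) (LinearMap.lsmul S S s) (fun x hx => hsP x hx)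
  let β : S ⧸ Ideal.ofList gs →ₗ[S] S ⧸ P :=
    Submodule.mapQ (Ideal.ofList gs) P LinearMap.id (fun x hx => hgP hx)
  have hαβ : ∀ x, β (α x) = s • x := by
    intro x
    obtain ⟨x, rfl⟩ := Submodule.Quotient.mk_surjective P x
    rfl
  obtain ⟨C, hC, hup⟩ := tau_higher T hG P hXP hK s hs α β hαβ a ha.le
  obtain ⟨κ, hκ, hlow⟩ := tau_zero_lower L π hπ T hΘ hgen hres hzm hπm X ys h0 hz (S ⧸ P) a ha
  obtain ⟨μ, hμ⟩ : ∃ μ : ℝ, μ = (L.len ((KG.KC X (algebraMap W₀ D π :: ys)).H 0)).toReal :=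
    ⟨_, rfl⟩
  have hμ0 : 0 < μ := by
    rw [hμ]
    exact ENNReal.toReal_pos h2 h1
  by_contra hneg
  have hneg' : chi S L (n + 1) (S ⧸ P) X ≤ 0 := not_lt.1 hneg
  -- the estimate for `t = κ u`
  have key : ∀ u : ℕ, 1 ≤ u → (u : ℝ) * μ ≤ n * (C.toReal * (κ : ℝ) ^ d) := by
    intro u hu
    have ht : 1 ≤ κ * u := Nat.mul_pos hκ hu
    have hu0 : (0 : ℝ) < u := by exact_mod_cast hu
    have hκ0 : (0 : ℝ) < κ := by exact_mod_cast hκ
    have hκ1 : (1 : ℝ) ≤ κ := by exact_mod_cast hκ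
    have e1 := chi_thick L (T.Θ (κ * u)) (T.near (κ * u)) (S ⧸ P) X hfin (n + 1) hn
    have e2 : chi S L (n + 1) (Th (T.Θ (κ * u)) (TB S d (κ * u)) (S ⧸ P)) X ≤ 0 := by
      rw [e1]
      exact mul_nonpos_of_nonneg_of_nonpos (by positivity) hneg'
    have e3 := le_chi (S := S) L (X := X) (N := Th (T.Θ (κ * u)) (TB S d (κ * u)) (S ⧸ P)) n
    have e4 : (u : ℝ) ^ d * μ ≤
        (tau S L 0 (Th (T.Θ (κ * u)) (TB S d (κ * u)) (S ⧸ P)) X).toReal := by
      have hne : tau S L 0 (Th (T.Θ (κ * u)) (TB S d (κ * u)) (S ⧸ P)) X ≠ ⊤ := by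
        refine ne_top_of_le_ne_top ?_ (tau_thick_le L (T.Θ (κ * u)) (T.near (κ * u)) (S ⧸ P) X 0)
        exact ENNReal.mul_ne_top (by finiteness) (hfin 0)
      have h3 := ENNReal.toReal_mono hne (hlow u hu)
      rw [ENNReal.toReal_mul, ENNReal.toReal_mul, ENNReal.toReal_pow, ENNReal.toReal_natCast,
        ENNReal.toReal_natCast, ← hμ] at h3
      calc (u : ℝ) ^ d * μ = ((u ^ a : ℕ) : ℝ) * ((u : ℝ) ^ ys.length * μ) := by
            rw [← had, pow_add]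
            push_cast
            ring
        _ ≤ _ := h3
    have e5 : ((κ * u : ℕ) : ℝ) * ∑ i ∈ Finset.range n,
        (tau S L (i + 1) (Th (T.Θ (κ * u)) (TB S d (κ * u)) (S ⧸ P)) X).toReal ≤
          n * (C.toReal * ((κ * u : ℕ) : ℝ) ^ d) := by
      rw [Finset.mul_sum]
      refine (Finset.sum_le_card_nsmul _ _ (C.toReal * ((κ * u : ℕ) : ℝ) ^ d)
        fun i _ => ?_).trans ?_
      · have h3 := ENNReal.toReal_mono (by finiteness) (hup (κ * u) ht (i + 1) (Nat.succ_pos i))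
        rw [ENNReal.toReal_mul, ENNReal.toReal_mul, ENNReal.toReal_pow, ENNReal.toReal_natCast,
          had] at h3
        exact h3
      · rw [Finset.card_range, nsmul_eq_mul]
    have e6 : (u : ℝ) ^ d * μ ≤ ∑ i ∈ Finset.range n,
        (tau S L (i + 1) (Th (T.Θ (κ * u)) (TB S d (κ * u)) (S ⧸ P)) X).toReal := by linarith
    have e7 : (u : ℝ) * ((u : ℝ) ^ d * μ) ≤ ((κ * u : ℕ) : ℝ) * ∑ i ∈ Finset.range n,
        (tau S L (i + 1) (Th (T.Θ (κ * u)) (TB S d (κ * u)) (S ⧸ P)) X).toReal := by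
      refine mul_le_mul ?_ e6 (by positivity) (by positivity)
      push_cast
      exact le_mul_of_one_le_left hu0.le hκ1
    have e8 : (u : ℝ) ^ d * ((u : ℝ) * μ) ≤ (u : ℝ) ^ d * (n * (C.toReal * (κ : ℝ) ^ d)) := by
      calc (u : ℝ) ^ d * ((u : ℝ) * μ) = (u : ℝ) * ((u : ℝ) ^ d * μ) := by ring
        _ ≤ n * (C.toReal * ((κ * u : ℕ) : ℝ) ^ d) := e7.trans e5
        _ = (u : ℝ) ^ d * (n * (C.toReal * (κ : ℝ) ^ d)) := by
            push_cast
            rw [mul_pow]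
            ring
    exact le_of_mul_le_mul_left e8 (pow_pos hu0 _)
  obtain ⟨u, hu⟩ := exists_nat_gt (n * (C.toReal * (κ : ℝ) ^ d) / μ)
  rw [div_lt_iff₀ hμ0] at hu
  have h5 := key (u + 1) (Nat.succ_pos u)
  have h6 : (u : ℝ) * μ ≤ ((u + 1 : ℕ) : ℝ) * μ := by
    gcongr
    exact_mod_cast Nat.le_succ u
  linarith

end Vale.Agent.P177.SL
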