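import Vale.Agent.P177.SL.FinalPS
import Vale.Agent.P177.SL.Positive

/-!
P177, block B7, concrete form: positivity for the module `W(C')` over `S ⊗ W(C')`.
-/

namespace Vale.Agent.P177.SL

open Vale.Agent.P202.Mix Function TensorProduct IsLocalRing Vale.Agent.P177.PI WittVector
open scoped ENNReal

universe u

section pos

variable {p : ℕ} [hp : Fact p.Prime] {C' : Type u} [CommRing C'] {S : Type u} [CommRing S]
  (ψ : S →+* WittVector p C') {d : ℕ} {z : Fin d → S} {n : ℕ} (v : Fin n → C')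

theorem WI_top : WI p (⊤ : Ideal C') = ⊤ := by
  rw [Ideal.eq_top_iff_one]
  have h1 := te_mem_WI p (J := (⊤ : Ideal C')) (c := 1) trivial
  rwa [map_one] at h1

/-- the Koszul homology of `XS ⊤` and of `W(C')`. -/
theorem xs_KC_top (L' : AddLen (WittVector p C')) (xs : List (WittVector p C')) (i : ℕ) :
    (lenR S L').len ((KG.KC (R := S ⊗[ℤ] WittVector p C') (XS p ⊤ ψ)
        (xs.map (inR S (WittVector p C')))).H i) =
      L'.len ((KG.KC (R := WittVector p C') (WittVector p C') xs).H i) := by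
  rw [xs_KC]
  exact MN.KC_len_congr (KG.ALen.of L') ((LinearEquiv.ofEq _ _ (WI_top (p := p))).trans
    (Submodule.topEquiv (R := WittVector p C') (M := WittVector p C'))) xs i

theorem xs_z_mem (J : Ideal C') (hr1 : ∀ l, ∃ m : ℕ, ψ (z l) ^ m ∈
      Ideal.ofList ((p : WittVector p C') :: List.ofFn fun i => teichmuller p (v i))) :
    ∃ l : ℕ, ∀ i, algebraMap S (S ⊗[ℤ] WittVector p C') (z i) ^ l ∈
      Ideal.ofList (((p : WittVector p C') :: List.ofFn fun i => teichmuller p (v i)).map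
        (inR S (WittVector p C'))) ⊔
        Module.annihilator (S ⊗[ℤ] WittVector p C') (XS p J ψ) := by
  choose m hm using hr1
  refine ⟨Finset.univ.sup m, fun i => ?_⟩
  have h0 : ψ (z i) ^ (Finset.univ.sup m) ∈
      Ideal.ofList ((p : WittVector p C') :: List.ofFn fun i => teichmuller p (v i)) := by
    obtain ⟨c, hc⟩ := pow_dvd_pow (ψ (z i)) (Finset.le_sup (f := m) (Finset.mem_univ i))
    rw [hc]
    exact Ideal.mul_mem_right _ _ (hm i)
  have h1 := tmul_sub_mem_ann p J ψ (z i ^ (Finset.univ.sup m))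
  have h2 := Ideal.mem_map_of_mem (inR S (WittVector p C')) h0
  rw [Ideal.map_ofList] at h2
  have h3 := Ideal.add_mem _ (Ideal.mem_sup_right h1 : _ ∈
    Ideal.ofList (((p : WittVector p C') :: List.ofFn fun i => teichmuller p (v i)).map
        (inR S (WittVector p C'))) ⊔
        Module.annihilator (S ⊗[ℤ] WittVector p C') (XS p J ψ)) (Ideal.mem_sup_left h2)
  have h4 : inR S (WittVector p C') (ψ (z i) ^ (Finset.univ.sup m)) =
      (1 : S) ⊗ₜ ψ (z i ^ (Finset.univ.sup m)) := by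
    rw [map_pow ψ]
    rfl
  rw [h4, sub_add_cancel] at h3
  rw [← map_pow]
  exact h3

/-- **positivity** over `S ⊗ W(C')`. -/
theorem b7_pos [CharP C' p] [PerfectRing C' p] [IsLocalRing S] [IsNoetherianRing S]
    {W₀ : Type u} [CommRing W₀] [IsDomain W₀] [IsDiscreteValuationRing W₀] [Algebra W₀ S]
    (hp0 : Irreducible (p : W₀))
    (hmax : maximalIdeal S = Ideal.span ({(p : S)} ∪ Set.range z))
    (T : Thick S d (p : S) z)
    (hΘ : ∀ t w, T.Θ t (algebraMap W₀ S w) = algebraMap S (TB S d t) (algebraMap W₀ S w))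
    (hgen : ∀ (s : S) (M : ℕ), ∃ q : MvPolynomial (Fin d) W₀,
      s - MvPolynomial.aeval z q ∈ Ideal.span (Set.range z) ^ M)
    (hres : Surjective ((Ideal.Quotient.mk (maximalIdeal S)).comp (algebraMap W₀ S)))
    (hreg : ∀ t, 1 ≤ t → RingTheory.Sequence.IsWeaklyRegular S (pz (p : S) z t))
    (L' : AddLen (WittVector p C'))
    (m0 : ∀ i, 1 ≤ i → L'.len ((KG.KC (R := WittVector p C') (WittVector p C')
      ((p : WittVector p C') :: List.ofFn fun i => teichmuller p (v i))).H i) = 0)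
    (m1 : L'.len ((KG.KC (R := WittVector p C') (WittVector p C')
      ((p : WittVector p C') :: List.ofFn fun i => teichmuller p (v i))).H 0) ≠ ⊤)
    (m2 : L'.len ((KG.KC (R := WittVector p C') (WittVector p C')
      ((p : WittVector p C') :: List.ofFn fun i => teichmuller p (v i))).H 0) ≠ 0)
    (hr1 : ∀ l, ∃ m : ℕ, ψ (z l) ^ m ∈
      Ideal.ofList ((p : WittVector p C') :: List.ofFn fun i => teichmuller p (v i)))
    (hr2 : ∀ i, ∃ m : ℕ, teichmuller p (v i) ^ m ∈
      Ideal.span (Set.range fun l => ψ (z l)) ⊔ Ideal.span {(p : WittVector p C')})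
    (P : Ideal S) [hP : P.IsPrime] (gs : List S)
    (hgs : RingTheory.Sequence.IsWeaklyRegular S gs) (hlen : gs.length = n + 1)
    (hgP : Ideal.ofList gs ≤ P) (s : S) (hs : s ∉ P) (hsP : ∀ x ∈ P, s * x ∈ Ideal.ofList gs)
    (hp' : ∃ m : ℕ, (p : WittVector p C') ^ m ∈ (Ideal.ofList gs).map ψ)
    (hv : ∀ i, ∃ m : ℕ, teichmuller p (v i) ^ m ∈ (Ideal.ofList gs).map ψ)
    (a : ℕ) (ha : Module.supportDim S (S ⧸ P) = a) (had : a + n = d) (N : ℕ)
    (hN : tau S (lenR S L') (N + 1) (S ⧸ P) (XS p ⊤ ψ) = 0) :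
    0 < SL.chi S (lenR S L') (N + 1) (S ⧸ P) (XS p ⊤ ψ) := by
  have hf : Module.Flat ℤ (WittVector p C') := Full.flat_int_witt p C'
  have e0 : algebraMap W₀ S (p : W₀) = (p : S) := map_natCast _ _
  let iM : Module W₀ (XS p (⊤ : Ideal C') ψ) :=
    Module.compHom _ (algebraMap W₀ (S ⊗[ℤ] WittVector p C'))
  have iT : IsScalarTower W₀ (S ⊗[ℤ] WittVector p C') (XS p (⊤ : Ideal C') ψ) :=
    ⟨fun w x y => by
      change (w • x) • y = algebraMap W₀ (S ⊗[ℤ] WittVector p C') w • (x • y)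
      have h1 : w • x = algebraMap W₀ (S ⊗[ℤ] WittVector p C') w * x := Algebra.smul_def w x
      rw [h1, mul_smul]⟩
  let ys : List (S ⊗[ℤ] WittVector p C') :=
    (List.ofFn fun i => teichmuller p (v i)).map (inR S (WittVector p C'))
  have hys : ys.length = n := by rw [List.length_map, List.length_ofFn]
  have e1 : algebraMap W₀ (S ⊗[ℤ] WittVector p C') (p : W₀) :: ys =
      ((p : WittVector p C') :: List.ofFn fun i => teichmuller p (v i)).map
        (inR S (WittVector p C')) := by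
    rw [List.map_cons, map_natCast, map_natCast]
  have hPm : ∀ I : Ideal S, Ideal.ofList gs ≤ I → (Ideal.ofList gs).map ψ ≤ I.map ψ :=
    fun I h => Ideal.map_mono h
  have hgrow : ∀ i, L'.len ((KG.KC (R := WittVector p C') (WI p (⊤ : Ideal C'))
      ((p : WittVector p C') :: List.ofFn fun i => teichmuller p (v i))).H i) ≠ ⊤ := by
    intro i
    rw [← xs_KC (S := S) ψ L' ⊤, xs_KC_top]
    rcases Nat.eq_zero_or_pos i with rfl | hi
    · exact m1
    · rw [m0 i hi]
      exact ENNReal.zero_ne_top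
  have hG := xs_growth ψ v hreg L' ⊤ hgrow hr2
  have key : ∀ (q : S) (hq : algebraMap W₀ S (p : W₀) = q) (T' : Thick S d q z)
      (hΘ' : ∀ t w, T'.Θ t (algebraMap W₀ S w) = algebraMap S (TB S d t) (algebraMap W₀ S w))
      (hqm : q ∈ maximalIdeal S)
      (hG' : BaseGrowth (lenR S L') q z n (XS p ⊤ ψ)),
      0 < SL.chi S (lenR S L') (N + 1) (S ⧸ P) (XS p ⊤ ψ) := by
    intro q hq T' hΘ' hqm hG'
    subst hq
    refine chi_pos (lenR S L') (p : W₀) hp0 T' hΘ' hgen hres (fun i => ?_) hqm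
      (XS p ⊤ ψ) ys ?_ ?_ ?_ ?_ ?_ P ?_ gs hgs (by rw [hys]; exact hlen) hgP s hs hsP ?_ a ha
      (by rw [hys]; exact had) N hN
    · rw [hmax]
      exact Ideal.subset_span (Or.inr ⟨i, rfl⟩)
    · intro i hi
      rw [e1, xs_KC_top]
      exact m0 i hi
    · rw [e1, xs_KC_top]
      exact m1
    · rw [e1, xs_KC_top]
      exact m2
    · rw [e1]
      exact xs_z_mem ψ v ⊤ hr1
    · rw [hys]
      exact hG'
    · refine xs_nilp ψ v hmax ⊤ ?_ ?_ hr1
      · obtain ⟨m, hm⟩ := hp'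
        exact ⟨m, hPm P hgP hm⟩
      · intro i
        obtain ⟨m, hm⟩ := hv i
        exact ⟨m, hPm P hgP hm⟩
    · rw [e1]
      exact xs_pow_mem ψ v ⊤ hp' hv
  refine key (p : S) e0 T hΘ ?_ hG
  rw [hmax]
  exact Ideal.subset_span (Or.inl rfl)

end pos

namespace PSRing

variable {p : ℕ} [hp : Fact p.Prime] {C' : Type u} [CommRing C'] {S : Type u} [CommRing S]
  [IsLocalRing S] {d : ℕ} {z : Fin d → S} [CharP C' p] [PerfectRing C' p] (h : PSRing p S z)
  (ψ : S →+* WittVector p C') {n : ℕ} (v : Fin n → C') (L' : AddLen (WittVector p C'))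
  (hr1 : ∀ l, ∃ m : ℕ, ψ (z l) ^ m ∈
    Ideal.ofList ((p : WittVector p C') :: List.ofFn fun i => teichmuller p (v i)))
  (hr2 : ∀ i, ∃ m : ℕ, teichmuller p (v i) ^ m ∈
    Ideal.span (Set.range fun l => ψ (z l)) ⊔ Ideal.span {(p : WittVector p C')})
include h hr1 hr2

/-- **positivity** for `S ⧸ P`, `gs` a generic complete intersection in `P`. -/
theorem pos
    (m0 : ∀ i, 1 ≤ i → L'.len ((KG.KC (R := WittVector p C') (WittVector p C')
      ((p : WittVector p C') :: List.ofFn fun i => teichmuller p (v i))).H i) = 0)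
    (m1 : L'.len ((KG.KC (R := WittVector p C') (WittVector p C')
      ((p : WittVector p C') :: List.ofFn fun i => teichmuller p (v i))).H 0) ≠ ⊤)
    (m2 : L'.len ((KG.KC (R := WittVector p C') (WittVector p C')
      ((p : WittVector p C') :: List.ofFn fun i => teichmuller p (v i))).H 0) ≠ 0)
    (P : Ideal S) [hP : P.IsPrime] (gs : List S)
    (hgs : RingTheory.Sequence.IsWeaklyRegular S gs) (hlen : gs.length = n + 1)
    (hgP : Ideal.ofList gs ≤ P) (s : S) (hs : s ∉ P) (hsP : ∀ x ∈ P, s * x ∈ Ideal.ofList gs)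
    (hp' : ∃ m : ℕ, (p : WittVector p C') ^ m ∈ (Ideal.ofList gs).map ψ)
    (hv : ∀ i, ∃ m : ℕ, teichmuller p (v i) ^ m ∈ (Ideal.ofList gs).map ψ)
    (a : ℕ) (ha : Module.supportDim S (S ⧸ P) = a) (had : a + n = d) (nn : ℕ)
    (hnn : d + 2 ≤ nn) :
    0 < chi S (lenR S L') nn (S ⧸ P) (XS p (⊤ : Ideal C') ψ) := by
  have h0 := h.regular
  have hf : Module.Flat ℤ (WittVector p C') := Full.flat_int_witt p C'
  obtain ⟨W₀, i1, i2, i3, i4, T, hp0, hΘ, hgen, hres⟩ := h.thick
  obtain ⟨N, rfl⟩ : ∃ N', nn = N' + 1 := ⟨nn - 1, by omega⟩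
  exact b7_pos ψ v hp0 h.max T hΘ hgen hres h.wreg L' m0 m1 m2 hr1 hr2 P gs hgs hlen hgP s hs hsP
    hp' hv a ha had N (h.tau_eq_zero (lenR S L') (S ⧸ P) (XS p ⊤ ψ) (N + 1) hnn)

end PSRing

end Vale.Agent.P177.SL
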