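import Vale.Agent.P177.SL.GenCI

/-!
P177, block B7: generic complete intersections in `P`, lifted along `S → S/E = R`.
-/

namespace Vale.Agent.P177.SL

open RingTheory.Sequence IsLocalRing Function Pointwise

universe u

/-- lifting a regular sequence along `S → S/E = R`. -/
theorem lift_ci {S R : Type u} [CommRing S] [CommRing R] (Φ : S →+* R) (hΦ : Surjective Φ)
    (E : S) (hE : RingHom.ker Φ = Ideal.span {E}) (hEr : E ∈ nonZeroDivisors S) (P : Ideal R)
    (fs : List R) (hreg : IsWeaklyRegular R fs) (hfP : ∀ f ∈ fs, f ∈ P)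
    (hs : ∃ s, s ∉ P ∧ ∀ x ∈ P, s * x ∈ Ideal.ofList fs) :
    ∃ fs' : List S, fs'.map Φ = fs ∧ IsWeaklyRegular S (E :: fs') ∧
      Ideal.ofList (E :: fs') = (Ideal.ofList fs).comap Φ ∧
      Ideal.ofList (E :: fs') ≤ P.comap Φ ∧
      ∃ s, s ∉ P.comap Φ ∧ ∀ x ∈ P.comap Φ, s * x ∈ Ideal.ofList (E :: fs') := by
  obtain ⟨fs', rfl⟩ := List.map_surjective_iff.2 hΦ fs
  have h1 : Ideal.ofList (E :: fs') = (Ideal.ofList (fs'.map Φ)).comap Φ := by
    rw [← Ideal.map_ofList, Ideal.comap_map_of_surjective Φ hΦ, Ideal.ofList_cons, ← hE, sup_comm]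
    rfl
  refine ⟨fs', rfl, ?_, h1, ?_, ?_⟩
  · algebraize [Φ]
    rw [isWeaklyRegular_cons_iff]
    constructor
    · intro a b hab
      have h2 : E * (a - b) = 0 := by
        rw [mul_sub, sub_eq_zero]
        exact hab
      have h3 := (mem_nonZeroDivisors_iff_right.1 hEr) (a - b) (by rw [mul_comm]; exact h2)
      exact sub_eq_zero.1 h3
    · have h2 : (E • (⊤ : Submodule S S)) = LinearMap.ker (Algebra.linearMap S R) := by
        ext x
        rw [Submodule.mem_smul_pointwise_iff_exists, LinearMap.mem_ker]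
        have h3 : (Algebra.linearMap S R) x = 0 ↔ x ∈ RingHom.ker Φ := Iff.rfl
        rw [h3, hE, Ideal.mem_span_singleton']
        constructor
        · rintro ⟨b, -, rfl⟩
          exact ⟨b, mul_comm _ _⟩
        · rintro ⟨b, rfl⟩
          exact ⟨b, trivial, mul_comm _ _⟩
      let e : QuotSMulTop E S ≃ₗ[S] R := (Submodule.quotEquivOfEq _ _ h2).trans
        ((Algebra.linearMap S R).quotKerEquivOfSurjective hΦ)
      rw [e.isWeaklyRegular_congr, ← isWeaklyRegular_map_algebraMap_iff R R]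
      exact hreg
  · rw [h1]
    refine Ideal.comap_mono ?_
    rw [Ideal.ofList, Ideal.span_le]
    exact fun x hx => hfP x hx
  · obtain ⟨s, hsP, hs⟩ := hs
    obtain ⟨s', rfl⟩ := hΦ s
    refine ⟨s', hsP, fun x hx => ?_⟩
    rw [h1, Ideal.mem_comap, map_mul]
    exact hs _ hx

/-- **generic complete intersection, lifted to `S`**. -/
theorem exists_generic_ci_lift {S R : Type u} [CommRing S] [IsLocalRing S] [CommRing R]
    [IsRegularLocalRing R] (Φ : S →+* R) (hΦ : Surjective Φ)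
    (E : S) (hE : RingHom.ker Φ = Ideal.span {E}) (hEr : E ∈ nonZeroDivisors S) (P : Ideal R)
    [hP : P.IsPrime] (hs : List R) (hhs : ∀ h ∈ hs, h ∈ maximalIdeal R) (a b d : ℕ)
    (hd : ringKrullDim R = d) (ha : ringKrullDim (R ⧸ P) = a) (hl : hs.length = a)
    (hab : a + b = d) (hm : maximalIdeal R ≤ (P ⊔ Ideal.ofList hs).radical)
    (hdim : ringKrullDim (R ⧸ Ideal.ofList hs) ≤ (b : WithBot ℕ∞)) :
    ∃ fs : List S, fs.length = b ∧ (∀ f ∈ fs, Φ f ∈ P) ∧ IsWeaklyRegular S (E :: fs) ∧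
      Ideal.ofList (E :: fs) ≤ P.comap Φ ∧
      (∃ s, s ∉ P.comap Φ ∧ ∀ x ∈ P.comap Φ, s * x ∈ Ideal.ofList (E :: fs)) ∧
      maximalIdeal S ≤ (Ideal.ofList (E :: fs) ⊔ (Ideal.ofList hs).comap Φ).radical := by
  obtain ⟨fs, hfl, hfP, hfm, hreg, hsP⟩ :=
    exists_generic_ci P hs hhs a b d hd ha hl hab hm hdim
  obtain ⟨fs', rfl, h1, h2, h3, h4⟩ := lift_ci Φ hΦ E hE hEr P fs hreg.toIsWeaklyRegular hfP hsP
  refine ⟨fs', by rw [← hfl, List.length_map], fun f hf => hfP _ (List.mem_map.2 ⟨f, hf, rfl⟩),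
    h1, h3, h4, ?_⟩
  have hloc : IsLocalHom Φ := IsLocalHom.of_surjective Φ hΦ
  have h5 : maximalIdeal S ≤ (maximalIdeal R).comap Φ := by
    intro x hx
    rw [Ideal.mem_comap, mem_maximalIdeal, mem_nonunits_iff]
    intro hu
    exact (mem_nonunits_iff.1 ((mem_maximalIdeal x).1 hx)) (isUnit_of_map_unit Φ x hu)
  refine h5.trans ((Ideal.comap_mono hfm).trans ?_)
  rw [Ideal.comap_radical]
  refine Ideal.radical_mono ?_
  intro x hx
  rw [Ideal.mem_comap] at hx
  obtain ⟨y, hy, z, hz, hyz⟩ := Submodule.mem_sup.1 hx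
  obtain ⟨z', rfl⟩ := hΦ z
  have h6 : x - z' ∈ Ideal.ofList (E :: fs') := by
    rw [h2, Ideal.mem_comap, map_sub, ← hyz, add_sub_cancel_right]
    exact hy
  have h7 : x = (x - z') + z' := by ring
  rw [h7]
  exact add_mem ((le_sup_left : _ ≤ Ideal.ofList (E :: fs') ⊔ _) h6)
    ((le_sup_right : _ ≤ Ideal.ofList (E :: fs') ⊔ (Ideal.ofList hs).comap Φ) hz)

end Vale.Agent.P177.SL
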