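import Vale.Agent.P177.SL.Base
import Vale.Agent.P177.Perf.KTor

/-!
P177, B7, L5: growth of the Tor modules of `S / (π, z ^ t)` from the finiteness of one Koszul
homology.
-/

namespace Vale.Agent.P177.KG

open scoped ENNReal

universe u

/-! ### growth modulo an ideal that kills everything -/

namespace KFam

variable {R : Type u} [CommRing R] (F : KFam R) (L : ALen R) (a : Ideal R)
  (ha : ∀ r ∈ a, ∀ xs i (z : F.H xs i), r • z = 0)
include ha

theorem kill_sup {xs : List R} {x : R} (hx : x ∈ Ideal.ofList xs ⊔ a) (i : ℕ) (z : F.H xs i) :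
    x • z = 0 := by
  obtain ⟨u, hu, v, hv, rfl⟩ := Submodule.mem_sup.1 hx
  rw [add_smul, F.kill_ofList hu, ha v hv, add_zero]

theorem len_length_le_ann (ys : List R) {cs : List R}
    (h : ∀ y ∈ ys, y ∈ Ideal.ofList cs ⊔ a) (i : ℕ) :
    L.len (F.H cs i) ≤ L.len (F.H (ys.reverse ++ cs) (i + ys.length)) := by
  induction ys generalizing cs i with
  | nil => exact le_rfl
  | cons y ys ih =>
    have h1 : ∀ z : F.H cs i, ((1 : R) * y) • z = 0 := fun z => by
      rw [one_mul]
      exact F.kill_sup a ha (h y (by simp)) i z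
    have h2 : ∀ y' ∈ ys, y' ∈ Ideal.ofList (y :: cs) ⊔ a := fun y' hy' =>
      (sup_le_sup (ofList_le_append [y] cs) le_rfl : _ ≤ _) (h y' (by simp [hy']))
    have h3 := ih h2 (i + 1)
    have h4 := F.len_pw_succ_le L h1 0
    rw [len_pw_one, len_pw_one] at h4
    have e2 : i + (y :: ys).length = i + 1 + ys.length := by rw [List.length_cons]; ring
    have e3 : (y :: ys).reverse ++ cs = ys.reverse ++ (y :: cs) := by simp
    rw [e2, e3]
    exact h4.trans h3

theorem growth1_ann {cs ys : List R} (h : ∀ y ∈ ys, y ∈ Ideal.ofList cs ⊔ a) (i : ℕ) :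
    L.len (F.H cs i) ≤ bsum cs.length (fun q => L.len (F.H ys q)) (i + ys.length) := by
  refine (F.len_length_le_ann L a ha ys h i).trans ?_
  have hp : (ys.reverse ++ cs).Perm (cs ++ ys) :=
    List.perm_append_comm.trans ((List.reverse_perm ys).append_left cs)
  rw [F.len_perm L hp]
  exact F.len_append_le L cs ys _

theorem growth3_ann {cs ys : List R} {l : ℕ} (h : ∀ y ∈ ys, y ^ l ∈ Ideal.ofList cs ⊔ a)
    (t i : ℕ) :
    L.len (F.H (cs.map (· ^ t)) i) ≤
      ((l * (cs.length * t + 1 + 1) : ℕ) : ℝ≥0∞) ^ ys.length *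
        bsum cs.length (fun q => L.len (F.H ys q)) (i + ys.length) := by
  have h1 : ∀ y ∈ ys.map (· ^ (l * (cs.length * t + 1 + 1))),
      y ∈ Ideal.ofList (cs.map (· ^ t)) ⊔ a := by
    intro y' hy'
    obtain ⟨y, hy, rfl⟩ := List.mem_map.1 hy'
    have h2 := Ideal.pow_mem_pow (h y hy) (cs.length * t + 1 + 1)
    rw [← pow_mul] at h2
    have h3 := Ideal.sup_pow_add_le_pow_sup_pow h2
    rw [pow_one] at h3
    exact (sup_le_sup (ofList_pow_le cs t) le_rfl : _ ≤ _) h3
  have h2 := F.growth1_ann L a ha h1 i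
  rw [List.length_map, List.length_map] at h2
  refine h2.trans ?_
  rw [← bsum_const_mul]
  exact bsum_mono _ (fun q => F.growth2 L ys _ q) _

end KFam

section Kill

variable {R : Type u} [CommRing R] {M : Type u} [AddCommGroup M] [Module R M]

theorem KC_X_smul_eq_zero {r : R} (hr : ∀ m : M, r • m = 0) (xs : List R) :
    ∀ (i : ℕ) (x : (KC M xs).X i), r • x = 0 := by
  induction xs with
  | nil =>
    intro i x
    cases i with
    | zero => exact hr x
    | succ i => rfl
  | cons y xs ih =>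
    intro i x
    cases i with
    | zero => exact ih 0 x
    | succ i =>
      obtain ⟨a, b, rfl⟩ := (KC M xs).exists_pr y i x
      show r • (KC M xs).pr y i a b = 0
      rw [Cx.pr_smul, ih (i + 1) a, ih i b]
      rfl

theorem KC_H_smul_eq_zero {r : R} (hr : ∀ m : M, r • m = 0) (xs : List R) (i : ℕ)
    (z : (KC M xs).H i) : r • z = 0 := by
  obtain ⟨x, hx, rfl⟩ := (KC M xs).cl_surj i z
  rw [← map_smul]
  refine (KC M xs).cl_eq_zero.2 ?_
  show r • x ∈ _
  rw [KC_X_smul_eq_zero hr xs i x]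
  exact Submodule.zero_mem _

theorem bsum_le_const (n : ℕ) {φ : ℕ → ℝ≥0∞} {c : ℝ≥0∞} (h : ∀ q, φ q ≤ c) (i : ℕ) :
    KFam.bsum n φ i ≤ (2 ^ n : ℕ) * c := by
  refine (Finset.sum_le_sum (g := fun jq : ℕ × ℕ => (n.choose jq.1 : ENNReal) * c)
    fun jq _ => mul_le_mul' le_rfl (h jq.2)).trans ?_
  rw [← Finset.sum_mul]
  refine mul_le_mul' ?_ le_rfl
  rw [← Nat.cast_sum]
  refine Nat.cast_le.2 ?_
  rw [Finset.Nat.sum_antidiagonal_eq_sum_range_succ_mk, ← Nat.sum_range_choose]
  rcases le_total (i + 1) (n + 1) with hle | hle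
  · exact Finset.sum_le_sum_of_subset (Finset.range_mono hle)
  · refine le_of_eq (Finset.sum_subset (Finset.range_mono hle) ?_).symm
    intro x _ hx
    rw [Finset.mem_range, not_lt] at hx
    exact Nat.choose_eq_zero_of_lt hx

/-- growth, constant form, modulo the annihilator. -/
theorem KC_growth_ann (L : ALen R) {cs ys : List R} {l : ℕ} (a : Ideal R)
    (ha : ∀ r ∈ a, ∀ m : M, r • m = 0)
    (h : ∀ y ∈ ys, y ^ l ∈ Ideal.ofList cs ⊔ a)
    {c : ℝ≥0∞} (hc : ∀ q, L.len ((KC M ys).H q) ≤ c) (t i : ℕ) (ht : 1 ≤ t) :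
    L.len ((KC M (cs.map (· ^ t))).H i) ≤
      ((l * (cs.length + 2)) ^ ys.length * 2 ^ cs.length : ℕ) * c * (t : ℝ≥0∞) ^ ys.length := by
  have h0 := (kfam M).growth3_ann L a
    (fun r hr xs i z => KC_H_smul_eq_zero (ha r hr) xs i z) h t i
  refine h0.trans ?_
  have h1 := bsum_le_const cs.length hc (i + ys.length)
  have h2 : ((l * (cs.length * t + 1 + 1) : ℕ) : ENNReal) ≤
      ((l * (cs.length + 2) * t : ℕ) : ENNReal) := by
    refine Nat.cast_le.2 ?_
    rw [mul_assoc]
    refine Nat.mul_le_mul le_rfl ?_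
    nlinarith [Nat.zero_le cs.length, ht]
  refine (mul_le_mul' (pow_le_pow_left' h2 _) h1).trans (le_of_eq ?_)
  push_cast
  rw [mul_pow]
  ring

end Kill

end Vale.Agent.P177.KG

namespace Vale.Agent.P177.SL

open Vale.Agent.P202.Mix Function TensorProduct IsLocalRing
open scoped ENNReal Pointwise

universe u

section

variable {S D : Type u} [CommRing S] [CommRing D] [Algebra S D] [Module.Flat S D]

/-- `tau` of a cyclic module of a regular sequence is Koszul homology. -/
theorem tau_eq_len_KC (L : AddLen D) (xs : List S)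
    (hreg : RingTheory.Sequence.IsWeaklyRegular S xs) (X : Type u) [AddCommGroup X] [Module D X]
    (i : ℕ) : tau S L i (S ⧸ Ideal.ofList xs) X =
      L.len ((KG.KC X (xs.map (algebraMap S D))).H i) := by
  have h := KG.len_tor_flat_eq (KG.ALen.of L) hreg i X
  obtain ⟨e⟩ := tor_symm (R := D) i X (D ⊗[S] (S ⧸ Ideal.ofList xs))
  have h2 := len_congr L e
  rw [tau, TT]
  exact h2.symm.trans h

omit [Module.Flat S D] in
theorem pz_map {d : ℕ} (π : S) (z : Fin d → S) (t : ℕ) :
    (pz π z t).map (algebraMap S D) =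
      algebraMap S D π :: (List.ofFn fun i => algebraMap S D (z i)).map (· ^ t) := by
  rw [pz, List.map_cons, List.map_ofFn, List.map_ofFn]
  congr 1
  congr 1
  funext i
  simp

omit [Module.Flat S D] in
theorem exists_common_pow {I : Ideal D} (ys : List D) (h : ∀ y ∈ ys, ∃ l : ℕ, y ^ l ∈ I) :
    ∃ l : ℕ, ∀ y ∈ ys, y ^ l ∈ I := by
  induction ys with
  | nil => exact ⟨0, fun y hy => absurd hy (List.not_mem_nil)⟩
  | cons y ys ih =>
    obtain ⟨l1, h1⟩ := h y (by simp)
    obtain ⟨l2, h2⟩ := ih fun y' hy' => h y' (by simp [hy'])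
    refine ⟨l1 + l2, fun y' hy' => ?_⟩
    rcases List.mem_cons.1 hy' with rfl | hy'
    · rw [pow_add]
      exact I.mul_mem_right _ h1
    · rw [pow_add]
      exact I.mul_mem_left _ (h2 y' hy')

/-- **(L5)**: growth of `Tor (S / (π, z ^ t), X)` from the finiteness of the Koszul homology of
`π, ys` on `X`. -/
theorem baseGrowth_of_kos (L : AddLen D) (X : Type u) [AddCommGroup X] [Module D X] {d : ℕ}
    (π : S) (z : Fin d → S)
    (hreg : ∀ t, 1 ≤ t → RingTheory.Sequence.IsWeaklyRegular S (pz π z t))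
    (hX : ∀ x : X, algebraMap S D π • x = 0 → x = 0) (ys : List D)
    (hy : ∀ y ∈ ys, ∃ l : ℕ, y ^ l ∈ (Ideal.ofList (pz π z 1)).map (algebraMap S D) ⊔
      Module.annihilator D X)
    (hfin : ∀ i, L.len ((KG.KC X (algebraMap S D π :: ys)).H i) ≠ ⊤) :
    BaseGrowth L π z ys.length X := by
  set π' : D := algebraMap S D π with hπ'
  set cs : List D := List.ofFn fun i => algebraMap S D (z i) with hcs
  obtain ⟨l, hl⟩ := exists_common_pow ys hy
  -- the quotient by `π'`
  let Y : Type u := X ⧸ (π' • (⊤ : Submodule D X))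
  have hex : ∀ m : X, (π' • (⊤ : Submodule D X)).mkQ m = 0 ↔ ∃ m' : X, π' • m' = m := by
    intro m
    rw [Submodule.mkQ_apply, Submodule.Quotient.mk_eq_zero]
    constructor
    · rintro ⟨m', -, h'⟩
      exact ⟨m', h'⟩
    · rintro ⟨m', h'⟩
      exact ⟨m', trivial, h'⟩
  have hcons : ∀ (xs : List D) (i : ℕ), L.len ((KG.KC X (π' :: xs)).H i) =
      L.len ((KG.KC Y xs).H i) := fun xs i =>
    len_congr L (KG.KC_cons_equiv π' hX (Submodule.mkQ (π' • (⊤ : Submodule D X)))
      (Submodule.mkQ_surjective _) hex xs i)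
  let a : Ideal D := Ideal.span {π'} ⊔ Module.annihilator D X
  have ha : ∀ r ∈ a, ∀ m : Y, r • m = 0 := by
    intro r hr m
    obtain ⟨m, rfl⟩ := Submodule.mkQ_surjective _ m
    obtain ⟨u, hu, v, hv, rfl⟩ := Submodule.mem_sup.1 hr
    obtain ⟨u, rfl⟩ := Ideal.mem_span_singleton'.1 hu
    rw [← map_smul, add_smul, Module.mem_annihilator.1 hv, add_zero, mul_comm, mul_smul]
    exact (hex _).2 ⟨_, rfl⟩
  have hl' : ∀ y ∈ ys, y ^ l ∈ Ideal.ofList cs ⊔ a := by
    intro y hy'
    have h1 := hl y hy'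
    rw [Ideal.map_ofList, pz_map, Ideal.ofList_cons] at h1
    have e : (List.ofFn fun i => algebraMap S D (z i)).map (· ^ 1) = cs := by
      rw [hcs]
      simp only [pow_one]
      exact List.map_id _
    rw [e] at h1
    have e2 : Ideal.span {π'} ⊔ Ideal.ofList cs ⊔ Module.annihilator D X =
        Ideal.ofList cs ⊔ a := by
      show _ = Ideal.ofList cs ⊔ (Ideal.span {π'} ⊔ Module.annihilator D X)
      rw [← sup_assoc, sup_comm (Ideal.ofList cs)]
    rw [← e2]
    exact h1
  -- a common bound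
  let c : ℝ≥0∞ := ∑ q ∈ Finset.range (ys.length + 1), L.len ((KG.KC Y ys).H q)
  have hc : c < ⊤ := by
    refine ENNReal.sum_lt_top.2 fun q _ => ?_
    rw [← hcons]
    exact lt_top_iff_ne_top.2 (hfin q)
  have hcb : ∀ q, (KG.ALen.of L).len ((KG.KC Y ys).H q) ≤ c := by
    intro q
    by_cases hq : q ∈ Finset.range (ys.length + 1)
    · exact Finset.single_le_sum (f := fun q => L.len ((KG.KC Y ys).H q))
        (fun _ _ => zero_le) hq
    · rw [Finset.mem_range, not_lt] at hq
      rw [KG.KC_len_eq_zero (KG.ALen.of L) Y ys (by omega)]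
      exact zero_le
  refine ⟨((l * (cs.length + 2)) ^ ys.length * 2 ^ cs.length : ℕ) * c,
    ENNReal.mul_lt_top (ENNReal.natCast_lt_top _) hc, ?_⟩
  intro t ht i
  rw [tau_eq_len_KC L _ (hreg t ht) X i, pz_map, hcons]
  exact KG.KC_growth_ann (KG.ALen.of L) a ha hl' hcb t i ht

end

end Vale.Agent.P177.SL
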