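import Vale.Agent.P177.SL.Base

/-!
The growth of the Tor modules of the thickenings, and vanishing of the Euler characteristic.
-/

namespace Vale.Agent.P177.SL

open Vale.Agent.P202.Mix Function TensorProduct IsLocalRing
open scoped ENNReal

universe u

/-- the ideal of the variables is nilpotent. -/
theorem vars_pow_eq_bot (S : Type u) [CommRing S] (d t : ℕ) :
    (Ideal.span (Set.range fun i : Fin d =>
      (Ideal.Quotient.mk _ (MvPolynomial.X i) : TB S d t))) ^ (d * t + 1) = ⊥ := by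
  have h1 : (Ideal.span (Set.range fun i : Fin d =>
      (Ideal.Quotient.mk _ (MvPolynomial.X i) : TB S d t))) =
      (Ideal.span (Set.range (MvPolynomial.X : Fin d → MvPolynomial (Fin d) S))).map
        (Ideal.Quotient.mk (boxI S fun _ : Fin d => t)) := by
    rw [Ideal.map_span, ← Set.range_comp]
    rfl
  rw [h1, ← Ideal.map_pow, ← le_bot_iff]
  refine (Ideal.map_mono ((Ideal.pow_le_pow_right ?_).trans
    (box_nil (S := S) fun _ : Fin d => t))).trans ?_
  · rw [Finset.sum_const, Finset.card_univ, Fintype.card_fin, smul_eq_mul]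
    have : d * (t - 1) ≤ d * t := Nat.mul_le_mul_left d (Nat.sub_le t 1)
    omega
  · rw [Ideal.map_quotient_self]

theorem Nilp.exists_pos {S : Type u} {D : Type u} [CommRing S] [IsLocalRing S] [CommRing D]
    [Algebra S D] {I : Ideal S} {X : Type u} [AddCommGroup X] [Module D X] (h : Nilp D I X) :
    ∃ c : ℕ, 1 ≤ c ∧ ∀ s ∈ maximalIdeal S, algebraMap S D (s ^ c) ∈
      I.map (algebraMap S D) ⊔ Module.annihilator D X := by
  obtain ⟨c, hc⟩ := h
  refine ⟨c + 1, Nat.le_add_left 1 c, fun s hs => ?_⟩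
  rw [pow_succ, map_mul]
  exact Ideal.mul_mem_right _ _ (hc s hs)

section

variable {S D : Type u} [CommRing S] [IsLocalRing S] [CommRing D]
  [Algebra S D] {L : AddLen D} {d : ℕ} {π : S} {z : Fin d → S} (T : Thick S d π z)
  {X : Type u} [AddCommGroup X] [Module D X] {I : Ideal S}

include T in
/-- the thickening for `t = 1`. -/
theorem th_one (N : Type u) [AddCommGroup N] [Module S N] :
    Nonempty (Th (T.Θ 1) (TB S d 1) N ≃ₗ[S] N) := by
  have h1 : ∀ s, T.Θ 1 s = algebraMap S (TB S d 1) s := by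
    intro s
    have h2 := T.near 1 s
    have h3 : Ideal.span (Set.range fun i : Fin d =>
        (Ideal.Quotient.mk _ (MvPolynomial.X i) : TB S d 1)) = ⊥ := by
      rw [Ideal.span_eq_bot]
      rintro _ ⟨i, rfl⟩
      have := X_pow_mem_boxI (S := S) (fun _ : Fin d => 1) i
      rw [pow_one] at this
      exact Ideal.Quotient.eq_zero_iff_mem.2 this
    rw [h3, Ideal.mem_bot] at h2
    exact sub_eq_zero.1 h2
  let e1 : Th (T.Θ 1) (TB S d 1) N ≃ₗ[S] TB S d 1 ⊗[S] N :=
    { toFun := fun x => x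
      invFun := fun x => x
      left_inv := fun _ => rfl
      right_inv := fun _ => rfl
      map_add' := fun _ _ => rfl
      map_smul' := fun s x => by
        rw [th_smul, h1]
        exact algebraMap_smul (TB S d 1) s (show TB S d 1 ⊗[S] N from x) }
  exact ⟨(e1.trans (TensorProduct.congr (boxOne S d) (LinearEquiv.refl S N))).trans
    (TensorProduct.lid S N)⟩

end

section

variable {S D : Type u} [CommRing S] [IsLocalRing S] [IsNoetherianRing S] [CommRing D]
  [Algebra S D] [Module.Flat S D] {L : AddLen D} {d : ℕ} {π : S} {z : Fin d → S}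
  (T : Thick S d π z) {X : Type u} [AddCommGroup X] [Module D X] {I : Ideal S} {m : ℕ}
  (hG : BaseGrowth L π z m X) (hX : Nilp D I X)
include T hG hX

/-- the lengths of the Tor modules of the thickenings grow at most like `t ^ (dim N + m)`. -/
theorem tau_thick_growth (N : Type u) [AddCommGroup N] [Module S N] [Module.Finite S N]
    (hI : I ≤ Module.annihilator S N) (a : ℕ) (ha : Module.supportDim S N ≤ a) :
    ∃ C : ℝ≥0∞, C < ⊤ ∧ ∀ t, 1 ≤ t → ∀ i,
      tau S L i (Th (T.Θ t) (TB S d t) N) X ≤ C * (t : ℝ≥0∞) ^ (a + m) := by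
  obtain ⟨B, hB, hBt⟩ := hG
  obtain ⟨c, hc1, hc⟩ := hX.exists_pos
  obtain ⟨C, hC⟩ := growth I a N hI ha
  refine ⟨C * ((c * (d + 1) : ℕ) : ℝ≥0∞) ^ a * B, ?_, fun t ht i => ?_⟩
  · refine ENNReal.mul_lt_top (ENNReal.mul_lt_top (ENNReal.natCast_lt_top C) ?_) hB
    exact ENNReal.pow_lt_top (ENNReal.natCast_lt_top _)
  · have hk : Kills L (1 : D) := fun M _ _ h => by
      have : Subsingleton M := ⟨fun x y => by rw [← one_smul D x, ← one_smul D y, h, h]⟩
      exact len_subsingleton L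
    obtain ⟨G, hGτ⟩ := tau_th_growth (S := S) (T := TB S d t) (D := D) (I := I) (T.Θ t) (T.near t)
      (X := X) hk (d * t + 1) (vars_pow_eq_bot S d t) 0 c (fun s hs => by
        rw [pow_zero, one_mul]
        exact hc s hs) i
    have h1 : (1 : ℝ≥0∞) ≤ ((c * (d * t + 1) : ℕ) : ℝ≥0∞) := by
      have : 1 ≤ c * (d * t + 1) := Nat.mul_pos hc1 (Nat.succ_pos _)
      exact_mod_cast this
    have h2 := hC _ h1 G
    rw [hGτ, hGτ] at h2
    obtain ⟨e⟩ := T.res t ht
    rw [tau_congr L i e] at h2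
    refine h2.trans ?_
    have h3 : ((c * (d * t + 1) : ℕ) : ℝ≥0∞) ≤ ((c * (d + 1) : ℕ) : ℝ≥0∞) * t := by
      have : c * (d * t + 1) ≤ c * (d + 1) * t := by
        rw [mul_assoc]
        refine Nat.mul_le_mul_left c ?_
        rw [add_mul, one_mul]
        omega
      exact_mod_cast this
    calc (C : ℝ≥0∞) * ((c * (d * t + 1) : ℕ) : ℝ≥0∞) ^ a *
          tau S L i (S ⧸ Ideal.ofList (pz π z t)) X
        ≤ C * (((c * (d + 1) : ℕ) : ℝ≥0∞) * t) ^ a * (B * (t : ℝ≥0∞) ^ m) := by
          gcongr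
          exact hBt t ht i
      _ = C * ((c * (d + 1) : ℕ) : ℝ≥0∞) ^ a * B * (t : ℝ≥0∞) ^ (a + m) := by
          rw [mul_pow, pow_add]
          ring

/-- finiteness. -/
theorem tau_ne_top {N : Type u} [AddCommGroup N] [Module S N] [Module.Finite S N]
    (hdim : ∃ a : ℕ, Module.supportDim S N ≤ a)
    (hI : I ≤ Module.annihilator S N) (i : ℕ) : tau S L i N X ≠ ⊤ := by
  obtain ⟨a, ha⟩ := hdim
  obtain ⟨C, hC, h1⟩ := tau_thick_growth T hG hX N hI a ha
  obtain ⟨e⟩ := th_one T N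
  have h2 := h1 1 le_rfl i
  rw [tau_congr L i e] at h2
  refine ne_top_of_le_ne_top ?_ h2
  rw [Nat.cast_one, one_pow, mul_one]
  exact hC.ne

/-- **vanishing**: `dim N + m < d`. -/
theorem chi_eq_zero
    (hchi : ∀ (t : ℕ) (n : ℕ) (N : Type u) [AddCommGroup N] [Module S N],
      (∀ i, tau S L i N X ≠ ⊤) → tau S L n N X = 0 →
        chi S L n (Th (T.Θ t) (TB S d t) N) X = (t : ℝ) ^ d * chi S L n N X)
    (N : Type u) [AddCommGroup N] [Module S N] [Module.Finite S N]
    (hI : I ≤ Module.annihilator S N) (a : ℕ) (ha : Module.supportDim S N ≤ a)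
    (had : a + m < d) (n : ℕ) (hn : tau S L n N X = 0) : chi S L n N X = 0 := by
  obtain ⟨C, hC, h1⟩ := tau_thick_growth T hG hX N hI a ha
  have h2 : ∀ t : ℕ, 1 ≤ t → (t : ℝ) * |chi S L n N X| ≤ n * C.toReal := by
    intro t ht
    have ht0 : (0 : ℝ) < t := by exact_mod_cast ht
    have ht1 : (1 : ℝ) ≤ t := by exact_mod_cast ht
    have e1 := hchi t n N (tau_ne_top T hG hX ⟨a, ha⟩ hI) hn
    have e2 := abs_chi_le (S := S) L (X := X) (N := Th (T.Θ t) (TB S d t) N) n
    rw [e1, abs_mul, abs_of_pos (pow_pos ht0 d)] at e2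
    have e3 : ∑ i ∈ Finset.range n, (tau S L i (Th (T.Θ t) (TB S d t) N) X).toReal ≤
        n * (C.toReal * (t : ℝ) ^ (a + m)) := by
      refine (Finset.sum_le_card_nsmul _ _ (C.toReal * (t : ℝ) ^ (a + m)) fun i _ => ?_).trans ?_
      · have := ENNReal.toReal_mono (by finiteness) (h1 t ht i)
        rwa [ENNReal.toReal_mul, ENNReal.toReal_pow, ENNReal.toReal_natCast] at this
      · rw [Finset.card_range, nsmul_eq_mul]
    have e4 : (t : ℝ) ^ (a + m) * ((t : ℝ) * |chi S L n N X|) ≤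
        (t : ℝ) ^ (a + m) * (n * C.toReal) := by
      calc (t : ℝ) ^ (a + m) * ((t : ℝ) * |chi S L n N X|)
          = (t : ℝ) ^ (a + m + 1) * |chi S L n N X| := by rw [pow_succ]; ring
        _ ≤ (t : ℝ) ^ d * |chi S L n N X| := by
            exact mul_le_mul_of_nonneg_right (pow_le_pow_right₀ ht1 (by omega)) (abs_nonneg _)
        _ ≤ n * (C.toReal * (t : ℝ) ^ (a + m)) := e2.trans e3
        _ = (t : ℝ) ^ (a + m) * (n * C.toReal) := by ring
    exact le_of_mul_le_mul_left e4 (pow_pos ht0 _)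
  by_contra hne
  have h3 : 0 < |chi S L n N X| := abs_pos.2 hne
  obtain ⟨t, ht⟩ := exists_nat_gt (n * C.toReal / |chi S L n N X|)
  have h4 := h2 (t + 1) (Nat.succ_pos t)
  rw [div_lt_iff₀ h3] at ht
  have h5 : (t : ℝ) * |chi S L n N X| ≤ ((t + 1 : ℕ) : ℝ) * |chi S L n N X| := by
    gcongr
    exact_mod_cast Nat.le_succ t
  linarith

end

end Vale.Agent.P177.SL
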