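import Vale.Agent.P177.SL.AnnX
import Vale.Agent.P177.SL.BaseKos
import Vale.Agent.P177.SL.Vanish
import Vale.Agent.P177.Nat.MassN
import Vale.Agent.P177.Full.FlatW

/-!
P177, block B7, concrete form, part A: the hypotheses `Nilp` and `BaseGrowth` for the modules
`WI J` over `S ⊗ W(C')`, `S` local with maximal ideal `(p, z_1, .., z_d)`.
-/

namespace Vale.Agent.P177.SL

open Vale.Agent.P202.Mix Function TensorProduct IsLocalRing Vale.Agent.P177.PI WittVector
open scoped ENNReal

universe u

section change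

/-- change of rings for Koszul homology along a ring homomorphism. -/
theorem len_KC_restrict {V D : Type u} [CommRing V] [CommRing D] (g : V →+* D) (L' : AddLen V)
    {M M' : Type u} [AddCommGroup M] [Module V M] [AddCommGroup M'] [Module D M'] (e : M ≃+ M')
    (h : ∀ (v : V) (m : M), e (v • m) = g v • e m) (xs : List V) (i : ℕ) :
    (L'.restrict g).len ((KG.KC (R := D) M' (xs.map g)).H i) =
      L'.len ((KG.KC (R := V) M xs).H i) := by
  let i1 : Algebra V D := g.toAlgebra
  let i2 : Module V M' := Module.compHom M' g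
  have i3 : IsScalarTower V D M' := IsScalarTower.of_algebraMap_smul fun _ _ => rfl
  let e' : M ≃ₗ[V] M' := { e with map_smul' := h }
  have h1 := KG.len_KC_change (D := D) (M := M') (KG.ALen.of L') xs i
  have h2 := MN.KC_len_congr (KG.ALen.of L') e' xs i
  exact h1.symm.trans h2.symm

end change

/-- the homomorphism `V → S ⊗ V`. -/
noncomputable abbrev inR (S : Type u) [CommRing S] (V : Type u) [CommRing V] : V →+* S ⊗[ℤ] V :=
  (Algebra.TensorProduct.includeRight : V →ₐ[ℤ] S ⊗[ℤ] V).toRingHom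

/-- lengths over `S ⊗ V` pulled back from `V`. -/
noncomputable abbrev lenR (S : Type u) [CommRing S] {V : Type u} [CommRing V] (L' : AddLen V) :
    AddLen (S ⊗[ℤ] V) :=
  L'.restrict (inR S V)

section W

variable {p : ℕ} [hp : Fact p.Prime] {C' : Type u} [CommRing C'] {S : Type u} [CommRing S]
  (ψ : S →+* WittVector p C')

theorem rhoS_inR (v : WittVector p C') :
    rhoS ψ (RingHom.id (WittVector p C')) (inR S (WittVector p C') v) = v := by
  have h2 : inR S (WittVector p C') v = (1 : S) ⊗ₜ v := rfl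
  rw [h2, rhoS_tmul, map_one, one_mul, RingHom.id_apply]

/-- the Koszul homology of `WI J` over `S ⊗ W(C')` and over `W(C')`. -/
theorem xs_KC (L' : AddLen (WittVector p C')) (J : Ideal C') (xs : List (WittVector p C'))
    (i : ℕ) :
    (lenR S L').len ((KG.KC (R := S ⊗[ℤ] WittVector p C') (XS p J ψ)
        (xs.map (inR S (WittVector p C')))).H i) =
      L'.len ((KG.KC (R := WittVector p C') (WI p J) xs).H i) := by
  refine len_KC_restrict _ L' (M := WI p J) (M' := XS p J ψ) (AddEquiv.refl _) ?_ xs i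
  intro v m
  have h1 := rhoS_inR (S := S) ψ v
  change v • m = rhoS ψ (RingHom.id (WittVector p C')) (inR S (WittVector p C') v) • m
  rw [h1]

variable {d : ℕ} {z : Fin d → S} {n : ℕ} (v : Fin n → C')

section

variable [IsLocalRing S] [IsNoetherianRing S]
  (hmax : maximalIdeal S = Ideal.span ({(p : S)} ∪ Set.range z))
include hmax

omit [IsNoetherianRing S] in
theorem xs_le_radical {I : Ideal S}
    (hp' : ∃ m : ℕ, (p : WittVector p C') ^ m ∈ I.map ψ)
    (hv : ∀ i, ∃ m : ℕ, teichmuller p (v i) ^ m ∈ I.map ψ)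
    (hr1 : ∀ l, ∃ m : ℕ, ψ (z l) ^ m ∈
      Ideal.ofList ((p : WittVector p C') :: List.ofFn fun i => teichmuller p (v i))) :
    (maximalIdeal S).map ψ ≤ (I.map ψ).radical := by
  have h0 : Ideal.ofList ((p : WittVector p C') :: List.ofFn fun i => teichmuller p (v i)) ≤
      (I.map ψ).radical := by
    refine Ideal.span_le.2 ?_
    intro x hx
    rcases List.mem_cons.1 hx with rfl | hx
    · exact hp'
    · obtain ⟨i, rfl⟩ := (List.mem_ofFn' _ _).1 hx
      exact hv i
  rw [Ideal.map_le_iff_le_comap, hmax, Ideal.span_le]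
  rintro s (hs | ⟨l, rfl⟩)
  · rw [Set.mem_singleton_iff] at hs
    subst hs
    change ψ (p : S) ∈ (I.map ψ).radical
    rw [map_natCast]
    exact hp'
  · change ψ (z l) ∈ (I.map ψ).radical
    obtain ⟨m, hm⟩ := hr1 l
    have h1 : ψ (z l) ∈ (I.map ψ).radical.radical := ⟨m, h0 hm⟩
    rwa [Ideal.radical_idem] at h1

/-- the condition `Nilp`. -/
theorem xs_nilp (J : Ideal C') {I : Ideal S}
    (hp' : ∃ m : ℕ, (p : WittVector p C') ^ m ∈ I.map ψ)
    (hv : ∀ i, ∃ m : ℕ, teichmuller p (v i) ^ m ∈ I.map ψ)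
    (hr1 : ∀ l, ∃ m : ℕ, ψ (z l) ^ m ∈
      Ideal.ofList ((p : WittVector p C') :: List.ofFn fun i => teichmuller p (v i))) :
    Nilp (S ⊗[ℤ] WittVector p C') I (XS p J ψ) :=
  nilp_of_le_radical p J ψ (xs_le_radical ψ v hmax hp' hv hr1)

end

theorem map_ofList_pz : (Ideal.ofList (pz (p : S) z 1)).map ψ =
    Ideal.span (Set.range fun l => ψ (z l)) ⊔ Ideal.span {(p : WittVector p C')} := by
  rw [Ideal.map_ofList, pz, List.map_cons, Ideal.ofList_cons, sup_comm, map_natCast]
  congr 1
  rw [Ideal.ofList]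
  congr 1
  ext x
  simp only [pow_one, List.map_ofFn, List.mem_ofFn, Function.comp_apply, Set.mem_ofPred_eq,
    Set.mem_range]

/-- `p` is regular on `WI J`. -/
theorem xs_p_regular [CharP C' p] [PerfectRing C' p] (J : Ideal C') (x : XS p J ψ)
    (hx : algebraMap S (S ⊗[ℤ] WittVector p C') (p : S) • x = 0) : x = 0 := by
  rw [map_natCast, xmod_smul, map_natCast] at hx
  have h1 : (p : WittVector p C') * ((show WI p J from x) : WittVector p C') = 0 :=
    congrArg (Subtype.val : WI p J → WittVector p C') hx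
  rw [mul_comm] at h1
  exact Subtype.ext (WittVector.eq_zero_of_p_mul_eq_zero _ h1)

/-- the powers of `1 ⊗ p`, `1 ⊗ [v_i]` lie in `(p, z) + ann`. -/
theorem xs_pow_mem (J : Ideal C') {I : Ideal S}
    (hp' : ∃ m : ℕ, (p : WittVector p C') ^ m ∈ I.map ψ)
    (hv : ∀ i, ∃ m : ℕ, teichmuller p (v i) ^ m ∈ I.map ψ) :
    ∀ y ∈ ((p : WittVector p C') :: List.ofFn fun i => teichmuller p (v i)).map
      (inR S (WittVector p C')), ∃ l : ℕ, y ^ l ∈
      I.map (algebraMap S (S ⊗[ℤ] WittVector p C')) ⊔
        Module.annihilator (S ⊗[ℤ] WittVector p C') (XS p J ψ) := by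
  have key : ∀ y ∈ ((p : WittVector p C') :: List.ofFn fun i => teichmuller p (v i)),
      y ∈ (I.map ψ).radical := by
    intro y hy
    rcases List.mem_cons.1 hy with rfl | hy
    · exact hp'
    · obtain ⟨i, rfl⟩ := (List.mem_ofFn' _ _).1 hy
      exact hv i
  intro y hy
  obtain ⟨w, hw, rfl⟩ := List.mem_map.1 hy
  exact exists_pow_one_tmul_mem p J ψ (key w hw)

/-- the growth of the Tor modules. -/
theorem xs_growth [CharP C' p] [PerfectRing C' p]
    (hreg : ∀ t, 1 ≤ t → RingTheory.Sequence.IsWeaklyRegular S (pz (p : S) z t))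
    (L' : AddLen (WittVector p C')) (J : Ideal C')
    (hmJ : ∀ i, L'.len ((KG.KC (R := WittVector p C') (WI p J)
      ((p : WittVector p C') :: List.ofFn fun i => teichmuller p (v i))).H i) ≠ ⊤)
    (hr2 : ∀ i, ∃ m : ℕ, teichmuller p (v i) ^ m ∈
      Ideal.span (Set.range fun l => ψ (z l)) ⊔ Ideal.span {(p : WittVector p C')}) :
    BaseGrowth (lenR S L') (p : S) z n (XS p J ψ) := by
  have hf : Module.Flat ℤ (WittVector p C') := Full.flat_int_witt p C'
  have h1 : ((List.ofFn fun i => teichmuller p (v i)).map (inR S (WittVector p C'))).length = n := by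
    rw [List.length_map, List.length_ofFn]
  have h2 := baseGrowth_of_kos (lenR S L') (XS p J ψ) (p : S) z hreg (xs_p_regular ψ J)
    ((List.ofFn fun i => teichmuller p (v i)).map (inR S (WittVector p C'))) ?_ ?_
  · rwa [h1] at h2
  · intro y hy
    refine xs_pow_mem ψ v J (I := Ideal.ofList (pz (p : S) z 1)) ⟨1, ?_⟩ (fun i => ?_) y ?_
    · rw [map_ofList_pz, pow_one]
      exact Ideal.mem_sup_right (Ideal.mem_span_singleton_self _)
    · rw [map_ofList_pz]
      exact hr2 i
    · rw [List.map_cons]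
      exact List.mem_cons_of_mem _ hy
  · intro i
    have h3 := hmJ i
    rw [← xs_KC (S := S) ψ L' J] at h3
    have h4 : algebraMap S (S ⊗[ℤ] WittVector p C') (p : S) = inR S (WittVector p C') (p : WittVector p C') := by
      rw [map_natCast, map_natCast]
    rw [h4, ← List.map_cons]
    exact h3

end W

end Vale.Agent.P177.SL
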