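import Vale.Agent.P202.Mix.LenBasic

/-!
Additive lengths: consequences of exactness.
-/

namespace Vale.Agent.P177.SL

open Vale.Agent.P202.Mix Function
open scoped ENNReal

universe u

variable {R : Type u} [CommRing R] (L : AddLen R) {M N K P : Type u} [AddCommGroup M] [Module R M]
  [AddCommGroup N] [Module R N] [AddCommGroup K] [Module R K] [AddCommGroup P] [Module R P]

theorem len_subsingleton [Subsingleton M] : L.len M = 0 := len_subsingleton_aux L

theorem len_ker_add_range (f : M →ₗ[R] N) :
    L.len M = L.len (LinearMap.ker f) + L.len (LinearMap.range f) := by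
  rw [len_sub_quot L (LinearMap.ker f), len_congr L f.quotKerEquivRange]

theorem len_le_of_injective (f : M →ₗ[R] N) (hf : Injective f) : L.len M ≤ L.len N := by
  rw [len_congr L (LinearEquiv.ofInjective f hf), len_sub_quot L (LinearMap.range f)]
  exact le_self_add

theorem len_le_of_surjective (f : M →ₗ[R] N) (hf : Surjective f) : L.len N ≤ L.len M := by
  rw [len_ker_add_range L f, ← len_congr L (LinearEquiv.ofTop _ (LinearMap.range_eq_top.2 hf))]
  exact le_add_self

theorem len_range_le (f : M →ₗ[R] N) : L.len (LinearMap.range f) ≤ L.len M := by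
  rw [len_ker_add_range L f]
  exact le_add_self

theorem len_range_le' (f : M →ₗ[R] N) : L.len (LinearMap.range f) ≤ L.len N :=
  len_le_of_injective L (LinearMap.range f).subtype Subtype.val_injective

theorem len_ker_le (f : M →ₗ[R] N) : L.len (LinearMap.ker f) ≤ L.len M := by
  rw [len_ker_add_range L f]
  exact le_self_add

theorem len_mono {X Y : Submodule R M} (h : X ≤ Y) : L.len X ≤ L.len Y :=
  len_le_of_injective L (Submodule.inclusion h) (Submodule.inclusion_injective h)

/-- exactness in the middle. -/
theorem len_le_of_exact (f : M →ₗ[R] N) (g : N →ₗ[R] K) (h : Exact f g) :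
    L.len N ≤ L.len M + L.len K := by
  rw [len_ker_add_range L g, h.linearMap_ker_eq]
  exact add_le_add (len_range_le L f) (len_range_le' L g)

/-- a more precise form of exactness in the middle. -/
theorem len_eq_of_exact (f : M →ₗ[R] N) (g : N →ₗ[R] K) (h : Exact f g) :
    L.len N = L.len (LinearMap.range f) + L.len (LinearMap.range g) := by
  rw [len_ker_add_range L g, h.linearMap_ker_eq]

/-- if `φ ^ m = 0` on `T` then the length of `T` is at most `m` times the length of `T / φ T`. -/
theorem len_le_of_pow_eq_zero (m : ℕ) : ∀ (T : Type u) [AddCommGroup T] [Module R T]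
    (φ : T →ₗ[R] T), (∀ x : T, (φ ^ m) x = 0) → L.len T ≤ m * L.len (T ⧸ LinearMap.range φ) := by
  induction m with
  | zero =>
    intro T _ _ φ h
    have : Subsingleton T := subsingleton_of_forall_eq 0 fun x => by simpa using h x
    rw [len_subsingleton L]
    simp
  | succ m ih =>
    intro T _ _ φ h
    let Y := LinearMap.range φ
    have hst : ∀ x ∈ Y, φ x ∈ Y := fun x _ => ⟨x, rfl⟩
    let ψ : Y →ₗ[R] Y := φ.restrict hst
    have hψ : ∀ n (x : Y), ((ψ ^ n) x : T) = (φ ^ n) x := by
      intro n
      induction n with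
      | zero => intro x; rfl
      | succ n ihn =>
        intro x
        rw [pow_succ', pow_succ', Module.End.mul_apply, Module.End.mul_apply, ← ihn]
        rfl
    have hY : ∀ x : Y, (ψ ^ m) x = 0 := by
      rintro ⟨x, y, rfl⟩
      apply Subtype.ext
      rw [hψ]
      change (φ ^ m) (φ y) = 0
      rw [← Module.End.mul_apply, ← pow_succ, h]
    have h1 := ih Y ψ hY
    have h2 : L.len (Y ⧸ LinearMap.range ψ) ≤ L.len (T ⧸ Y) := by
      refine len_le_of_surjective L (Submodule.mapQ Y (LinearMap.range ψ)
        (LinearMap.codRestrict Y φ fun x => ⟨x, rfl⟩) ?_) ?_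
      · rintro _ ⟨y, rfl⟩
        rw [Submodule.mem_comap]
        exact ⟨⟨φ y, y, rfl⟩, rfl⟩
      · intro z
        obtain ⟨⟨_, y, rfl⟩, rfl⟩ := Submodule.Quotient.mk_surjective _ z
        exact ⟨Submodule.Quotient.mk y, rfl⟩
    calc L.len T = L.len Y + L.len (T ⧸ Y) := len_sub_quot L Y
      _ ≤ m * L.len (T ⧸ Y) + L.len (T ⧸ Y) := by
        refine add_le_add (h1.trans ?_) le_rfl
        exact mul_le_mul_right h2 _
      _ = ((m + 1 : ℕ) : ℝ≥0∞) * L.len (T ⧸ Y) := by
        rw [Nat.cast_add, Nat.cast_one, add_mul, one_mul]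

end Vale.Agent.P177.SL
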