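import Vale.Agent.P177.Perf.KLes

/-!
P177, block INDJ (C): growth of Koszul homology of a module killed by one more element.
-/

namespace Vale.Agent.P177.KG

open scoped ENNReal

universe u

variable {R : Type u} [CommRing R] (L : ALen R) (M : Type u) [AddCommGroup M] [Module R M]

/-- elements killing `M` kill the Koszul complexes. -/
theorem KC_X_kill {x : R} (hx : ∀ m : M, x • m = 0) (xs : List R) :
    ∀ (i : ℕ) (a : (KC M xs).X i), x • a = 0 := by
  intro i a
  have h0 : ∀ m, (0 : M →ₗ[R] M) m = x • m := fun m => (hx m).symm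
  have h1 : ∀ m, (0 : M →ₗ[R] M) m = (0 : R) • m := fun m => (zero_smul R m).symm
  rw [← KCmap_smul x 0 h0 xs i a, KCmap_smul 0 0 h1 xs i a, zero_smul]

theorem KC_H_kill {x : R} (hx : ∀ m : M, x • m = 0) (xs : List R) (i : ℕ)
    (z : (KC M xs).H i) : x • z = 0 := by
  obtain ⟨a, ha, rfl⟩ := (KC M xs).cl_surj i z
  rw [← map_smul]
  have : x • (⟨a, ha⟩ : (KC M xs).Z i) = 0 := Subtype.ext (KC_X_kill M hx xs i a)
  rw [this, map_zero]

/-- dropping an element which kills `M`. -/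
theorem KC_len_drop {x : R} (hx : ∀ m : M, x • m = 0) (xs : List R) (i : ℕ) :
    L.len ((KC M xs).H i) ≤ L.len ((KC M (x :: xs)).H (i + 1)) :=
  len_le_of_surj L ((kfam M).b x xs i) fun z => (kfam M).tor x xs i z (KC_H_kill M hx xs i z)

/-- **INDJ, growth**: `x` kills `M`, the homology of `tu` is finite, `tu ⊆ rad (x, ys)`,
`ys ⊆ rad (cs)`: the homology of `cs ^ t` grows at most as `(t + 1) ^ |ys|`. -/
theorem KC_growth_drop {x : R} (hx : ∀ m : M, x • m = 0) {tu ys cs : List R}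
    (hfin : ∀ q, L.len ((KC M tu).H q) ≠ ⊤) {l l' : ℕ}
    (h1 : ∀ y ∈ tu, y ^ l ∈ Ideal.ofList (x :: ys)) (h2 : ∀ y ∈ ys, y ^ l' ∈ Ideal.ofList cs) :
    ∃ c : ℝ≥0∞, c ≠ ⊤ ∧ ∀ t i : ℕ, L.len ((KC M (cs.map (· ^ t))).H i) ≤
      c * ((t + 1 : ℕ) : ℝ≥0∞) ^ ys.length := by
  -- finiteness for `x :: ys`
  have h3 : ∀ q, L.len ((KC M (x :: ys)).H q) ≠ ⊤ := by
    intro q
    have h4 := KC_growth3' L M h1 1 q
    rw [List.map_congr_left (g := id) (fun a _ => pow_one a), List.map_id] at h4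
    refine ne_top_of_le_ne_top ?_ h4
    refine ENNReal.mul_ne_top (ENNReal.pow_ne_top (ENNReal.natCast_ne_top _)) ?_
    exact ENNReal.sum_ne_top.2 fun jq _ =>
      ENNReal.mul_ne_top (ENNReal.natCast_ne_top _) (hfin _)
  have h5 : ∀ q, L.len ((KC M ys).H q) ≠ ⊤ := fun q =>
    ne_top_of_le_ne_top (h3 (q + 1)) (KC_len_drop L M hx ys q)
  set B : ℝ≥0∞ := ∑ q ∈ Finset.range (ys.length + 1), L.len ((KC M ys).H q) with hB
  have hB1 : B ≠ ⊤ := ENNReal.sum_ne_top.2 fun q _ => h5 q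
  have hB2 : ∀ q, L.len ((KC M ys).H q) ≤ B := by
    intro q
    by_cases hq : q < ys.length + 1
    · exact Finset.single_le_sum (f := fun q => L.len ((KC M ys).H q)) (fun _ _ => zero_le)
        (Finset.mem_range.2 hq)
    · rw [KC_len_eq_zero L M ys (by omega)]
      exact zero_le
  refine ⟨((l' * (cs.length + 1)) ^ ys.length * 2 ^ cs.length : ℕ) * B,
    ENNReal.mul_ne_top (ENNReal.natCast_ne_top _) hB1, fun t i => ?_⟩
  exact KC_growth3_const L M h2 hB2 t i

/-- the growth of the homology passes to a module `N` with a map `N → M` whose kernel has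
homology of length zero. -/
theorem KC_len_le_of_null {N K : Type u} [AddCommGroup N] [Module R N] [AddCommGroup K]
    [Module R K] {f : K →ₗ[R] N} {g : N →ₗ[R] M} (hf : Function.Injective f)
    (hg : Function.Surjective g) (hfg : Function.Exact f g) (xs : List R)
    (h0 : ∀ i, L.len ((KC K xs).H i) = 0) (i : ℕ) :
    L.len ((KC N xs).H i) ≤ L.len ((KC M xs).H i) := by
  have h := KC_len_mid L hf hg hfg xs i
  rwa [h0, zero_add] at h

theorem KC_len_quot_le_of_null {N K : Type u} [AddCommGroup N] [Module R N] [AddCommGroup K]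
    [Module R K] {f : K →ₗ[R] N} {g : N →ₗ[R] M} (hf : Function.Injective f)
    (hg : Function.Surjective g) (hfg : Function.Exact f g) (xs : List R)
    (h0 : ∀ i, L.len ((KC K xs).H i) = 0) (i : ℕ) :
    L.len ((KC M xs).H i) ≤ L.len ((KC N xs).H i) := by
  cases i with
  | zero => exact KC_len_right_zero L hf hg hfg xs
  | succ i =>
    have h := KC_len_right L hf hg hfg xs i
    rwa [h0, add_zero] at h

/-- **INDJ, growth up to null modules**: `h x` kills `M`, and modules killed by `h` have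
length zero. -/
theorem KC_growth_drop_null {h x : R}
    (hnull : ∀ (K : Type u) [AddCommGroup K] [Module R K], (∀ z : K, h • z = 0) → L.len K = 0)
    (hx : ∀ m : M, (h * x) • m = 0) {tu ys cs : List R}
    (hfin : ∀ q, L.len ((KC M tu).H q) ≠ ⊤) {l l' : ℕ}
    (h1 : ∀ y ∈ tu, y ^ l ∈ Ideal.ofList (x :: ys)) (h2 : ∀ y ∈ ys, y ^ l' ∈ Ideal.ofList cs) :
    ∃ c : ℝ≥0∞, c ≠ ⊤ ∧ ∀ t i : ℕ, L.len ((KC M (cs.map (· ^ t))).H i) ≤
      c * ((t + 1 : ℕ) : ℝ≥0∞) ^ ys.length := by
  let K : Submodule R M := LinearMap.range (LinearMap.lsmul R M x)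
  have hK : ∀ z : K, h • z = 0 := by
    rintro ⟨_, ⟨m, rfl⟩⟩
    refine Subtype.ext ?_
    show h • (x • m) = 0
    rw [smul_smul]
    exact hx m
  have hn : ∀ (xs : List R) (i : ℕ), L.len ((KC K xs).H i) = 0 := fun xs i =>
    hnull _ fun z => KC_H_kill K hK xs i z
  have hQ : ∀ m : M ⧸ K, x • m = 0 := by
    intro m
    obtain ⟨m, rfl⟩ := K.mkQ_surjective m
    rw [← map_smul, Submodule.mkQ_apply, Submodule.Quotient.mk_eq_zero]
    exact ⟨m, rfl⟩
  have hex : Function.Exact K.subtype K.mkQ := by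
    rw [LinearMap.exact_iff, Submodule.ker_mkQ, Submodule.range_subtype]
  obtain ⟨c, hc, hb⟩ := KC_growth_drop L (M ⧸ K) hQ (tu := tu) (ys := ys) (cs := cs)
    (fun q => ne_top_of_le_ne_top (hfin q) (KC_len_quot_le_of_null L (M ⧸ K)
      K.injective_subtype K.mkQ_surjective hex tu (hn tu) q)) h1 h2
  exact ⟨c, hc, fun t i => (KC_len_le_of_null L (M ⧸ K) K.injective_subtype K.mkQ_surjective hex
    _ (hn _) i).trans (hb t i)⟩

end Vale.Agent.P177.KG
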