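import Vale.Agent.P177.SL.Tau

/-!
Additivity of the Tor maps.
-/

namespace Vale.Agent.P177.SL

open CategoryTheory MonoidalCategory Limits TensorProduct Function

universe u

variable {R : Type u} [CommRing R]

theorem tensorComplex_map_add (K : ChainComplex (ModuleCat.{u} R) ℕ) {M M' : ModuleCat.{u} R}
    (f g : M ⟶ M') : (tensorComplex R K).map (f + g) =
      (tensorComplex R K).map f + (tensorComplex R K).map g := by
  ext i : 1
  rw [HomologicalComplex.add_f_apply, tensorComplex_map_f, tensorComplex_map_f,
    tensorComplex_map_f]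
  exact MonoidalPreadditive.add_whiskerRight f g

variable {M M' N : Type u} [AddCommGroup M] [Module R M] [AddCommGroup M'] [Module R M']
  [AddCommGroup N] [Module R N]

theorem torMap_add (n : ℕ) (f g : M →ₗ[R] M') :
    torMap n (f + g) N = torMap n f N + torMap n g N := by
  let P := projectiveResolution (ModuleCat.of R N)
  have h : ∀ f : M →ₗ[R] M', ((Tor (ModuleCat.{u} R) n).map (ModuleCat.ofHom f)).app
      (ModuleCat.of R N) = (torIso R n (ModuleCat.of R M) P).hom ≫
        HomologicalComplex.homologyMap ((tensorComplex R P.complex).map (ModuleCat.ofHom f)) n ≫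
          (torIso R n (ModuleCat.of R M') P).inv := by
    intro f
    rw [← Category.assoc, ← torIso_naturality, Category.assoc, Iso.hom_inv_id, Category.comp_id]
  have h2 : ((Tor (ModuleCat.{u} R) n).map (ModuleCat.ofHom (f + g))).app (ModuleCat.of R N) =
      ((Tor (ModuleCat.{u} R) n).map (ModuleCat.ofHom f)).app (ModuleCat.of R N) +
      ((Tor (ModuleCat.{u} R) n).map (ModuleCat.ofHom g)).app (ModuleCat.of R N) := by
    rw [h, h, h, ModuleCat.ofHom_add, tensorComplex_map_add, HomologicalComplex.homologyMap_add,
      Preadditive.add_comp, Preadditive.comp_add]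
  change (((Tor (ModuleCat.{u} R) n).map (ModuleCat.ofHom (f + g))).app _).hom = _
  rw [h2]
  rfl

theorem torMap_zero_map (n : ℕ) : torMap n (0 : M →ₗ[R] M') N = 0 := by
  have := torMap_add (N := N) n (0 : M →ₗ[R] M') 0
  rw [add_zero] at this
  exact left_eq_add.mp this

section

variable {S D : Type u} [CommRing S] [CommRing D] [Algebra S D]
  {N N' : Type u} [AddCommGroup N] [Module S N] [AddCommGroup N'] [Module S N']
  {X : Type u} [AddCommGroup X] [Module D X]

theorem ttMap_add (i : ℕ) (f g : N →ₗ[S] N') :
    ttMap D X i (f + g) = ttMap D X i f + ttMap D X i g := by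
  rw [ttMap, LinearMap.baseChange_add, torMap_add]
  rfl

theorem ttMap_zero (i : ℕ) : ttMap D X i (0 : N →ₗ[S] N') = 0 := by
  rw [ttMap, LinearMap.baseChange_zero, torMap_zero_map]

end

end Vale.Agent.P177.SL
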