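import Vale.Agent.P177.SL.Tau
import Vale.Agent.P177.TorComplete

/-!
The Euler characteristic for an additive length.
-/

namespace Vale.Agent.P177.SL

open Vale.Agent.P202.Mix Function TensorProduct
open scoped ENNReal

universe u

/-- the truncated Euler characteristic of the Tor modules. -/
noncomputable def chi (S : Type u) {D : Type u} [CommRing S] [CommRing D] [Algebra S D]
    (L : AddLen D) (n : ℕ) (N : Type u) [AddCommGroup N] [Module S N]
    (X : Type u) [AddCommGroup X] [Module D X] : ℝ :=
  ∑ i ∈ Finset.range n, (-1 : ℝ) ^ i * (tau S L i N X).toReal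

variable {S D : Type u} [CommRing S] [CommRing D] [Algebra S D] (L : AddLen D)
  {N N' N'' K : Type u} [AddCommGroup N] [Module S N] [AddCommGroup N'] [Module S N']
  [AddCommGroup N''] [Module S N''] [AddCommGroup K] [Module S K]
  {X X' X'' : Type u} [AddCommGroup X] [Module D X] [AddCommGroup X'] [Module D X']
  [AddCommGroup X''] [Module D X'']

theorem chi_congr (n : ℕ) (e : N ≃ₗ[S] N') : chi S L n N X = chi S L n N' X :=
  Finset.sum_congr rfl fun i _ => by rw [tau_congr L i e]

theorem chi_congr_right (n : ℕ) (e : X ≃ₗ[D] X') : chi S L n N X = chi S L n N X' :=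
  Finset.sum_congr rfl fun i _ => by rw [tau_congr_right L i e]

theorem chi_subsingleton (n : ℕ) [Subsingleton N] : chi S L n N X = 0 :=
  Finset.sum_eq_zero fun i _ => by rw [tau_subsingleton L i]; simp

theorem chi_add [Module.Flat S D] (f : N' →ₗ[S] N) (g : N →ₗ[S] N'') (hf : Injective f)
    (hg : Surjective g) (h : Exact f g) (h1 : ∀ i, tau S L i N' X ≠ ⊤)
    (h2 : ∀ i, tau S L i N X ≠ ⊤) (n : ℕ) (hn : tau S L n N'' X = 0) :
    chi S L n N X = chi S L n N' X + chi S L n N'' X := by
  obtain ⟨δ, k1, k2, k3⟩ := exists_ttDelta (D := D) f g hf hg h X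
  let a : ℕ → ℝ≥0∞ := fun i => L.len (LinearMap.range (δ i))
  let b : ℕ → ℝ≥0∞ := fun i => L.len (LinearMap.range (ttMap D X i f))
  let c : ℕ → ℝ≥0∞ := fun i => L.len (LinearMap.range (ttMap D X i g))
  have l1 : ∀ i, tau S L i N' X = a i + b i := fun i => len_eq_of_exact L _ _ (k2 i)
  have l2 : ∀ i, tau S L i N X = b i + c i := fun i => len_eq_of_exact L _ _ (k3 i)
  have l3 : ∀ i, tau S L (i + 1) N'' X = c (i + 1) + a i := fun i => len_eq_of_exact L _ _ (k1 i)
  have l4 : tau S L 0 N'' X = c 0 := by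
    have hs : Surjective (ttMap D X 0 g) := torMap_zero_surjective _
      (baseChange_ses (B := D) f g hf hg h).2.1 X
    exact len_congr L (LinearEquiv.ofTop _ (LinearMap.range_eq_top.2 hs)).symm
  have f1 : ∀ i, a i ≠ ⊤ := fun i hi => h1 i (by rw [l1, hi, top_add])
  have f2 : ∀ i, b i ≠ ⊤ := fun i hi => h1 i (by rw [l1, hi, add_top])
  have f3 : ∀ i, c i ≠ ⊤ := fun i hi => h2 i (by rw [l2, hi, add_top])
  have m1 : ∀ i, (tau S L i N' X).toReal = (a i).toReal + (b i).toReal := fun i => by
    rw [l1, ENNReal.toReal_add (f1 i) (f2 i)]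
  have m2 : ∀ i, (tau S L i N X).toReal = (b i).toReal + (c i).toReal := fun i => by
    rw [l2, ENNReal.toReal_add (f2 i) (f3 i)]
  have m3 : ∀ i, (tau S L (i + 1) N'' X).toReal = (c (i + 1)).toReal + (a i).toReal := fun i => by
    rw [l3, ENNReal.toReal_add (f3 _) (f1 i)]
  have key : ∀ n, chi S L (n + 1) N' X + chi S L (n + 1) N'' X - chi S L (n + 1) N X =
      (-1) ^ n * (a n).toReal := by
    intro n
    unfold chi
    induction n with
    | zero =>
      simp only [zero_add, Finset.sum_range_one, pow_zero, one_mul]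
      rw [m1, m2, l4]
      ring
    | succ n ih =>
      rw [Finset.sum_range_succ, Finset.sum_range_succ _ (n + 1), Finset.sum_range_succ _ (n + 1)]
      rw [m1, m2, m3, pow_succ]
      linear_combination ih
  cases n with
  | zero => simp [chi]
  | succ n =>
    have h5 : a n = 0 := by
      have h6 := l3 n
      rw [hn] at h6
      exact (add_eq_zero.1 h6.symm).2
    have h7 := key n
    rw [h5, ENNReal.toReal_zero, mul_zero] at h7
    linarith

/-- the Euler characteristic is at most the sum of the lengths. -/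
theorem abs_chi_le (n : ℕ) : |chi S L n N X| ≤ ∑ i ∈ Finset.range n, (tau S L i N X).toReal := by
  refine (Finset.abs_sum_le_sum_abs _ _).trans (Finset.sum_le_sum fun i _ => ?_)
  rw [abs_mul, abs_pow, abs_neg, abs_one, one_pow, one_mul, abs_of_nonneg ENNReal.toReal_nonneg]

theorem le_chi (n : ℕ) : (tau S L 0 N X).toReal -
    ∑ i ∈ Finset.range n, (tau S L (i + 1) N X).toReal ≤ chi S L (n + 1) N X := by
  unfold chi
  rw [Finset.sum_range_succ']
  have h1 : - ∑ i ∈ Finset.range n, (tau S L (i + 1) N X).toReal ≤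
      ∑ i ∈ Finset.range n, (-1 : ℝ) ^ (i + 1) * (tau S L (i + 1) N X).toReal := by
    rw [← Finset.sum_neg_distrib]
    refine Finset.sum_le_sum fun i _ => ?_
    rw [← neg_one_mul]
    refine mul_le_mul_of_nonneg_right ?_ ENNReal.toReal_nonneg
    rcases neg_one_pow_eq_or ℝ (i + 1) with h | h <;> rw [h] <;> norm_num
  simp only [pow_zero, one_mul]
  linarith

end Vale.Agent.P177.SL
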