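import Vale.Agent.P177.SL.Len

/-!
Killing the `η`-torsion: for an additive length `L` and an element `η`, the function
`M ↦ inf_c L (η ^ c M)` is an additive length, on all modules.
-/

namespace Vale.Agent.P177.SL

open Vale.Agent.P202.Mix Function
open scoped ENNReal

universe u

variable {R : Type u} [CommRing R] (L : AddLen R) {M N K : Type u} [AddCommGroup M] [Module R M]
  [AddCommGroup N] [Module R N] [AddCommGroup K] [Module R K]

/-- the submodule `η M`. -/
def etaSub (η : R) (M : Type u) [AddCommGroup M] [Module R M] : Submodule R M :=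
  LinearMap.range (LinearMap.lsmul R M η)

theorem mem_etaSub (η : R) (x : M) : x ∈ etaSub η M ↔ ∃ y, η • y = x := Iff.rfl

theorem etaSub_anti (η : R) {a b : ℕ} (h : a ≤ b) : etaSub (η ^ b) M ≤ etaSub (η ^ a) M := by
  rintro _ ⟨y, rfl⟩
  refine ⟨η ^ (b - a) • y, ?_⟩
  change η ^ a • η ^ (b - a) • y = η ^ b • y
  rw [smul_smul, ← pow_add, Nat.add_sub_cancel' h]

theorem etaSub_map (η : R) (g : N →ₗ[R] K) (hg : Surjective g) :
    (etaSub η N).map g = etaSub η K := by
  apply le_antisymm
  · rintro _ ⟨_, ⟨y, rfl⟩, rfl⟩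
    exact ⟨g y, (map_smul g η y).symm⟩
  · rintro _ ⟨y, rfl⟩
    obtain ⟨x, rfl⟩ := hg y
    exact ⟨η • x, ⟨x, rfl⟩, map_smul g η x⟩

/-- length of a submodule through a map. -/
theorem len_eq_inf_add_map (P : Submodule R N) (g : N →ₗ[R] K) :
    L.len P = L.len (P ⊓ LinearMap.ker g : Submodule R N) + L.len (P.map g) := by
  rw [len_ker_add_range L (g.domRestrict P)]
  congr 1
  · refine len_congr L (LinearEquiv.ofInjective (P.subtype ∘ₗ (LinearMap.ker
      (g.domRestrict P)).subtype) (P.injective_subtype.comp (Submodule.injective_subtype _)) ≪≫ₗ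
      LinearEquiv.ofEq _ _ ?_)
    ext x
    constructor
    · rintro ⟨⟨y, hy⟩, rfl⟩
      exact ⟨y.2, hy⟩
    · rintro ⟨h1, h2⟩
      exact ⟨⟨⟨x, h1⟩, h2⟩, rfl⟩
  · refine len_congr L (LinearEquiv.ofEq _ _ ?_)
    rw [LinearMap.range_domRestrict]

/-- the lower bound at the level of submodules. -/
theorem eta_ge (η : R) (f : M →ₗ[R] N) (g : N →ₗ[R] K) (hf : Injective f) (hg : Surjective g)
    (h : Exact f g) : L.len (etaSub η M) + L.len (etaSub η K) ≤ L.len (etaSub η N) := by
  rw [len_eq_inf_add_map L (etaSub η N) g, etaSub_map η g hg]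
  refine add_le_add ?_ le_rfl
  rw [len_congr L (Submodule.equivMapOfInjective f hf (etaSub η M))]
  refine len_mono L ?_
  rintro _ ⟨_, ⟨y, rfl⟩, rfl⟩
  exact ⟨⟨f y, (map_smul f η y).symm⟩, h.apply_apply_eq_zero _⟩

/-- the upper bound at the level of submodules. -/
theorem eta_le (η : R) (a b : ℕ) (f : M →ₗ[R] N) (g : N →ₗ[R] K) (hf : Injective f)
    (hg : Surjective g) (h : Exact f g) :
    L.len (etaSub (η ^ (a + b)) N) ≤ L.len (etaSub (η ^ a) M) + L.len (etaSub (η ^ b) K) := by
  -- `B' = η ^ b N`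
  let B := etaSub (η ^ b) N
  let φ : N →ₗ[R] N := LinearMap.lsmul R N (η ^ a)
  have h1 : etaSub (η ^ (a + b)) N = B.map φ := by
    apply le_antisymm
    · rintro _ ⟨y, rfl⟩
      refine ⟨η ^ b • y, ⟨y, rfl⟩, ?_⟩
      change η ^ a • η ^ b • y = η ^ (a + b) • y
      rw [smul_smul, ← pow_add]
    · rintro _ ⟨_, ⟨y, rfl⟩, rfl⟩
      refine ⟨y, ?_⟩
      change η ^ (a + b) • y = η ^ a • η ^ b • y
      rw [smul_smul, ← pow_add]
  -- the part in the kernel of `g`
  let K' : Submodule R N := B ⊓ LinearMap.ker g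
  have h2 : L.len (B.map φ) ≤ L.len (K'.map φ) + L.len (B.map g) := by
    have e1 := len_eq_inf_add_map L B φ
    have e2 := len_eq_inf_add_map L K' φ
    have e3 := len_eq_inf_add_map L B g
    -- `B ⊓ ker φ` contains `K' ⊓ ker φ`; use the quotient of `B` by `K' ⊓ ker φ`
    let Z : Submodule R N := K' ⊓ LinearMap.ker φ
    have hZB : Z ≤ B := inf_le_left.trans inf_le_left
    have hZK : Z ≤ K' := inf_le_left
    have q1 : L.rl Z B = L.rl Z K' + L.rl K' B := rl_add L hZK inf_le_left
    have q2 : L.rl Z K' = L.len (K'.map φ) := by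
      have := rl_map L φ ⊥ K'
      rw [Submodule.map_bot, rl_bot, bot_sup_eq] at this
      rw [this, ← rl_inf_left L (LinearMap.ker φ) K', inf_comm]
    have q3 : L.rl K' B = L.len (B.map g) := by
      have := rl_map L g ⊥ B
      rw [Submodule.map_bot, rl_bot, bot_sup_eq] at this
      rw [this, ← rl_inf_left L (LinearMap.ker g) B, inf_comm]
    have q4 : L.len (B.map φ) ≤ L.rl Z B := by
      have := rl_map L φ ⊥ B
      rw [Submodule.map_bot, rl_bot, bot_sup_eq] at this
      rw [this]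
      exact rl_anti_left L inf_le_right
    rw [q1, q2, q3] at q4
    exact q4
  rw [h1]
  refine h2.trans (add_le_add ?_ ?_)
  · rw [len_congr L (Submodule.equivMapOfInjective f hf (etaSub (η ^ a) M))]
    refine len_mono L ?_
    rintro _ ⟨x, ⟨-, hx⟩, rfl⟩
    obtain ⟨m, rfl⟩ := (h x).1 hx
    exact ⟨η ^ a • m, ⟨m, rfl⟩, map_smul f _ _⟩
  · rw [etaSub_map (η ^ b) g hg]

/-- the additive length `M ↦ inf_c L (η ^ c M)`. -/
noncomputable def etaLen (η : R) : AddLen R where
  len M _ _ := ⨅ c : ℕ, L.len (etaSub (η ^ c) M)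
  zero := by
    refine le_antisymm (iInf_le_of_le 0 ?_) bot_le
    rw [len_subsingleton L]
  add {M N K} _ _ _ _ _ _ f g hf hg h := by
    apply le_antisymm
    · refine ENNReal.le_iInf_add_iInf fun a b => ?_
      exact (iInf_le _ (a + b)).trans (eta_le L η a b f g hf hg h)
    · refine le_iInf fun c => ?_
      refine le_trans ?_ (eta_ge L (η ^ c) f g hf hg h)
      exact add_le_add (iInf_le _ c) (iInf_le _ c)

theorem etaLen_le (η : R) (M : Type u) [AddCommGroup M] [Module R M] :
    (etaLen L η).len M ≤ L.len M :=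
  (iInf_le _ 0).trans (len_le_of_injective L (Submodule.subtype _) (Submodule.injective_subtype _))

theorem etaLen_le_pow (η : R) (c : ℕ) (M : Type u) [AddCommGroup M] [Module R M] :
    (etaLen L η).len M ≤ L.len (etaSub (η ^ c) M) := iInf_le _ c

/-- the new length vanishes on `η`-torsion. -/
theorem etaLen_eq_zero (η : R) (c : ℕ) (M : Type u) [AddCommGroup M] [Module R M]
    (h : ∀ x : M, η ^ c • x = 0) : (etaLen L η).len M = 0 := by
  refine le_antisymm ((etaLen_le_pow L η c M).trans ?_) bot_le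
  have : Subsingleton (etaSub (η ^ c) M) := by
    refine subsingleton_of_forall_eq 0 ?_
    rintro ⟨_, y, rfl⟩
    exact Subtype.ext (h y)
  rw [len_subsingleton L]

end Vale.Agent.P177.SL
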