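import Vale.Agent.P177.SL.JInd
import Vale.Agent.P177.SL.TorKos

/-!
P177, block B7, piece L9 with the hypothesis of `Nat/Cut.lean`: if `(t, x)^L ≤ (y) + J`, then the
Koszul homology of `W(C) / W(J)` for `p, [y_1], .., [y_r]` has finite length.
-/

namespace Vale.Agent.P177.SL

open Vale.Agent.P202.Mix Function TensorProduct IsLocalRing
open scoped ENNReal

universe u

section gen

variable {D : Type u} [CommRing D] (L : AddLen D) (X : Type u) [AddCommGroup X] [Module D X]

/-- finiteness of the Koszul homology passes to a list `cs` such that the elements of `big` have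
powers in `(cs) + ann X`. -/
theorem KC_ne_top_of_pow_ann {big cs : List D}
    (h : ∀ b ∈ big, ∃ l : ℕ, b ^ l ∈ Ideal.ofList cs ⊔ Module.annihilator D X)
    (hfin : ∀ q, L.len ((KG.KC X big).H q) ≠ ⊤) (q : ℕ) : L.len ((KG.KC X cs).H q) ≠ ⊤ := by
  obtain ⟨l, hl⟩ := exists_uniform_pow _ big h
  have h0 : ∀ y ∈ big.map (· ^ l), y ∈ Ideal.ofList cs ⊔ Module.annihilator D X := by
    intro y hy
    obtain ⟨b, hb, rfl⟩ := List.mem_map.1 hy
    exact hl b hb
  have h1 := KG.KC_growth1_ann X (toALen L) h0 q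
  refine ne_top_of_le_ne_top ?_ h1
  rw [KG.KFam.bsum]
  refine ENNReal.sum_ne_top.2 fun jq _ =>
    ENNReal.mul_ne_top (ENNReal.natCast_ne_top _) ?_
  refine ne_top_of_le_ne_top ?_ (KG.KC_growth2 (toALen L) X big l jq.2)
  exact ENNReal.mul_ne_top (ENNReal.pow_ne_top (ENNReal.natCast_ne_top _)) (hfin jq.2)

end gen

section W

variable (p : ℕ) [Fact p.Prime] {C : Type u} [CommRing C] [CharP C p] [PerfectRing C p]

open WittVector

omit [CharP C p] [PerfectRing C p] in
theorem te_mem_annihilator {J : Ideal C} {c : C} (hc : c ∈ J) :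
    teichmuller p c ∈ Module.annihilator (WittVector p C) (WittVector p C ⧸ PI.WI p J) := by
  rw [Ideal.annihilator_quotient]
  exact PI.te_mem_WI p hc

theorem te_pow_mem_of_cut {a d : ℕ} (v : Fin a → C) (y : Fin d → C) (J : Ideal C) (l : ℕ)
    (hv : Ideal.span (Set.range v) ^ l ≤ Ideal.span (Set.range y) ⊔ J) (i : Fin a) :
    teichmuller p (v i) ^ l ∈ Ideal.ofList ((p : WittVector p C) ::
      List.ofFn fun i => teichmuller p (y i)) ⊔
        Module.annihilator (WittVector p C) (WittVector p C ⧸ PI.WI p J) := by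
  have h1 : v i ^ l ∈ Ideal.span (Set.range y ∪ (J : Set C)) := by
    rw [Ideal.span_union, Ideal.span_eq]
    exact hv (Ideal.pow_mem_pow (Ideal.subset_span (Set.mem_range_self i)) l)
  rw [← map_pow]
  refine te_mem_of_mem_span p (le_sup_left (a := Ideal.ofList ((p : WittVector p C) ::
    List.ofFn fun i => teichmuller p (y i))) (Ideal.subset_span (by simp))) ?_ h1
  rintro c (⟨j, rfl⟩ | hc)
  · exact le_sup_left (a := Ideal.ofList ((p : WittVector p C) ::
      List.ofFn fun i => teichmuller p (y i))) (Ideal.subset_span (by simp))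
  · exact le_sup_right (a := Ideal.ofList ((p : WittVector p C) ::
      List.ofFn fun i => teichmuller p (y i))) (te_mem_annihilator p hc)

/-- **L9**: the list `p, [y]` of length one less has finite Koszul homology on `W(C) / W(J)`. -/
theorem ne_top_of_cut {a d : ℕ} (v : Fin a → C) (y : Fin d → C) (J : Ideal C) (l : ℕ)
    (hv : Ideal.span (Set.range v) ^ l ≤ Ideal.span (Set.range y) ⊔ J)
    (L : AddLen (WittVector p C))
    (hfin : ∀ q, L.len ((KG.KC (WittVector p C ⧸ PI.WI p J)
      ((p : WittVector p C) :: List.ofFn fun i => teichmuller p (v i))).H q) ≠ ⊤) (q : ℕ) :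
    L.len ((KG.KC (WittVector p C ⧸ PI.WI p J)
      ((p : WittVector p C) :: List.ofFn fun i => teichmuller p (y i))).H q) ≠ ⊤ := by
  refine KC_ne_top_of_pow_ann L _ ?_ hfin q
  intro b hb
  rcases List.mem_cons.1 hb with rfl | hb
  · exact ⟨1, by
      rw [pow_one]
      exact le_sup_left (a := Ideal.ofList ((p : WittVector p C) ::
        List.ofFn fun i => teichmuller p (y i))) (Ideal.subset_span (by simp))⟩
  · obtain ⟨i, rfl⟩ := (List.mem_ofFn' _ _).1 hb
    exact ⟨l, te_pow_mem_of_cut p v y J l hv i⟩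

/-- **L9**, existential form, from the output of `NatC.exists_cut`. -/
theorem exists_short_list_of_cut {a d : ℕ} (v : Fin a → C) (y : Fin d → C)
    (hy : ∀ j, y j ∈ Ideal.span (Set.range v)) (J : Ideal C) (l : ℕ)
    (hv : Ideal.span (Set.range v) ^ l ≤ Ideal.span (Set.range y) ⊔ J)
    (L : AddLen (WittVector p C))
    (hfin : ∀ q, L.len ((KG.KC (WittVector p C ⧸ PI.WI p J)
      ((p : WittVector p C) :: List.ofFn fun i => teichmuller p (v i))).H q) ≠ ⊤) :
    ∃ ys : List (WittVector p C), ys.length = d ∧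
      (∀ q, L.len ((KG.KC (WittVector p C ⧸ PI.WI p J) ((p : WittVector p C) :: ys)).H q) ≠ ⊤) ∧
      ∀ 𝔞 : Ideal (WittVector p C), (p : WittVector p C) ∈ 𝔞 →
        (∀ i, ∃ l : ℕ, teichmuller p (v i) ^ l ∈ 𝔞) → ∀ w ∈ ys, ∃ l : ℕ, w ^ l ∈ 𝔞 := by
  refine ⟨List.ofFn fun i => teichmuller p (y i), List.length_ofFn,
    ne_top_of_cut p v y J l hv L hfin, fun 𝔞 hp h w hw => ?_⟩
  obtain ⟨j, rfl⟩ := (List.mem_ofFn' _ _).1 hw
  exact te_mem_radical p v (hy j) hp h

end W

end Vale.Agent.P177.SL
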