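import Vale.Agent.P177.SL.Base

/-!
Multiplicativity of the Tor lengths and of the Euler characteristic for the thickenings
`S[X_1, .., X_d] / (X_1 ^ t, .., X_d ^ t)`.
-/

namespace Vale.Agent.P177.SL

open Vale.Agent.P202.Mix Function TensorProduct IsLocalRing
open scoped ENNReal

universe u

section ses

variable {T : Type u} [CommRing T]

/-- the exact sequence of the colon ideal. -/
theorem ses_quot (I I' I'' : Ideal T) (x : T) (h1 : ∀ a, x * a ∈ I ↔ a ∈ I')
    (h2 : I ⊔ Ideal.span {x} = I'') :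
    ∃ (f : (T ⧸ I') →ₗ[T] (T ⧸ I)) (g : (T ⧸ I) →ₗ[T] (T ⧸ I'')),
      Injective f ∧ Surjective g ∧ Exact f g := by
  have hle : I ≤ I'' := by rw [← h2]; exact le_sup_left
  let f : (T ⧸ I') →ₗ[T] (T ⧸ I) :=
    Submodule.mapQ I' I (LinearMap.lsmul T T x) (fun a ha => (h1 a).2 ha)
  let g : (T ⧸ I) →ₗ[T] (T ⧸ I'') := Submodule.factor hle
  have hf : ∀ a, f (Submodule.Quotient.mk a) = Submodule.Quotient.mk (x * a) := fun _ => rfl
  have hg : ∀ a, g (Submodule.Quotient.mk a) = Submodule.Quotient.mk a := fun _ => rfl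
  refine ⟨f, g, ?_, ?_, ?_⟩
  · rw [injective_iff_map_eq_zero]
    intro a
    obtain ⟨a, rfl⟩ := Submodule.Quotient.mk_surjective _ a
    intro h
    rw [hf, Submodule.Quotient.mk_eq_zero, h1] at h
    rwa [Submodule.Quotient.mk_eq_zero]
  · intro a
    obtain ⟨a, rfl⟩ := Submodule.Quotient.mk_surjective _ a
    exact ⟨Submodule.Quotient.mk a, hg a⟩
  · intro a
    obtain ⟨a, rfl⟩ := Submodule.Quotient.mk_surjective _ a
    rw [hg, Submodule.Quotient.mk_eq_zero, ← h2, Submodule.mem_sup]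
    constructor
    · rintro ⟨y, hy, z, hz, rfl⟩
      obtain ⟨c, rfl⟩ := Ideal.mem_span_singleton'.1 hz
      refine ⟨Submodule.Quotient.mk c, ?_⟩
      rw [hf, Submodule.Quotient.eq]
      have : x * c - (y + c * x) = - y := by ring
      rw [this]
      exact I.neg_mem hy
    · rintro ⟨c, hc⟩
      obtain ⟨c, rfl⟩ := Submodule.Quotient.mk_surjective _ c
      rw [hf, Submodule.Quotient.eq] at hc
      refine ⟨a - x * c, ?_, x * c, Ideal.mul_mem_right _ _ (Ideal.mem_span_singleton_self x), ?_⟩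
      · rw [← neg_sub]
        exact I.neg_mem hc
      · ring

end ses

section th

variable {S T : Type u} [CommRing S] [CommRing T] [Algebra S T]
  (Θ : S →+* T) {Q Q' : Type u} [AddCommGroup Q] [Module S Q] [Module T Q]
  [IsScalarTower S T Q] [AddCommGroup Q'] [Module S Q'] [Module T Q'] [IsScalarTower S T Q']
  (N : Type u) [AddCommGroup N] [Module S N]

/-- an isomorphism of `T`-modules gives an isomorphism of thickenings. -/
noncomputable def thCongrQ (e : Q ≃ₗ[T] Q') : Th Θ Q N ≃ₗ[S] Th Θ Q' N :=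
  LinearEquiv.ofBijective (thMapQ Θ N (e : Q →ₗ[T] Q'))
    (LinearEquiv.rTensor N (e.restrictScalars S)).bijective

/-- if `Θ s` acts as `s` on `Q` and `Q` is isomorphic to `S`, the thickening is trivial. -/
noncomputable def thOne (e : Q ≃ₗ[S] S) (hq : ∀ (s : S) (q : Q), Θ s • q = s • q) :
    Th Θ Q N ≃ₗ[S] N :=
  let F : Q ⊗[S] N ≃ₗ[S] N := (e.rTensor N).trans (TensorProduct.lid S N)
  have hF : ∀ (s : S) (x : Q ⊗[S] N), (Θ s • x : Q ⊗[S] N) = s • x := by
    intro s x
    induction x using TensorProduct.induction_on with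
    | zero => simp
    | tmul q n => rw [TensorProduct.smul_tmul', TensorProduct.smul_tmul', hq]
    | add y z hy hz => rw [smul_add, smul_add, hy, hz]
  { toFun := F
    map_add' := F.map_add
    map_smul' := fun s x => by
      change F (Θ s • (show Q ⊗[S] N from x)) = s • F x
      rw [hF, map_smul]
    invFun := F.symm
    left_inv := F.left_inv
    right_inv := F.right_inv }

end th

section box

variable (S : Type u) [CommRing S] (d t : ℕ)

/-- the ideal generated by the `X_i ^ b_i` in `S[X] / (X ^ t)`. -/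
noncomputable def JB (b : Fin d → ℕ) : Ideal (TB S d t) :=
  (boxI S b).map (Ideal.Quotient.mk (boxI S fun _ : Fin d => t))

variable {S d t} {b : Fin d → ℕ}

theorem boxI_le_of_le {b c : Fin d → ℕ} (h : ∀ i, b i ≤ c i) : boxI S c ≤ boxI S b := by
  intro f hf
  rw [mem_boxI] at hf ⊢
  intro β hβ
  obtain ⟨i, hi⟩ := hf β hβ
  exact ⟨i, (h i).trans hi⟩

theorem mk_mem_JB (hb : ∀ i, b i ≤ t) {f : MvPolynomial (Fin d) S} :
    (Ideal.Quotient.mk (boxI S fun _ : Fin d => t) f) ∈ JB S d t b ↔ f ∈ boxI S b :=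
  Ideal.mem_quotient_iff_mem (boxI_le_of_le hb)

/-- the double quotient. -/
noncomputable def qbEquiv (hb : ∀ i, b i ≤ t) :
    (TB S d t ⧸ JB S d t b) ≃ₗ[S] (MvPolynomial (Fin d) S ⧸ boxI S b) :=
  (DoubleQuot.quotQuotEquivQuotOfLEₐ S (boxI_le_of_le hb)).toLinearEquiv

theorem flat_QB (hb : ∀ i, b i ≤ t) : Module.Flat S (TB S d t ⧸ JB S d t b) := by
  have : Module.Free S (TB S d t ⧸ JB S d t b) := Module.Free.of_equiv (qbEquiv hb).symm
  infer_instance

theorem ses_QB (hb : ∀ i, b i ≤ t) {i : Fin d} (hi : 1 ≤ b i) :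
    ∃ (f : (TB S d t ⧸ JB S d t (update b i (b i - 1))) →ₗ[TB S d t] (TB S d t ⧸ JB S d t b))
      (g : (TB S d t ⧸ JB S d t b) →ₗ[TB S d t] (TB S d t ⧸ JB S d t (update b i 1))),
      Injective f ∧ Surjective g ∧ Exact f g := by
  have hb' : ∀ j, update b i (b i - 1) j ≤ t := by
    intro j
    rcases eq_or_ne j i with rfl | hne
    · rw [update_self]
      exact (Nat.sub_le _ _).trans (hb j)
    · rw [update_of_ne hne]
      exact hb j
  refine ses_quot _ _ _ (Ideal.Quotient.mk _ (MvPolynomial.X i)) ?_ ?_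
  · intro a
    obtain ⟨a, rfl⟩ := Ideal.Quotient.mk_surjective a
    rw [← map_mul, mk_mem_JB hb, mk_mem_JB hb', box_colon hi]
  · rw [JB, JB, ← box_sup hi, Ideal.map_sup, Ideal.map_span, Set.image_singleton]

theorem subsingleton_QB {i : Fin d} (hi : b i = 0) : Subsingleton (TB S d t ⧸ JB S d t b) := by
  rw [Ideal.Quotient.subsingleton_iff, Ideal.eq_top_iff_one, JB]
  have h1 := X_pow_mem_boxI (S := S) b i
  rw [hi, pow_zero] at h1
  have h2 := Ideal.mem_map_of_mem (Ideal.Quotient.mk (boxI S fun _ : Fin d => t)) h1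
  rwa [map_one] at h2

end box

section comb

variable {d : ℕ}

theorem sum_update_lt {b : Fin d → ℕ} {i : Fin d} {c : ℕ} (h : c < b i) :
    ∑ j, update b i c j < ∑ j, b j := by
  refine Finset.sum_lt_sum (fun j _ => ?_) ⟨i, Finset.mem_univ _, by rwa [update_self]⟩
  rcases eq_or_ne j i with rfl | hne
  · rw [update_self]
    exact h.le
  · rw [update_of_ne hne]

theorem prod_update_add {b : Fin d → ℕ} {i : Fin d} (h : 1 ≤ b i) :
    ∏ j, b j = ∏ j, update b i (b i - 1) j + ∏ j, update b i 1 j := by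
  rw [Finset.prod_update_of_mem (Finset.mem_univ i), Finset.prod_update_of_mem (Finset.mem_univ i),
    ← add_mul, Nat.sub_add_cancel h, ← Finset.prod_eq_mul_prod_sdiff_singleton_of_mem]
  exact Finset.mem_univ i

theorem box_induction {t : ℕ} {P : (Fin d → ℕ) → Prop}
    (h0 : ∀ b, (∃ i, b i = 0) → P b)
    (h1 : (∀ _ : Fin d, 1 ≤ t) → P fun _ => 1)
    (hs : ∀ b, (∀ i, b i ≤ t) → ∀ i, 2 ≤ b i → (∀ j, update b i 1 j ≤ t) →
      P (update b i (b i - 1)) → P (update b i 1) → P b)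
    (b : Fin d → ℕ) (hb : ∀ i, b i ≤ t) : P b := by
  suffices h : ∀ n, ∀ b : Fin d → ℕ, (∀ i, b i ≤ t) → ∑ j, b j = n → P b from h _ b hb rfl
  intro n
  induction n using Nat.strong_induction_on with
  | _ n ih =>
    intro b hb hn
    by_cases hz : ∃ i, b i = 0
    · exact h0 b hz
    by_cases hg : ∃ i, 2 ≤ b i
    · obtain ⟨i, hi⟩ := hg
      have hb' : ∀ c, c ≤ b i → ∀ j, update b i c j ≤ t := by
        intro c hc j
        rcases eq_or_ne j i with rfl | hne
        · rw [update_self]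
          exact hc.trans (hb j)
        · rw [update_of_ne hne]
          exact hb j
      have h2 : b i - 1 ≤ b i := Nat.sub_le _ _
      have h3 : 1 ≤ b i := by omega
      refine hs b hb i hi (hb' 1 h3) (ih _ ?_ _ (hb' _ h2) rfl) (ih _ ?_ _ (hb' _ h3) rfl)
      · rw [← hn]
        exact sum_update_lt (by omega)
      · rw [← hn]
        exact sum_update_lt (by omega)
    · have h2 : b = fun _ => 1 := by
        funext i
        have h3 : b i ≠ 0 := fun h => hz ⟨i, h⟩
        have h4 : ¬ 2 ≤ b i := fun h => hg ⟨i, h⟩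
        omega
      rw [h2]
      refine h1 fun i => ?_
      have h3 := hb i
      rwa [h2] at h3

end comb

section main

variable {S D : Type u} [CommRing S] [CommRing D] [Algebra S D] [Module.Flat S D] (L : AddLen D)
  {d t : ℕ} (Θ : S →+* TB S d t)
  (near : ∀ s, Θ s - algebraMap S (TB S d t) s ∈
    Ideal.span (Set.range fun i : Fin d =>
      (Ideal.Quotient.mk _ (MvPolynomial.X i) : TB S d t)))
  (N : Type u) [AddCommGroup N] [Module S N] (X : Type u) [AddCommGroup X] [Module D X]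

/-- `Q_b ⊗ N` with the action through `Θ`. -/
abbrev TQ (b : Fin d → ℕ) : Type u := Th Θ (TB S d t ⧸ JB S d t b) N

include near in
theorem nonempty_one (h1 : ∀ _ : Fin d, 1 ≤ t) :
    Nonempty (TQ Θ N (fun _ : Fin d => 1) ≃ₗ[S] N) := by
  refine ⟨thOne Θ N ((qbEquiv h1).trans (boxOne S d)) fun s q => ?_⟩
  obtain ⟨q, rfl⟩ := Ideal.Quotient.mk_surjective q
  have h2 : Θ s - algebraMap S (TB S d t) s ∈ JB S d t (fun _ : Fin d => 1) := by
    refine (Ideal.span_le.2 ?_) (near s)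
    rintro _ ⟨i, rfl⟩
    have h3 := X_pow_mem_boxI (S := S) (fun _ : Fin d => 1) i
    rw [pow_one] at h3
    exact Ideal.mem_map_of_mem _ h3
  have h4 : (s • (Ideal.Quotient.mk (JB S d t fun _ : Fin d => 1) q) :
      TB S d t ⧸ JB S d t fun _ : Fin d => 1) =
      Ideal.Quotient.mk _ (algebraMap S (TB S d t) s * q) := by
    rw [← Algebra.smul_def]
    rfl
  have h5 : (Θ s • (Ideal.Quotient.mk (JB S d t fun _ : Fin d => 1) q) :
      TB S d t ⧸ JB S d t fun _ : Fin d => 1) = Ideal.Quotient.mk _ (Θ s * q) := rfl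
  rw [h4, h5, Ideal.Quotient.eq, ← sub_mul]
  exact Ideal.mul_mem_right _ _ h2

theorem nonempty_top : Nonempty (TQ Θ N (fun _ : Fin d => t) ≃ₗ[S] Th Θ (TB S d t) N) := by
  have h1 : JB S d t (fun _ : Fin d => t) = ⊥ := by
    rw [JB, Ideal.map_quotient_self]
  exact ⟨thCongrQ Θ N ((Submodule.quotEquivOfEqBot _ h1))⟩

theorem subsingleton_TQ {b : Fin d → ℕ} {i : Fin d} (hi : b i = 0) :
    Subsingleton (TQ Θ N b) := by
  have := subsingleton_QB (S := S) (t := t) hi
  exact inferInstanceAs (Subsingleton ((TB S d t ⧸ JB S d t b) ⊗[S] N))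

theorem ses_TQ {b : Fin d → ℕ} (hb : ∀ i, b i ≤ t) {i : Fin d} (hi : 1 ≤ b i)
    (hb1 : ∀ j, update b i 1 j ≤ t) :
    ∃ (f : TQ Θ N (update b i (b i - 1)) →ₗ[S] TQ Θ N b)
      (g : TQ Θ N b →ₗ[S] TQ Θ N (update b i 1)),
      Injective f ∧ Surjective g ∧ Exact f g := by
  obtain ⟨f, g, h1, h2, h3⟩ := ses_QB (S := S) hb hi
  have := flat_QB (S := S) hb1
  obtain ⟨k1, k2, k3⟩ := th_sesQ (N := N) Θ f g h1 h2 h3
  exact ⟨_, _, k1, k2, k3⟩

include near in
theorem tau_box_le (i : ℕ) (b : Fin d → ℕ) (hb : ∀ i, b i ≤ t) :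
    tau S L i (TQ Θ N b) X ≤ ((∏ j, b j : ℕ) : ℝ≥0∞) * tau S L i N X := by
  refine box_induction (t := t)
    (P := fun b => tau S L i (TQ Θ N b) X ≤ ((∏ j, b j : ℕ) : ℝ≥0∞) * tau S L i N X)
    ?_ ?_ ?_ b hb
  · rintro b ⟨j, hj⟩
    have := subsingleton_TQ Θ N hj
    rw [tau_subsingleton]
    exact zero_le
  · intro h1
    obtain ⟨e⟩ := nonempty_one Θ near N h1
    rw [tau_congr L i e]
    simp
  · intro b hb j hj hb1 h1 h2
    obtain ⟨f, g, k1, k2, k3⟩ := ses_TQ Θ N hb (one_le_two.trans hj) hb1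
    refine (tau_le L X i f g k1 k2 k3).trans ((add_le_add h1 h2).trans ?_)
    rw [← add_mul, prod_update_add (one_le_two.trans hj), Nat.cast_add]

include near in
theorem tau_thick_le (i : ℕ) :
    tau S L i (Th Θ (TB S d t) N) X ≤ (t : ℝ≥0∞) ^ d * tau S L i N X := by
  obtain ⟨e⟩ := nonempty_top (S := S) (d := d) (t := t) Θ N
  rw [← tau_congr L i e]
  refine (tau_box_le L Θ near N X i _ fun _ => le_rfl).trans ?_
  rw [Finset.prod_const, Finset.card_univ, Fintype.card_fin, Nat.cast_pow]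

include near in
theorem chi_box (hfin : ∀ i, tau S L i N X ≠ ⊤) (m : ℕ) (hm : tau S L m N X = 0)
    (b : Fin d → ℕ) (hb : ∀ i, b i ≤ t) :
    chi S L m (TQ Θ N b) X = ((∏ j, b j : ℕ) : ℝ) * chi S L m N X := by
  have hfin' : ∀ (b : Fin d → ℕ), (∀ i, b i ≤ t) → ∀ i, tau S L i (TQ Θ N b) X ≠ ⊤ := by
    intro b hb i
    refine ne_top_of_le_ne_top ?_ (tau_box_le L Θ near N X i b hb)
    exact ENNReal.mul_ne_top (ENNReal.natCast_ne_top _) (hfin i)
  refine box_induction (t := t)
    (P := fun b => chi S L m (TQ Θ N b) X = ((∏ j, b j : ℕ) : ℝ) * chi S L m N X)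
    ?_ ?_ ?_ b hb
  · rintro b ⟨j, hj⟩
    have := subsingleton_TQ Θ N hj
    rw [chi_subsingleton, Finset.prod_eq_zero (Finset.mem_univ j) hj, Nat.cast_zero, zero_mul]
  · intro h1
    obtain ⟨e⟩ := nonempty_one Θ near N h1
    rw [chi_congr L m e]
    simp
  · intro b hb j hj hb1 h1 h2
    have hb' : ∀ i, update b j (b j - 1) i ≤ t := by
      intro i
      rcases eq_or_ne i j with rfl | hne
      · rw [update_self]
        exact (Nat.sub_le _ _).trans (hb i)
      · rw [update_of_ne hne]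
        exact hb i
    obtain ⟨f, g, k1, k2, k3⟩ := ses_TQ Θ N hb (one_le_two.trans hj) hb1
    have h3 : tau S L m (TQ Θ N (update b j 1)) X = 0 := by
      have h4 := tau_box_le L Θ near N X m _ hb1
      rw [hm, mul_zero] at h4
      exact le_antisymm h4 zero_le
    rw [chi_add L f g k1 k2 k3 (hfin' _ hb') (hfin' _ hb) m h3, h1, h2, ← add_mul,
      prod_update_add (one_le_two.trans hj), Nat.cast_add]

include near in
theorem chi_thick (hfin : ∀ i, tau S L i N X ≠ ⊤) (m : ℕ) (hm : tau S L m N X = 0) :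
    chi S L m (Th Θ (TB S d t) N) X = (t : ℝ) ^ d * chi S L m N X := by
  obtain ⟨e⟩ := nonempty_top (S := S) (d := d) (t := t) Θ N
  rw [← chi_congr L m e, chi_box L Θ near N X hfin m hm _ fun _ => le_rfl]
  rw [Finset.prod_const, Finset.card_univ, Fintype.card_fin, Nat.cast_pow]

end main

end Vale.Agent.P177.SL
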