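import Vale.Agent.P177.SL.RhoA

/-!
P177, block RHO, part B: the Euler characteristic of `E ⊗ k` with `Y₁` and `Y₂` agree, if
`0 → Y₁ → Y₂ → Q → 0` is exact and a nonzero element of the base kills `Q` up to null maps.
-/

namespace Vale.Agent.P177.SL

open Vale.Agent.P202.Mix Function TensorProduct IsLocalRing
open scoped ENNReal

universe u

variable {Λ E : Type u} [CommRing Λ] [CommRing E] [Algebra Λ E] (L : AddLen E)

theorem tl_symm (j : ℕ) (M : Type u) [AddCommGroup M] [Module E M] (Y : Type u) [AddCommGroup Y]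
    [Module E Y] : B8.tl L Y j M = B8.tl L M j Y := by
  obtain ⟨e⟩ := tor_symm (R := E) j M Y
  exact len_congr L e

theorem chi_symm (n : ℕ) (M : Type u) [AddCommGroup M] [Module E M] (Y : Type u)
    [AddCommGroup Y] [Module E Y] : B8.chi L Y n M = B8.chi L M n Y := by
  unfold B8.chi
  exact Finset.sum_congr rfl fun j _ => by rw [tl_symm]

/-- a condition for the multiplication by `γ` to be null on the modules `Tor_j(E ⊗ N, Q)`. -/
theorem null_of_rel [IsLocalRing Λ] {h P x γ : E} {ϖ : Λ} (hϖ : ϖ ∈ maximalIdeal Λ)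
    (hh : Kills L h)
    (hP : ∀ (l : ℕ) (T : Type u) [AddCommGroup T] [Module E T],
      (∀ t : T, algebraMap Λ E ϖ ^ l • t = 0) →
        L.len (LinearMap.range (LinearMap.lsmul E T P)) = 0)
    (Q : Type u) [AddCommGroup Q] [Module E Q] (hQ : ∀ q : Q, (h * γ) • q = (x * P) • q)
    (N : Type u) [AddCommGroup N] [Module Λ N] (hN : IsFiniteLength Λ N) (j : ℕ) :
    L.len (LinearMap.range (LinearMap.lsmul E (TorM E j (E ⊗[Λ] N) Q) γ)) = 0 := by
  set T := TorM E j (E ⊗[Λ] N) Q with hT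
  obtain ⟨l, hl⟩ := exists_pow_smul_eq_zero hN
  have h1 : ∀ t : T, algebraMap Λ E ϖ ^ l • t = 0 := by
    intro t
    refine tor_smul_eq_zero_left (algebraMap Λ E ϖ ^ l) (fun m => ?_) j Q t
    induction m using TensorProduct.induction_on with
    | zero => rw [smul_zero]
    | tmul e n =>
      rw [← map_pow, algebraMap_smul, ← TensorProduct.tmul_smul,
        hl _ (Ideal.pow_mem_pow hϖ l), TensorProduct.tmul_zero]
    | add a b ha hb => rw [smul_add, ha, hb, add_zero]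
  have h2 : ∀ t : T, h • γ • t = (x * P) • t := by
    intro t
    have h3 := tor_smul_eq_zero_right (h * γ - x * P) (fun q => by
      rw [sub_smul, hQ, sub_self]) j (E ⊗[Λ] N) t (N := Q)
    rw [sub_smul, sub_eq_zero] at h3
    rw [smul_smul, h3]
  let R := LinearMap.range (LinearMap.lsmul E T γ)
  have h4 : L.len R = L.len (LinearMap.range (LinearMap.lsmul E R h)) +
      L.len (R ⧸ LinearMap.range (LinearMap.lsmul E R h)) := len_sub_quot L _
  have h5 : L.len (R ⧸ LinearMap.range (LinearMap.lsmul E R h)) = 0 := by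
    refine hh _ fun a => ?_
    obtain ⟨a, rfl⟩ := Submodule.Quotient.mk_surjective _ a
    rw [← Submodule.Quotient.mk_smul, Submodule.Quotient.mk_eq_zero]
    exact ⟨a, rfl⟩
  rw [h5, add_zero] at h4
  have h6 : L.len (LinearMap.range (LinearMap.lsmul E R h)) = 0 := by
    have h3 : L.len (LinearMap.range (LinearMap.lsmul E R h)) ≤
        L.len (LinearMap.range (LinearMap.lsmul E T P)) := by
      refine len_le_of_injective L ((R.subtype ∘ₗ
        (LinearMap.range (LinearMap.lsmul E R h)).subtype).codRestrict _ ?_) ?_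
      · rintro ⟨_, ⟨_, t, rfl⟩, rfl⟩
        refine ⟨x • t, ?_⟩
        show P • x • t = h • γ • t
        rw [h2, smul_smul, mul_comm]
      · intro a b hab
        have h8 := congrArg Subtype.val hab
        exact Subtype.ext (Subtype.ext h8)
    exact le_antisymm (h3.trans (hP l T h1).le) bot_le
  exact h4.trans h6

/-- finiteness and vanishing for the quotient. -/
theorem tl_quot {Y₁ Y₂ Q : Type u} [AddCommGroup Y₁] [Module E Y₁] [AddCommGroup Y₂] [Module E Y₂]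
    [AddCommGroup Q] [Module E Q] (f : Y₁ →ₗ[E] Y₂) (g : Y₂ →ₗ[E] Q) (hf : Injective f)
    (hg : Surjective g) (h : Exact f g) (M : Type u) [AddCommGroup M] [Module E M] (b : ℕ)
    (f1 : ∀ j, B8.tl L Y₁ j M ≠ ⊤) (f2 : ∀ j, B8.tl L Y₂ j M ≠ ⊤)
    (v1 : ∀ j, b ≤ j → B8.tl L Y₁ j M = 0) (v2 : ∀ j, b ≤ j → B8.tl L Y₂ j M = 0) :
    (∀ j, B8.tl L Q j M ≠ ⊤) ∧ (∀ j, b + 1 ≤ j → B8.tl L Q j M = 0) := by
  obtain ⟨b', r, h1, h2, h3, h4⟩ := B8.tor_nums L M f g hf hg h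
  have k1 : ∀ j, B8.tl L M j Y₁ = B8.tl L Y₁ j M := fun j => (tl_symm L j M Y₁).symm
  have k2 : ∀ j, B8.tl L M j Y₂ = B8.tl L Y₂ j M := fun j => (tl_symm L j M Y₂).symm
  have k3 : ∀ j, B8.tl L M j Q = B8.tl L Q j M := fun j => (tl_symm L j M Q).symm
  simp only [k1, k2, k3] at h1 h2 h3 h4
  have hb' : ∀ j, b' j ≠ ⊤ := fun j hj => f2 j (by rw [h2, hj, add_top])
  have hr : ∀ j, r j ≠ ⊤ := fun j hj => f1 j (by rw [h1, hj, top_add])
  refine ⟨fun j => ?_, fun j hj => ?_⟩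
  · cases j with
    | zero => rw [h4]; exact hb' 0
    | succ j => rw [h3]; exact ENNReal.add_ne_top.2 ⟨hb' _, hr _⟩
  · obtain ⟨j, rfl⟩ : ∃ i, j = i + 1 := ⟨j - 1, by omega⟩
    have h5 := h2 (j + 1)
    rw [v2 _ (by omega)] at h5
    have h6 := h1 j
    rw [v1 _ (by omega)] at h6
    rw [h3, (add_eq_zero.1 h5.symm).2, (add_eq_zero.1 h6.symm).1, add_zero]

/-- **Independence**. -/
theorem chi_eq_of_null [Module.Flat Λ E] [IsLocalRing Λ] [IsNoetherianRing Λ] [IsDomain Λ]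
    (ys : List Λ)
    (hys : Ideal.ofList ys = maximalIdeal Λ) (D : ℕ) (hlen : ys.length = D + 1)
    (hdim : ringKrullDim Λ = (D + 1 : ℕ)) (b : ℕ)
    {Y₁ Y₂ Q : Type u} [AddCommGroup Y₁] [Module E Y₁] [AddCommGroup Y₂] [Module E Y₂]
    [AddCommGroup Q] [Module E Q] (f : Y₁ →ₗ[E] Y₂) (g : Y₂ →ₗ[E] Q) (hf : Injective f)
    (hg : Surjective g) (hfg : Exact f g)
    (f1 : ∀ j, B8.tl L Y₁ j (E ⊗[Λ] (Λ ⧸ maximalIdeal Λ)) ≠ ⊤)
    (f2 : ∀ j, B8.tl L Y₂ j (E ⊗[Λ] (Λ ⧸ maximalIdeal Λ)) ≠ ⊤)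
    (v1 : ∀ j, b ≤ j → B8.tl L Y₁ j (E ⊗[Λ] (Λ ⧸ maximalIdeal Λ)) = 0)
    (v2 : ∀ j, b ≤ j → B8.tl L Y₂ j (E ⊗[Λ] (Λ ⧸ maximalIdeal Λ)) = 0)
    {γ ϖ : Λ} (hγ : γ ≠ 0) (hϖ : ϖ ∈ maximalIdeal Λ) {h P x : E} (hh : Kills L h)
    (hP : ∀ (l : ℕ) (T : Type u) [AddCommGroup T] [Module E T],
      (∀ t : T, algebraMap Λ E ϖ ^ l • t = 0) →
        L.len (LinearMap.range (LinearMap.lsmul E T P)) = 0)
    (hQ : ∀ q : Q, (h * algebraMap Λ E γ) • q = (x * P) • q) (n : ℕ) (hn : b ≤ n) :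
    B8.chi L Y₁ n (E ⊗[Λ] (Λ ⧸ maximalIdeal Λ)) = B8.chi L Y₂ n (E ⊗[Λ] (Λ ⧸ maximalIdeal Λ)) := by
  obtain ⟨f3, v3⟩ := tl_quot L f g hf hg hfg _ b f1 f2 v1 v2
  have h1 := chi_eq_zero_of_null L Q ys hys D hlen hdim (b + 1) f3 v3 γ hγ
    (fun N _ _ hN j => null_of_rel L hϖ hh hP Q hQ N hN j)
  have h2 := B8.chi_add L (E ⊗[Λ] (Λ ⧸ maximalIdeal Λ)) f g hf hg hfg (b + 1)
    (fun j => by rw [← tl_symm]; exact f1 j) (fun j => by rw [← tl_symm]; exact f3 j)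
    (by rw [← tl_symm]; exact v1 _ (by omega))
  rw [← chi_symm L _ _ Y₁, ← chi_symm L _ _ Y₂, ← chi_symm L _ _ Q, h1, add_zero] at h2
  have h3 : ∀ (Y : Type u) [AddCommGroup Y] [Module E Y],
      (∀ j, b ≤ j → B8.tl L Y j (E ⊗[Λ] (Λ ⧸ maximalIdeal Λ)) = 0) → ∀ n, b ≤ n →
      B8.chi L Y n (E ⊗[Λ] (Λ ⧸ maximalIdeal Λ)) = B8.chi L Y b (E ⊗[Λ] (Λ ⧸ maximalIdeal Λ)) := by
    intro Y _ _ hY n hn
    induction n, hn using Nat.le_induction with
    | base => rfl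
    | succ n hn ih =>
      unfold B8.chi at ih ⊢
      rw [Finset.sum_range_succ, ih, hY n hn]
      simp
  rw [h3 Y₂ v2 _ (by omega), h3 Y₁ v1 _ (by omega)] at h2
  rw [h3 Y₁ v1 n hn, h3 Y₂ v2 n hn, h2]

end Vale.Agent.P177.SL
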