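import Vale.Agent.P177.SL.FinalA
import Vale.Agent.P177.SL.JInd2
import Vale.Agent.P177.SL.RhoB
import Vale.Agent.P177.SL.Mult

/-!
P177, block B7, concrete form, part B: finiteness, vanishing, independence of `J`.
-/

namespace Vale.Agent.P177.SL

open Vale.Agent.P202.Mix Function TensorProduct IsLocalRing Vale.Agent.P177.PI WittVector
open scoped ENNReal

universe u

section gen

variable {S D : Type u} [CommRing S] [CommRing D] [Algebra S D] (L : AddLen D)
  (N : Type u) [AddCommGroup N] [Module S N]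

/-- the Euler characteristic is stable. -/
theorem chi_succ_eq {X : Type u} [AddCommGroup X] [Module D X] {n : ℕ}
    (hn : tau S L n N X = 0) : chi S L (n + 1) N X = chi S L n N X := by
  unfold chi
  rw [Finset.sum_range_succ, hn, ENNReal.toReal_zero, mul_zero, add_zero]

/-- additivity in the second variable. -/
theorem chi_add_right {X₁ X₂ Q : Type u} [AddCommGroup X₁] [Module D X₁] [AddCommGroup X₂]
    [Module D X₂] [AddCommGroup Q] [Module D Q] (f : X₁ →ₗ[D] X₂) (g : X₂ →ₗ[D] Q)
    (hf : Injective f) (hg : Surjective g) (h : Exact f g) (f1 : ∀ j, tau S L j N X₁ ≠ ⊤)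
    (f3 : ∀ j, tau S L j N Q ≠ ⊤) (n : ℕ) (v1 : tau S L n N X₁ = 0) (v2 : tau S L n N X₂ = 0)
    (v3 : tau S L n N Q = 0) :
    chi S L n N X₂ = chi S L n N X₁ + chi S L n N Q := by
  have e : ∀ (X : Type u) [AddCommGroup X] [Module D X] (j : ℕ),
      B8.tl L (D ⊗[S] N) j X = tau S L j N X := fun X _ _ j => (tl_symm L j (D ⊗[S] N) X).symm
  have h2 := B8.chi_add L (D ⊗[S] N) f g hf hg h n (fun j => by rw [e]; exact f1 j)
    (fun j => by rw [e]; exact f3 j) (by rw [e]; exact v1)
  have e2 : ∀ (X : Type u) [AddCommGroup X] [Module D X],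
      B8.chi L (D ⊗[S] N) (n + 1) X = chi S L (n + 1) N X := by
    intro X _ _
    unfold B8.chi chi
    exact Finset.sum_congr rfl fun j _ => by rw [e]
  rw [e2, e2, e2, chi_succ_eq L N v1, chi_succ_eq L N v2, chi_succ_eq L N v3] at h2
  exact h2

end gen

section W

variable {p : ℕ} [hp : Fact p.Prime] {C' : Type u} [CommRing C'] [CharP C' p] [PerfectRing C' p]
  {S : Type u} [CommRing S] (ψ : S →+* WittVector p C')

section quot

omit [CharP C' p] [PerfectRing C' p]

theorem mem_WI_top' (x : WittVector p C') : x ∈ WI p (⊤ : Ideal C') := by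
  have h1 : (1 : WittVector p C') ∈ WI p (⊤ : Ideal C') := by
    have := te_mem_WI p (J := (⊤ : Ideal C')) (c := 1) trivial
    rwa [map_one] at this
  rw [← mul_one x]
  exact Ideal.mul_mem_left _ _ h1

variable (J : Ideal C')

/-- the module `W(C') / WI J` over `S ⊗ W(C')`. -/
def QS (_ : S →+* WittVector p C') (J : Ideal C') : Type u := WittVector p C' ⧸ WI p J

noncomputable instance : AddCommGroup (QS ψ J) :=
  inferInstanceAs (AddCommGroup (WittVector p C' ⧸ WI p J))

noncomputable instance instQSD : Module (S ⊗[ℤ] WittVector p C') (QS ψ J) :=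
  Module.compHom (WittVector p C' ⧸ WI p J) (rhoS ψ (RingHom.id (WittVector p C')))

theorem qs_smul (a : S ⊗[ℤ] WittVector p C') (x : QS ψ J) :
    a • x = (show QS ψ J from rhoS ψ (RingHom.id (WittVector p C')) a •
      (show WittVector p C' ⧸ WI p J from x)) := rfl

theorem WI_le_top : WI p J ≤ WI p (⊤ : Ideal C') := fun _ _ => mem_WI_top' _

/-- the inclusion over `W(C')`. -/
noncomputable def incV : WI p J →ₗ[WittVector p C'] WI p (⊤ : Ideal C') :=
  Submodule.inclusion (WI_le_top J)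

/-- the projection over `W(C')`. -/
noncomputable def prV : WI p (⊤ : Ideal C') →ₗ[WittVector p C'] WittVector p C' ⧸ WI p J :=
  (WI p J).mkQ ∘ₗ (WI p (⊤ : Ideal C')).subtype

/-- the inclusion. -/
noncomputable def incS : XS p J ψ →ₗ[S ⊗[ℤ] WittVector p C'] XS p (⊤ : Ideal C') ψ where
  toFun x := incV J (show WI p J from x)
  map_add' x y := map_add (incV J) (show WI p J from x) (show WI p J from y)
  map_smul' a x := map_smul (incV J) (rhoS ψ (RingHom.id (WittVector p C')) a)
    (show WI p J from x)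

/-- the projection. -/
noncomputable def prS : XS p (⊤ : Ideal C') ψ →ₗ[S ⊗[ℤ] WittVector p C'] QS ψ J where
  toFun x := prV J (show WI p (⊤ : Ideal C') from x)
  map_add' x y := map_add (prV J) (show WI p (⊤ : Ideal C') from x)
    (show WI p (⊤ : Ideal C') from y)
  map_smul' a x := map_smul (prV J) (rhoS ψ (RingHom.id (WittVector p C')) a)
    (show WI p (⊤ : Ideal C') from x)

omit [CommRing S] in
theorem incV_inj : Injective (incV (p := p) J) := Submodule.inclusion_injective _

theorem prV_surj : Surjective (prV (p := p) J) := by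
  intro x
  obtain ⟨w, rfl⟩ := Submodule.mkQ_surjective _ x
  exact ⟨⟨w, mem_WI_top' w⟩, rfl⟩

theorem prV_apply (x : WI p (⊤ : Ideal C')) : prV J x = (WI p J).mkQ x.1 := rfl

theorem incV_coe (x : WI p J) : ((incV J x : WI p (⊤ : Ideal C')) : WittVector p C') = x.1 :=
  Submodule.coe_inclusion (WI_le_top J) x

theorem incV_exact : Exact (incV (p := p) J) (prV J) := by
  intro x
  rw [prV_apply, Submodule.mkQ_apply, Submodule.Quotient.mk_eq_zero]
  constructor
  · intro h
    refine ⟨⟨x.1, h⟩, ?_⟩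
    apply Subtype.ext
    rw [incV_coe]
  · rintro ⟨y, rfl⟩
    rw [incV_coe]
    exact y.2

theorem incS_inj : Injective (incS ψ J) := incV_inj J

theorem prS_surj : Surjective (prS ψ J) := prV_surj J

theorem incS_exact : Exact (incS ψ J) (prS ψ J) := incV_exact J

theorem ann_top_le_ann_quot : Module.annihilator (S ⊗[ℤ] WittVector p C') (XS p (⊤ : Ideal C') ψ) ≤
    Module.annihilator (S ⊗[ℤ] WittVector p C') (QS ψ J) := by
  intro a ha
  rw [Module.mem_annihilator] at ha ⊢
  intro x
  obtain ⟨y, rfl⟩ := prS_surj ψ J x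
  rw [← map_smul, ha, map_zero]

/-- the Koszul homology of the quotient over `S ⊗ W(C')` and over `W(C')`. -/
theorem qs_KC (L' : AddLen (WittVector p C')) (xs : List (WittVector p C')) (i : ℕ) :
    (lenR S L').len ((KG.KC (R := S ⊗[ℤ] WittVector p C') (QS ψ J)
        (xs.map (inR S (WittVector p C')))).H i) =
      L'.len ((KG.KC (R := WittVector p C') (WittVector p C' ⧸ WI p J) xs).H i) := by
  refine len_KC_restrict _ L' (M := WittVector p C' ⧸ WI p J) (M' := QS ψ J)
    (AddEquiv.refl _) ?_ xs i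
  intro v m
  have h1 := rhoS_inR (S := S) ψ v
  change v • m = rhoS ψ (RingHom.id (WittVector p C')) (inR S (WittVector p C') v) • m
  rw [h1]

end quot

omit [CommRing S] in
theorem quot_p_regular {J : Ideal C'} (hJ : IsPerf p J) (x : WittVector p C' ⧸ WI p J)
    (hx : (p : WittVector p C') • x = 0) : x = 0 := by
  obtain ⟨w, rfl⟩ := Submodule.mkQ_surjective _ x
  rw [← map_smul] at hx
  have h1 : (p : WittVector p C') * w ∈ WI p J := (Submodule.Quotient.mk_eq_zero _).1 hx
  exact (Submodule.Quotient.mk_eq_zero _).2 (mem_of_p_mul_mem p hJ h1)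

/-- `p` is regular on the quotient. -/
theorem qs_p_regular {J : Ideal C'} (hJ : IsPerf p J) (x : QS ψ J)
    (hx : algebraMap S (S ⊗[ℤ] WittVector p C') (p : S) • x = 0) : x = 0 := by
  rw [map_natCast, qs_smul, map_natCast] at hx
  exact quot_p_regular hJ _ hx

variable {d : ℕ} {z : Fin d → S} {n : ℕ} (v : Fin n → C')

omit [CharP C' p] [PerfectRing C' p] in
/-- finiteness of the Koszul homology of the quotient. -/
theorem KC_quot_ne_top (L' : AddLen (WittVector p C')) (J : Ideal C')
    (xs : List (WittVector p C'))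
    (hmJ : ∀ i, L'.len ((KG.KC (R := WittVector p C') (WI p J) xs).H i) ≠ ⊤)
    (hmV : ∀ i, L'.len ((KG.KC (R := WittVector p C') (WittVector p C') xs).H i) ≠ ⊤) (i : ℕ) :
    L'.len ((KG.KC (R := WittVector p C') (WittVector p C' ⧸ WI p J) xs).H i) ≠ ⊤ := by
  have hex : Exact (WI p J).subtype (WI p J).mkQ := by
    rw [LinearMap.exact_iff, Submodule.ker_mkQ, Submodule.range_subtype]
  cases i with
  | zero =>
    exact ne_top_of_le_ne_top (hmV 0) (KG.KC_len_right_zero (KG.ALen.of L')
      (Submodule.injective_subtype _) (Submodule.mkQ_surjective _) hex xs)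
  | succ i =>
    exact ne_top_of_le_ne_top (ENNReal.add_ne_top.2 ⟨hmV (i + 1), hmJ i⟩)
      (KG.KC_len_right (KG.ALen.of L') (Submodule.injective_subtype _)
        (Submodule.mkQ_surjective _) hex xs i)

omit [CharP C' p] [PerfectRing C' p] in
/-- `WI ⊤ = W(C')`. -/
theorem KC_top_eq (L' : AddLen (WittVector p C')) (xs : List (WittVector p C')) (i : ℕ) :
    L'.len ((KG.KC (R := WittVector p C') (WI p (⊤ : Ideal C')) xs).H i) =
      L'.len ((KG.KC (R := WittVector p C') (WittVector p C') xs).H i) := by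
  have h1 : WI p (⊤ : Ideal C') = ⊤ := Ideal.ext fun x => ⟨fun _ => trivial, fun _ => mem_WI_top' x⟩
  exact MN.KC_len_congr (KG.ALen.of L') ((LinearEquiv.ofEq _ _ h1).trans Submodule.topEquiv) xs i

/-- the growth for the quotient, with the short list. -/
theorem qs_growth
    (hreg : ∀ t, 1 ≤ t → RingTheory.Sequence.IsWeaklyRegular S (pz (p : S) z t))
    (L' : AddLen (WittVector p C')) {J : Ideal C'} (hJ : IsPerf p J)
    (hmJ : ∀ i, L'.len ((KG.KC (R := WittVector p C') (WI p J)
      ((p : WittVector p C') :: List.ofFn fun i => teichmuller p (v i))).H i) ≠ ⊤)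
    (hmV : ∀ i, L'.len ((KG.KC (R := WittVector p C') (WittVector p C')
      ((p : WittVector p C') :: List.ofFn fun i => teichmuller p (v i))).H i) ≠ ⊤)
    (hr2 : ∀ i, ∃ m : ℕ, teichmuller p (v i) ^ m ∈
      Ideal.span (Set.range fun l => ψ (z l)) ⊔ Ideal.span {(p : WittVector p C')})
    {m : ℕ} (y : Fin m → C') (hy : ∀ j, y j ∈ Ideal.span (Set.range v)) (l : ℕ)
    (hcut : Ideal.span (Set.range v) ^ l ≤ Ideal.span (Set.range y) ⊔ J) :
    BaseGrowth (lenR S L') (p : S) z m (QS ψ J) := by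
  have hf : Module.Flat ℤ (WittVector p C') := Full.flat_int_witt p C'
  obtain ⟨ys, hlen, hfin, hrad⟩ := exists_short_list_of_cut p v y hy J l hcut L'
    (KC_quot_ne_top L' J _ hmJ hmV)
  have h1 : (ys.map (inR S (WittVector p C'))).length = m := by
    rw [List.length_map, hlen]
  have h2 := baseGrowth_of_kos (lenR S L') (QS ψ J) (p : S) z hreg (qs_p_regular ψ hJ)
    (ys.map (inR S (WittVector p C'))) ?_ ?_
  · rwa [h1] at h2
  · intro y' hy'
    obtain ⟨w, hw, rfl⟩ := List.mem_map.1 hy'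
    obtain ⟨k, hk⟩ := hrad ((Ideal.ofList (pz (p : S) z 1)).map ψ)
      (by
        rw [map_ofList_pz]
        exact Ideal.mem_sup_right (Ideal.mem_span_singleton_self _))
      (by
        rw [map_ofList_pz]
        exact hr2) w hw
    obtain ⟨l', hl'⟩ := exists_pow_one_tmul_mem p (⊤ : Ideal C') ψ
      (I := Ideal.ofList (pz (p : S) z 1)) (v := w) ⟨k, hk⟩
    exact ⟨l', (sup_le_sup_left (ann_top_le_ann_quot ψ J) _ : _ ≤ _) hl'⟩
  · intro i
    have h3 := hfin i
    rw [← qs_KC (S := S) ψ J L'] at h3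
    have h4 : algebraMap S (S ⊗[ℤ] WittVector p C') (p : S) =
        inR S (WittVector p C') (p : WittVector p C') := by
      rw [map_natCast, map_natCast]
    rw [h4, ← List.map_cons]
    exact h3

section main

variable [IsLocalRing S] [IsNoetherianRing S]
  (hmax : maximalIdeal S = Ideal.span ({(p : S)} ∪ Set.range z))
  (hreg : ∀ t, 1 ≤ t → RingTheory.Sequence.IsWeaklyRegular S (pz (p : S) z t))
  (T : Thick S d (p : S) z) (L' : AddLen (WittVector p C'))
  (hr1 : ∀ l, ∃ m : ℕ, ψ (z l) ^ m ∈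
      Ideal.ofList ((p : WittVector p C') :: List.ofFn fun i => teichmuller p (v i)))
  (hr2 : ∀ i, ∃ m : ℕ, teichmuller p (v i) ^ m ∈
      Ideal.span (Set.range fun l => ψ (z l)) ⊔ Ideal.span {(p : WittVector p C')})
  {P : Ideal S}
  (hp' : ∃ m : ℕ, (p : WittVector p C') ^ m ∈ P.map ψ)
  (hv : ∀ i, ∃ m : ℕ, teichmuller p (v i) ^ m ∈ P.map ψ)
  (N : Type u) [AddCommGroup N] [Module S N] [Module.Finite S N]
  (hN : P ≤ Module.annihilator S N)
include hmax hreg T hr1 hr2 hp' hv hN

/-- **finiteness** -/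
theorem b7_fin (J : Ideal C')
    (hmJ : ∀ i, L'.len ((KG.KC (R := WittVector p C') (WI p J)
      ((p : WittVector p C') :: List.ofFn fun i => teichmuller p (v i))).H i) ≠ ⊤)
    (hdim : ∃ a : ℕ, Module.supportDim S N ≤ a) (i : ℕ) :
    tau S (lenR S L') i N (XS p J ψ) ≠ ⊤ := by
  have hf : Module.Flat ℤ (WittVector p C') := Full.flat_int_witt p C'
  exact tau_ne_top T (xs_growth ψ v hreg L' J hmJ hr2) (xs_nilp ψ v hmax J hp' hv hr1) hdim hN i

/-- **vanishing** -/
theorem b7_vanish (J : Ideal C')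
    (hmJ : ∀ i, L'.len ((KG.KC (R := WittVector p C') (WI p J)
      ((p : WittVector p C') :: List.ofFn fun i => teichmuller p (v i))).H i) ≠ ⊤)
    (a : ℕ) (ha : Module.supportDim S N ≤ a) (had : a + n < d) (nn : ℕ)
    (hnn : tau S (lenR S L') nn N (XS p J ψ) = 0) :
    chi S (lenR S L') nn N (XS p J ψ) = 0 := by
  have hf : Module.Flat ℤ (WittVector p C') := Full.flat_int_witt p C'
  exact chi_eq_zero T (xs_growth ψ v hreg L' J hmJ hr2) (xs_nilp ψ v hmax J hp' hv hr1)
    (fun t n N _ _ h1 h2 => chi_thick (lenR S L') (T.Θ t) (T.near t) N (XS p J ψ) h1 n h2) N hN a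
    ha had nn hnn

/-- **independence of `J`** -/
theorem b7_indep {J : Ideal C'} (hJ : IsPerf p J)
    (hmJ : ∀ i, L'.len ((KG.KC (R := WittVector p C') (WI p J)
      ((p : WittVector p C') :: List.ofFn fun i => teichmuller p (v i))).H i) ≠ ⊤)
    (hmV : ∀ i, L'.len ((KG.KC (R := WittVector p C') (WittVector p C')
      ((p : WittVector p C') :: List.ofFn fun i => teichmuller p (v i))).H i) ≠ ⊤)
    {m : ℕ} (y : Fin m → C') (hy : ∀ j, y j ∈ Ideal.span (Set.range v)) (l : ℕ)
    (hcut : Ideal.span (Set.range v) ^ l ≤ Ideal.span (Set.range y) ⊔ J)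
    (a : ℕ) (ha : Module.supportDim S N ≤ a) (had : a + m < d) (nn : ℕ)
    (hnn : ∀ (X : Type u) [AddCommGroup X] [Module (S ⊗[ℤ] WittVector p C') X],
      tau S (lenR S L') nn N X = 0) :
    chi S (lenR S L') nn N (XS p J ψ) = chi S (lenR S L') nn N (XS p (⊤ : Ideal C') ψ) := by
  have hf : Module.Flat ℤ (WittVector p C') := Full.flat_int_witt p C'
  have hG := qs_growth ψ v hreg L' hJ hmJ hmV hr2 y hy l hcut
  have hX : Nilp (S ⊗[ℤ] WittVector p C') P (QS ψ J) := by
    obtain ⟨c, hc⟩ := xs_nilp ψ v hmax (⊤ : Ideal C') hp' hv hr1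
    exact ⟨c, fun s hs => (sup_le_sup_left (ann_top_le_ann_quot ψ J) _ : _ ≤ _) (hc s hs)⟩
  have h1 := tau_ne_top T hG hX ⟨a, ha⟩ hN
  have h2 : chi S (lenR S L') nn N (QS ψ J) = 0 :=
    chi_eq_zero T hG hX
      (fun t n N _ _ h1 h2 => chi_thick (lenR S L') (T.Θ t) (T.near t) N (QS ψ J) h1 n h2)
      N hN a ha had nn (hnn _)
  have h3 := chi_add_right (lenR S L') N (incS ψ J) (prS ψ J) (incS_inj ψ J) (prS_surj ψ J)
    (incS_exact ψ J) (b7_fin ψ v hmax hreg T L' hr1 hr2 hp' hv N hN J hmJ ⟨a, ha⟩) h1 nn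
    (hnn _) (hnn _) (hnn _)
  rw [h2, add_zero] at h3
  exact h3.symm

end main

end W

end Vale.Agent.P177.SL
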