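import Vale.Agent.P177.SL.ThickPS
import Vale.Agent.P177.SL.FinalB
import Vale.Agent.P177.SL.Mult

/-!
P177, block B7: the data of the power series ring `W(k)[[x_1, .., x_d]]` used in the concrete form,
as hypotheses on a general ring `S`; finiteness, vanishing and independence for such rings.
-/

namespace Vale.Agent.P177.SL

open Vale.Agent.P202.Mix Function TensorProduct IsLocalRing Vale.Agent.P177.PI WittVector
open scoped ENNReal

universe u

/-- the properties of `S = W(k)[[z_1, .., z_d]]` used for vanishing and positivity. -/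
structure PSRing (p : ℕ) (S : Type u) [CommRing S] [IsLocalRing S] {d : ℕ} (z : Fin d → S) :
    Prop where
  regular : IsRegularLocalRing S
  dim : ringKrullDim S = ((d + 1 : ℕ) : WithBot ℕ∞)
  max : maximalIdeal S = Ideal.span ({(p : S)} ∪ Set.range z)
  wreg : ∀ t, 1 ≤ t → RingTheory.Sequence.IsWeaklyRegular S (pz (p : S) z t)
  thick : ∃ (W₀ : Type u) (_ : CommRing W₀) (_ : IsDomain W₀) (_ : IsDiscreteValuationRing W₀)
    (_ : Algebra W₀ S) (T : Thick S d (p : S) z), Irreducible (p : W₀) ∧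
      (∀ t w, T.Θ t (algebraMap W₀ S w) = algebraMap S (TB S d t) (algebraMap W₀ S w)) ∧
      (∀ (s : S) (M : ℕ), ∃ q : MvPolynomial (Fin d) W₀,
        s - MvPolynomial.aeval z q ∈ Ideal.span (Set.range z) ^ M) ∧
      Surjective ((Ideal.Quotient.mk (maximalIdeal S)).comp (algebraMap W₀ S))

/-- `W(k)[[x_1, .., x_d]]`. -/
theorem psRing_sx (p : ℕ) [Fact p.Prime] (k : Type u) [Field k] [CharP k p] [PerfectRing k p]
    (d : ℕ) : PSRing p (MvPowerSeries (Fin d) (WittVector p k)) MvPowerSeries.X := by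
  obtain ⟨h0, hdim, hmax⟩ := ch_regular k p d
  have hreg := ps_reg p k d
  have hT := exists_thick p k d
  rw [map_natCast] at hT
  rw [map_natCast] at hreg
  obtain ⟨T, hΘ⟩ := hT
  refine ⟨h0, hdim, hmax, hreg, WittVector p k, inferInstance, inferInstance, inferInstance,
    inferInstance, T, WittVector.irreducible p, fun t w => hΘ t w, fun s M => ps_gen p k d s M, ?_⟩
  intro y
  obtain ⟨s, rfl⟩ := Ideal.Quotient.mk_surjective y
  refine ⟨MvPowerSeries.constantCoeff s, ?_⟩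
  change Ideal.Quotient.mk _ (MvPowerSeries.C (MvPowerSeries.constantCoeff s)) = _
  rw [Ideal.Quotient.eq, mem_maximalIdeal, mem_nonunits_iff]
  intro hu
  have h1 := hu.map (MvPowerSeries.constantCoeff (σ := Fin d) (R := WittVector p k))
  rw [map_sub, MvPowerSeries.constantCoeff_C, sub_self] at h1
  exact not_isUnit_zero h1

namespace PSRing

variable {p : ℕ} [hp : Fact p.Prime] {C' : Type u} [CommRing C'] {S : Type u} [CommRing S]
  [IsLocalRing S] {d : ℕ} {z : Fin d → S}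

theorem tau_eq_zero (h : PSRing p S z) {D : Type u} [CommRing D] [Algebra S D]
    [Module.Flat S D] (L : AddLen D) (N : Type u) [AddCommGroup N] [Module S N]
    [Module.Finite S N] (X : Type u) [AddCommGroup X] [Module D X] (n : ℕ) (hn : d + 2 ≤ n) :
    tau S L n N X = 0 := by
  have h0 := h.regular
  have := tor_vanish_baseChange (R := S) (T := D) (d + 1) N
    (fun j hj I => regular_tor_vanish _ (d + 1) h.dim N _ j hj) n (by omega) X
  exact len_subsingleton L

theorem exists_supportDim_le (h : PSRing p S z) (P : Ideal S) :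
    ∃ a : ℕ, Module.supportDim S (S ⧸ P) ≤ a := by
  refine ⟨d + 1, ?_⟩
  rw [← h.dim]
  exact Module.supportDim_le_ringKrullDim S (S ⧸ P)

variable [CharP C' p] [PerfectRing C' p] (h : PSRing p S z) (ψ : S →+* WittVector p C') {n : ℕ}
  (v : Fin n → C') (L' : AddLen (WittVector p C'))
  (hr1 : ∀ l, ∃ m : ℕ, ψ (z l) ^ m ∈
    Ideal.ofList ((p : WittVector p C') :: List.ofFn fun i => teichmuller p (v i)))
  (hr2 : ∀ i, ∃ m : ℕ, teichmuller p (v i) ^ m ∈
    Ideal.span (Set.range fun l => ψ (z l)) ⊔ Ideal.span {(p : WittVector p C')})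
include h hr1 hr2

/-- **finiteness** for `S ⧸ P`. -/
theorem fin (P : Ideal S) (hp' : ∃ m : ℕ, (p : WittVector p C') ^ m ∈ P.map ψ)
    (hv : ∀ i, ∃ m : ℕ, teichmuller p (v i) ^ m ∈ P.map ψ) (J : Ideal C')
    (hmJ : ∀ i, L'.len ((KG.KC (R := WittVector p C') (WI p J)
      ((p : WittVector p C') :: List.ofFn fun i => teichmuller p (v i))).H i) ≠ ⊤) (i : ℕ) :
    tau S (lenR S L') i (S ⧸ P) (XS p J ψ) ≠ ⊤ := by
  have h0 := h.regular
  obtain ⟨W₀, i1, i2, i3, i4, T, -⟩ := h.thick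
  exact b7_fin ψ v h.max h.wreg T L' hr1 hr2 hp' hv (S ⧸ P) (by rw [Ideal.annihilator_quotient]) J
    hmJ (h.exists_supportDim_le P) i

/-- **vanishing** for `S ⧸ P`. -/
theorem vanish (P : Ideal S) (hp' : ∃ m : ℕ, (p : WittVector p C') ^ m ∈ P.map ψ)
    (hv : ∀ i, ∃ m : ℕ, teichmuller p (v i) ^ m ∈ P.map ψ) (J : Ideal C')
    (hmJ : ∀ i, L'.len ((KG.KC (R := WittVector p C') (WI p J)
      ((p : WittVector p C') :: List.ofFn fun i => teichmuller p (v i))).H i) ≠ ⊤)
    (a : ℕ) (ha : Module.supportDim S (S ⧸ P) ≤ a) (had : a + n < d) (nn : ℕ)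
    (hnn : d + 2 ≤ nn) : chi S (lenR S L') nn (S ⧸ P) (XS p J ψ) = 0 := by
  have h0 := h.regular
  have hf : Module.Flat ℤ (WittVector p C') := Full.flat_int_witt p C'
  obtain ⟨W₀, i1, i2, i3, i4, T, -⟩ := h.thick
  exact b7_vanish ψ v h.max h.wreg T L' hr1 hr2 hp' hv (S ⧸ P)
    (by rw [Ideal.annihilator_quotient]) J hmJ a ha had
    nn (h.tau_eq_zero (lenR S L') (S ⧸ P) (XS p J ψ) nn hnn)

/-- **independence of `J`** for `S ⧸ P`. -/
theorem indep (P : Ideal S) (hp' : ∃ m : ℕ, (p : WittVector p C') ^ m ∈ P.map ψ)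
    (hv : ∀ i, ∃ m : ℕ, teichmuller p (v i) ^ m ∈ P.map ψ) {J : Ideal C'} (hJ : IsPerf p J)
    (hmJ : ∀ i, L'.len ((KG.KC (R := WittVector p C') (WI p J)
      ((p : WittVector p C') :: List.ofFn fun i => teichmuller p (v i))).H i) ≠ ⊤)
    (hmV : ∀ i, L'.len ((KG.KC (R := WittVector p C') (WittVector p C')
      ((p : WittVector p C') :: List.ofFn fun i => teichmuller p (v i))).H i) ≠ ⊤)
    {m : ℕ} (y : Fin m → C') (hy : ∀ j, y j ∈ Ideal.span (Set.range v)) (l : ℕ)
    (hcut : Ideal.span (Set.range v) ^ l ≤ Ideal.span (Set.range y) ⊔ J)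
    (a : ℕ) (ha : Module.supportDim S (S ⧸ P) ≤ a) (had : a + m < d) (nn : ℕ)
    (hnn : d + 2 ≤ nn) :
    chi S (lenR S L') nn (S ⧸ P) (XS p J ψ) =
      chi S (lenR S L') nn (S ⧸ P) (XS p (⊤ : Ideal C') ψ) := by
  have h0 := h.regular
  have hf : Module.Flat ℤ (WittVector p C') := Full.flat_int_witt p C'
  obtain ⟨W₀, i1, i2, i3, i4, T, -⟩ := h.thick
  exact b7_indep ψ v h.max h.wreg T L' hr1 hr2 hp' hv (S ⧸ P)
    (by rw [Ideal.annihilator_quotient]) hJ hmJ hmV y hy l hcut a ha had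
    nn (fun X _ _ => h.tau_eq_zero (lenR S L') (S ⧸ P) X nn hnn)

end PSRing

end Vale.Agent.P177.SL
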