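import Vale.Agent.P177.SopReg
import Vale.Agent.P177.CPrime
import Vale.Agent.P177.RegularLocalization

/-!
Generic complete intersections inside a prime ideal of a regular local ring.
-/

set_option linter.all false

namespace Vale.Agent.P177.SL

open IsLocalRing RingTheory.Sequence Function

universe u

theorem sdq_eq {R : Type u} [CommRing R] (P : Ideal R) :
    Module.supportDim R (R ⧸ P) = ringKrullDim (R ⧸ P) := by
  rw [Module.supportDim_eq_ringKrullDim_quotient_annihilator, Ideal.annihilator_quotient]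

section cut

variable {T : Type u} [CommRing T] [IsNoetherianRing T] [IsLocalRing T]

/-- Prime avoidance with one additional arbitrary ideal. -/
theorem exists_cut_notMem (P X : Ideal T) (hX : ¬ (P ≤ X)) (J : Ideal T) (n : ℕ)
    (hJ : Module.supportDim T (T ⧸ J) ≤ ((n + 1 : ℕ) : WithBot ℕ∞))
    (hrad : maximalIdeal T ≤ (J ⊔ P).radical) :
    ∃ z ∈ P, z ∉ X ∧
      Module.supportDim T (T ⧸ (J ⊔ Ideal.span {z})) ≤ (n : WithBot ℕ∞) := by
  classical
  have hfin : J.minimalPrimes.Finite := Ideal.finite_minimalPrimes_of_isNoetherianRing T J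
  let F : Set (Ideal T) := {q ∈ J.minimalPrimes | q ≠ maximalIdeal T}
  have hF : F.Finite := hfin.subset fun q hq => hq.1
  have hFp : ∀ q ∈ F, q.IsPrime ∧ ¬ (P ≤ q) := by
    rintro q ⟨hq1, hq2⟩
    have hqp : q.IsPrime := hq1.1.1
    refine ⟨hqp, fun hle => ?_⟩
    apply hq2
    apply le_antisymm (le_maximalIdeal hqp.ne_top)
    refine hrad.trans ?_
    rw [hqp.radical_le_iff]
    exact sup_le hq1.1.2 hle
  have hF'fin : (insert X F).Finite := hF.insert X
  have hnot : ¬ ((P : Set T) ⊆ ⋃ q ∈ insert X F, (q : Set T)) := by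
    intro hsub
    obtain ⟨q, hq, hle⟩ := (Ideal.subset_union_prime_finite hF'fin (f := id) X X (by
      intro q hq h1 _
      rcases hq with rfl | hq
      · exact absurd rfl h1
      · exact (hFp q hq).1)).1 hsub
    rcases hq with rfl | hq
    · exact hX hle
    · exact (hFp q hq).2 hle
  rw [Set.not_subset] at hnot
  obtain ⟨z, hz, hzn⟩ := hnot
  have hzn' : ∀ q ∈ insert X F, z ∉ q := by
    intro q hq hzq
    apply hzn
    simp only [Set.mem_iUnion]
    exact ⟨q, hq, hzq⟩
  refine ⟨z, hz, hzn' X (Set.mem_insert _ _), ?_⟩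
  by_contra hcon
  rw [not_le] at hcon
  obtain ⟨q, hq1, hq2, hq3⟩ := exists_prime_supportDim _ _ (succ_le_of_lt_withBot hcon)
  obtain ⟨Q, hQ, hQq⟩ := Ideal.exists_minimalPrimes_le (le_sup_left.trans hq2)
  have hQp : Q.IsPrime := hQ.1.1
  by_cases hQm : Q = maximalIdeal T
  · have hqm : q = maximalIdeal T := le_antisymm (le_maximalIdeal hq1.ne_top) (hQm ▸ hQq)
    obtain ⟨q', h1, h2, h3⟩ := exists_gt_prime q n hq3
    rw [hqm] at h2
    exact absurd (le_maximalIdeal h1.ne_top) (not_le_of_gt h2)
  · have hzQ : z ∉ Q := hzn' _ (Or.inr ⟨hQ, hQm⟩)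
    have hlt : Q < q := by
      refine lt_of_le_of_ne hQq ?_
      rintro rfl
      apply hzQ
      exact hq2 (Ideal.mem_sup_right (Ideal.mem_span_singleton_self _))
    have h4 := (supportDim_quotient_strict hlt (n + 1) hq3).trans
      ((supportDim_quotient_mono hQ.1.2).trans hJ)
    have h5 : n + 1 + 1 ≤ n + 1 := by exact_mod_cast h4
    omega

end cut

section cot

variable {R : Type u} [CommRing R] (P : Ideal R) (S : Type u) [CommRing S] [Algebra R S]
  [IsLocalRing S]

/-- The span in the cotangent space of the images of a list of elements of `P`. -/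
noncomputable def cotSpan (hP : P.map (algebraMap R S) ≤ maximalIdeal S) (fs : List R) :
    Submodule (ResidueField S) (CotangentSpace S) :=
  Submodule.span (ResidueField S) {w | ∃ x ∈ fs, ∃ hx : x ∈ P,
    w = (maximalIdeal S).toCotangent ⟨algebraMap R S x, hP (Ideal.mem_map_of_mem _ hx)⟩}

theorem cotSpan_mono (hP : P.map (algebraMap R S) ≤ maximalIdeal S) {fs gs : List R}
    (h : ∀ x ∈ fs, x ∈ gs) : cotSpan P S hP fs ≤ cotSpan P S hP gs := by
  refine Submodule.span_mono ?_
  rintro w ⟨x, hx, hxP, rfl⟩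
  exact ⟨x, h x hx, hxP, rfl⟩

/-- Lifting of membership. -/
theorem mem_of_mem_cotSpan (hP : P.map (algebraMap R S) ≤ maximalIdeal S) (fs : List R)
    (g : maximalIdeal S) (hg : (maximalIdeal S).toCotangent g ∈ cotSpan P S hP fs) :
    (g : S) ∈ (Ideal.ofList fs).map (algebraMap R S) ⊔ maximalIdeal S ^ 2 := by
  have key : ∀ v ∈ cotSpan P S hP fs, ∃ y : maximalIdeal S,
      (y : S) ∈ (Ideal.ofList fs).map (algebraMap R S) ⊔ maximalIdeal S ^ 2 ∧
        (maximalIdeal S).toCotangent y = v := by
    intro v hv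
    unfold cotSpan at hv
    induction hv using Submodule.span_induction with
    | mem w hw =>
      obtain ⟨x, hx, hxP, rfl⟩ := hw
      exact ⟨⟨algebraMap R S x, hP (Ideal.mem_map_of_mem _ hxP)⟩,
        Ideal.mem_sup_left (Ideal.mem_map_of_mem _ (Ideal.subset_span hx)), rfl⟩
    | zero => exact ⟨0, Submodule.zero_mem _, map_zero _⟩
    | add v w _ _ hv hw =>
      obtain ⟨y, hy, rfl⟩ := hv
      obtain ⟨z, hz, rfl⟩ := hw
      exact ⟨y + z, Submodule.add_mem _ hy hz, map_add _ _ _⟩
    | smul a v _ hv =>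
      obtain ⟨y, hy, rfl⟩ := hv
      obtain ⟨s, rfl⟩ := IsLocalRing.residue_surjective a
      exact ⟨s • y, Ideal.mul_mem_left _ s hy, (map_smul _ _ _)⟩
  obtain ⟨y, hy, hyg⟩ := key _ hg
  rw [← sub_eq_zero, ← map_sub, Ideal.toCotangent_eq_zero] at hyg
  have h1 : (g : S) = (y : S) - ((y - g : maximalIdeal S) : S) := by
    simp
  rw [h1]
  exact Submodule.sub_mem _ hy (Ideal.mem_sup_right hyg)

/-- Nakayama. -/
theorem le_of_le_sup_sq [IsNoetherianRing S] (J : Ideal S)
    (h : maximalIdeal S ≤ J ⊔ maximalIdeal S ^ 2) : maximalIdeal S ≤ J := by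
  refine Submodule.le_of_le_smul_of_le_jacobson_bot (I := maximalIdeal S)
    ((maximalIdeal S).fg_of_isNoetherianRing) ?_ ?_
  · rw [IsLocalRing.jacobson_eq_maximalIdeal _ bot_ne_top]
  · rwa [smul_eq_mul, ← pow_two]

end cot

/-- From an inclusion after localization to a common denominator. -/
theorem exists_denominator {R : Type u} [CommRing R] [IsNoetherianRing R] (P I : Ideal R)
    [hP : P.IsPrime] (S : Type u) [CommRing S] [Algebra R S] [IsLocalization.AtPrime S P]
    (h : P.map (algebraMap R S) ≤ I.map (algebraMap R S)) :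
    ∃ s, s ∉ P ∧ ∀ x ∈ P, s * x ∈ I := by
  classical
  obtain ⟨G, hG⟩ := (IsNoetherian.noetherian P : P.FG)
  have h1 : ∀ x ∈ P, ∃ s, s ∉ P ∧ s * x ∈ I := by
    intro x hx
    obtain ⟨m, hm, hmx⟩ := (IsLocalization.algebraMap_mem_map_algebraMap_iff P.primeCompl S I x).1
      (h (Ideal.mem_map_of_mem _ hx))
    exact ⟨m, hm, hmx⟩
  choose! s hs hsx using h1
  have hGP : ∀ x ∈ G, x ∈ P := fun x hx => by
    rw [← hG]
    exact Submodule.subset_span hx
  refine ⟨∏ x ∈ G, s x, fun hmem => ?_, fun x hx => ?_⟩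
  · obtain ⟨x, hx, hxP⟩ := (Ideal.IsPrime.prod_mem_iff).1 hmem
    exact hs x (hGP x hx) hxP
  · rw [← hG] at hx
    induction hx using Submodule.span_induction with
    | mem y hy =>
      rw [← Finset.mul_prod_erase G s hy]
      have := hsx y (hGP y hy)
      have h2 : s y * (∏ x ∈ G.erase y, s x) * y = (∏ x ∈ G.erase y, s x) * (s y * y) := by ring
      rw [h2]
      exact Ideal.mul_mem_left _ _ this
    | zero => rw [mul_zero]; exact I.zero_mem
    | add y z _ _ hy hz => rw [mul_add]; exact I.add_mem hy hz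
    | smul a y _ hy =>
      rw [smul_eq_mul, mul_left_comm]
      exact Ideal.mul_mem_left _ _ hy

/-- Generic complete intersections in a prime ideal. -/
theorem exists_generic_ci {R : Type u} [CommRing R] [IsRegularLocalRing R] (P : Ideal R)
    [hP : P.IsPrime] (hs : List R) (hhs : ∀ h ∈ hs, h ∈ maximalIdeal R) (a b d : ℕ)
    (hd : ringKrullDim R = d) (ha : ringKrullDim (R ⧸ P) = a) (hl : hs.length = a)
    (hab : a + b = d) (hm : maximalIdeal R ≤ (P ⊔ Ideal.ofList hs).radical)
    (hdim : ringKrullDim (R ⧸ Ideal.ofList hs) ≤ (b : WithBot ℕ∞)) :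
    ∃ fs : List R, fs.length = b ∧ (∀ f ∈ fs, f ∈ P) ∧
      maximalIdeal R ≤ (Ideal.ofList fs ⊔ Ideal.ofList hs).radical ∧
      IsRegular R fs ∧ ∃ s, s ∉ P ∧ ∀ x ∈ P, s * x ∈ Ideal.ofList fs := by
  classical
  let S := Localization.AtPrime P
  have hSreg : IsRegularLocalRing S := isRegularLocalRing_localization R P S
  have hPS : P.map (algebraMap R S) = maximalIdeal S :=
    IsLocalization.AtPrime.map_eq_maximalIdeal P S
  have hPS' : P.map (algebraMap R S) ≤ maximalIdeal S := hPS.le
  -- the dimension of the localization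
  have hfin : Module.finrank (ResidueField S) (CotangentSpace S) ≤ b := by
    have h1 := (IsRegularLocalRing.iff_finrank_cotangentSpace S).1 hSreg
    have h2 : ringKrullDim S = P.height := IsLocalization.AtPrime.ringKrullDim_eq_height P S
    rw [h2] at h1
    have h3 : ((Module.finrank (ResidueField S) (CotangentSpace S) : ℕ) : ℕ∞) ≤ P.height := by
      exact_mod_cast h1.le
    have h4 := height_add_le (T := R) (P := P) _ a h3 (by
      rw [sdq_eq, ha])
    rw [hd] at h4
    have h5 : Module.finrank (ResidueField S) (CotangentSpace S) + a ≤ d := by exact_mod_cast h4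
    omega
  have key : ∀ i : ℕ, i ≤ b → ∃ fs : List R, fs.length = i ∧ (∀ f ∈ fs, f ∈ P) ∧
      Module.supportDim R (R ⧸ (Ideal.ofList hs ⊔ Ideal.ofList fs)) ≤
        ((b - i : ℕ) : WithBot ℕ∞) ∧
      (maximalIdeal S ≤ (Ideal.ofList fs).map (algebraMap R S) ∨
        i ≤ Module.finrank (ResidueField S) (cotSpan P S hPS' fs)) := by
    intro i
    induction i with
    | zero =>
      intro _
      refine ⟨[], rfl, by simp, ?_, Or.inr (Nat.zero_le _)⟩
      rw [Ideal.ofList_nil, sup_bot_eq, sdq_eq]
      exact hdim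
    | succ i ih =>
      intro hi
      obtain ⟨fs, hlen, hfs, hsd, hcase⟩ := ih (by omega)
      have hrad : maximalIdeal R ≤ (Ideal.ofList hs ⊔ Ideal.ofList fs ⊔ P).radical :=
        hm.trans (Ideal.radical_mono (sup_le le_sup_right (le_sup_left.trans le_sup_left)))
      have hsd' : Module.supportDim R (R ⧸ (Ideal.ofList hs ⊔ Ideal.ofList fs)) ≤
          ((b - (i + 1) + 1 : ℕ) : WithBot ℕ∞) := by
        rwa [show b - (i + 1) + 1 = b - i by omega]
      have hof : ∀ z : R, Ideal.ofList (fs ++ [z]) = Ideal.ofList fs ⊔ Ideal.span {z} := fun z => by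
        rw [Ideal.ofList_append, Ideal.ofList_singleton]
      by_cases hA : maximalIdeal S ≤ (Ideal.ofList fs).map (algebraMap R S)
      · obtain ⟨z, hz, -, hzd⟩ := exists_cut (R := R) (T := R) P ∅ Set.finite_empty (by simp)
          (Ideal.ofList hs ⊔ Ideal.ofList fs) (b - (i + 1)) hsd' (by
            rw [Algebra.algebraMap_self, Ideal.map_id]
            exact hrad)
        refine ⟨fs ++ [z], by simp [hlen], ?_, ?_, Or.inl ?_⟩
        · intro y hy
          rw [List.mem_append, List.mem_singleton] at hy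
          rcases hy with hy | rfl
          · exact hfs y hy
          · exact hz
        · rw [hof, ← sup_assoc]
          exact hzd
        · rw [hof]
          exact hA.trans (Ideal.map_mono le_sup_left)
      · have hi' : i ≤ Module.finrank (ResidueField S) (cotSpan P S hPS' fs) :=
          hcase.resolve_left hA
        let X : Ideal R := ((Ideal.ofList fs).map (algebraMap R S) ⊔ maximalIdeal S ^ 2).comap
          (algebraMap R S)
        have hX : ¬ (P ≤ X) := by
          intro hle
          apply hA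
          refine le_of_le_sup_sq S _ ?_
          rw [← hPS]
          refine (Ideal.map_le_iff_le_comap.2 hle).trans (le_of_eq ?_)
          rw [hPS]
        obtain ⟨z, hz, hzX, hzd⟩ := exists_cut_notMem P X hX
          (Ideal.ofList hs ⊔ Ideal.ofList fs) (b - (i + 1)) hsd' hrad
        refine ⟨fs ++ [z], by simp [hlen], ?_, ?_, Or.inr ?_⟩
        · intro y hy
          rw [List.mem_append, List.mem_singleton] at hy
          rcases hy with hy | rfl
          · exact hfs y hy
          · exact hz
        · rw [hof, ← sup_assoc]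
          exact hzd
        · have hlt : cotSpan P S hPS' fs < cotSpan P S hPS' (fs ++ [z]) := by
            refine lt_of_le_of_ne (cotSpan_mono P S hPS' fun x hx => List.mem_append_left _ hx) ?_
            intro heq
            apply hzX
            refine mem_of_mem_cotSpan P S hPS' fs ⟨algebraMap R S z, hPS' (Ideal.mem_map_of_mem _ hz)⟩ ?_
            rw [heq]
            exact Submodule.subset_span ⟨z, by simp, hz, rfl⟩
          exact hi'.trans_lt (Submodule.finrank_lt_finrank_of_lt hlt)
  obtain ⟨fs, hlen, hfs, hsd, hcase⟩ := key b le_rfl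
  have hgen : maximalIdeal S ≤ (Ideal.ofList fs).map (algebraMap R S) := by
    rcases hcase with h | h
    · exact h
    · have htop : cotSpan P S hPS' fs = ⊤ := by
        apply Submodule.eq_top_of_finrank_eq
        exact le_antisymm (Submodule.finrank_le _) (hfin.trans h)
      refine le_of_le_sup_sq S _ fun g hg => ?_
      refine mem_of_mem_cotSpan P S hPS' fs ⟨g, hg⟩ ?_
      rw [htop]
      trivial
  have hrad : maximalIdeal R ≤ (Ideal.ofList fs ⊔ Ideal.ofList hs).radical := by
    apply maximalIdeal_le_radical_of_supportDim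
    rw [sup_comm]
    rw [Nat.sub_self] at hsd
    exact hsd
  have hfm : ∀ f ∈ fs, f ∈ maximalIdeal R := fun f hf => le_maximalIdeal hP.ne_top (hfs f hf)
  refine ⟨fs, hlen, hfs, hrad, ⟨?_, ?_⟩, ?_⟩
  · have h1 := SR.isWeaklyRegular_of_sop hd (fs ++ hs) (by rw [List.length_append]; omega) (by
      intro z hz
      rw [List.mem_append] at hz
      rcases hz with hz | hz
      · exact hfm z hz
      · exact hhs z hz) (by rw [Ideal.ofList_append]; exact hrad)
    rw [isWeaklyRegular_append_iff] at h1
    exact h1.1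
  · intro htop
    have h2 : Ideal.ofList fs ≤ maximalIdeal R := Ideal.span_le.2 hfm
    have h3 : (1 : R) ∈ (Ideal.ofList fs • ⊤ : Submodule R R) := htop ▸ trivial
    rw [smul_eq_mul, Ideal.mul_top] at h3
    exact (maximalIdeal.isMaximal R).ne_top (Ideal.eq_top_of_isUnit_mem _ (h2 h3) isUnit_one)
  · exact exists_denominator P (Ideal.ofList fs) S (hPS.le.trans hgen)

/-- The version for a regular sequence `hs`. -/
theorem exists_generic_ci_of_regular {R : Type u} [CommRing R] [IsRegularLocalRing R] (P : Ideal R)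
    [hP : P.IsPrime] (hs : List R) (hhs : ∀ h ∈ hs, h ∈ maximalIdeal R) (a b d : ℕ)
    (hd : ringKrullDim R = d) (ha : ringKrullDim (R ⧸ P) = a) (hl : hs.length = a)
    (hab : a + b = d) (hm : maximalIdeal R ≤ (P ⊔ Ideal.ofList hs).radical)
    (hreg : IsWeaklyRegular R hs) :
    ∃ fs : List R, fs.length = b ∧ (∀ f ∈ fs, f ∈ P) ∧
      maximalIdeal R ≤ (Ideal.ofList fs ⊔ Ideal.ofList hs).radical ∧
      IsRegular R fs ∧ ∃ s, s ∉ P ∧ ∀ x ∈ P, s * x ∈ Ideal.ofList fs := by
  refine exists_generic_ci P hs hhs a b d hd ha hl hab hm ?_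
  have h1 := supportDim_quot_of_weaklyRegular hd hs hhs hreg
  rw [← sdq_eq]
  have h2 : (Ideal.ofList hs • ⊤ : Submodule R R) = Ideal.ofList hs := by
    rw [smul_eq_mul, Ideal.mul_top]
  rw [h2] at h1
  rw [h1, hl, show d - a = b by omega]

end Vale.Agent.P177.SL
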