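import Vale.Agent.P177.SL.Tau

/-!
Growth of subadditive functions with a step bound.
-/

namespace Vale.Agent.P177.SL

open Function IsLocalRing Pointwise
open scoped ENNReal

universe u

/-- A subadditive function on modules over `S`, with the growth step `τ N ≤ m * τ (N / s N)` for
finite modules `N` killed by `I` and `s` in the maximal ideal, regular on `N`. -/
structure GrowthFn (S : Type u) [CommRing S] [IsLocalRing S] (I : Ideal S) (m : ℝ≥0∞) where
  τ : ∀ (N : Type u) [AddCommGroup N] [Module S N], ℝ≥0∞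
  zero : ∀ (N : Type u) [AddCommGroup N] [Module S N] [Subsingleton N], τ N = 0
  sub : ∀ {N' N N'' : Type u} [AddCommGroup N'] [Module S N'] [AddCommGroup N] [Module S N]
    [AddCommGroup N''] [Module S N''] [Module.Finite S N'] [Module.Finite S N]
    [Module.Finite S N''] (f : N' →ₗ[S] N) (g : N →ₗ[S] N''), Injective f → Surjective g →
      Exact f g → I ≤ Module.annihilator S N → τ N ≤ τ N' + τ N''
  step : ∀ {N N'' : Type u} [AddCommGroup N] [Module S N] [AddCommGroup N''] [Module S N'']
    [Module.Finite S N] [Module.Finite S N''] (s : S) (f : N →ₗ[S] N) (g : N →ₗ[S] N''),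
      s ∈ maximalIdeal S → (∀ n, f n = s • n) → Injective f → Surjective g → Exact f g →
      I ≤ Module.annihilator S N → τ N ≤ m * τ N''

theorem GrowthFn.congr_le {S : Type u} [CommRing S] [IsLocalRing S] {I : Ideal S} {m : ℝ≥0∞} (G : GrowthFn S I m) {N N' : Type u}
    [AddCommGroup N] [Module S N] [AddCommGroup N'] [Module S N'] [Module.Finite S N]
    [Module.Finite S N'] (e : N ≃ₗ[S] N') (h : I ≤ Module.annihilator S N') :
    G.τ N' ≤ G.τ N := by
  have h1 := G.sub (e : N →ₗ[S] N') (0 : N' →ₗ[S] PUnit.{u + 1}) e.injective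
    (fun y => ⟨0, Subsingleton.elim _ _⟩)
    (fun y => ⟨fun _ => ⟨e.symm y, by simp⟩, fun _ => Subsingleton.elim _ _⟩) h
  rwa [G.zero PUnit, add_zero] at h1

variable {S : Type u} [CommRing S]

/-- multiplication by an element outside of a prime, as a short exact sequence. -/
theorem ses_quot_prime (P : Ideal S) [P.IsPrime] (s : S) (hs : s ∉ P) :
    Injective (LinearMap.lsmul S (S ⧸ P) s) ∧
      Surjective (Submodule.mkQ (s • (⊤ : Submodule S (S ⧸ P)))) ∧
      Exact (LinearMap.lsmul S (S ⧸ P) s) (Submodule.mkQ (s • (⊤ : Submodule S (S ⧸ P)))) := by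
  refine ⟨?_, Submodule.mkQ_surjective _, ?_⟩
  · rw [injective_iff_map_eq_zero]
    intro a ha
    obtain ⟨a, rfl⟩ := Ideal.Quotient.mk_surjective a
    have h1 : Ideal.Quotient.mk P (s * a) = 0 := ha
    rw [Ideal.Quotient.eq_zero_iff_mem] at h1 ⊢
    exact (Ideal.IsPrime.mem_or_mem ‹_› h1).resolve_left hs
  · intro y
    rw [Submodule.mkQ_apply, Submodule.Quotient.mk_eq_zero,
      Submodule.mem_smul_pointwise_iff_exists]
    simp

theorem le_of_equiv_quot {I : Ideal S} {N : Type u} [AddCommGroup N] [Module S N]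
    (hI : I ≤ Module.annihilator S N) (P : Ideal S) (e : N ≃ₗ[S] S ⧸ P) : I ≤ P := by
  intro a ha
  have h1 := Module.mem_annihilator.1 (hI ha) (e.symm (Ideal.Quotient.mk P 1))
  rw [← map_smul, LinearEquiv.map_eq_zero_iff] at h1
  rw [← Ideal.Quotient.eq_zero_iff_mem, ← h1, Algebra.smul_def, map_one, mul_one]
  rfl

theorem le_annihilator_quot {I P : Ideal S} (h : I ≤ P) : I ≤ Module.annihilator S (S ⧸ P) := by
  rwa [Ideal.annihilator_quotient]

theorem dim_quot [IsLocalRing S] [IsNoetherianRing S] (P : Ideal S) [P.IsPrime] (s : S) (hs : s ∉ P)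
    (hsm : s ∈ maximalIdeal S) : Module.supportDim S (QuotSMulTop s (S ⧸ P)) + 1 =
      Module.supportDim S (S ⧸ P) := by
  refine Module.supportDim_quotSMulTop_succ_eq_supportDim ?_ hsm
  exact (ses_quot_prime P s hs).1

/-- The growth lemma: the constant only depends on `N`. -/
theorem growth [IsLocalRing S] [IsNoetherianRing S] (I : Ideal S) (D : ℕ) (N : Type u) [AddCommGroup N]
    [Module S N] [hN : Module.Finite S N] (hI : I ≤ Module.annihilator S N)
    (hD : Module.supportDim S N ≤ D) :
    ∃ C : ℕ, ∀ (m : ℝ≥0∞) (_ : 1 ≤ m) (G : GrowthFn S I m),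
      G.τ N ≤ C * m ^ D * G.τ (S ⧸ maximalIdeal S) := by
  induction D generalizing N with
  | zero =>
    induction hN using IsNoetherianRing.induction_on_isQuotientEquivQuotientPrime S with
    | subsingleton N =>
      exact ⟨0, fun m _ G => by rw [G.zero N]; exact zero_le⟩
    | quotient N P e =>
      have hIP := le_of_equiv_quot hI P.1 e
      by_cases hP : P.1 = maximalIdeal S
      · refine ⟨1, fun m _ G => ?_⟩
        rw [pow_zero, Nat.cast_one, one_mul, one_mul]
        exact G.congr_le (e ≪≫ₗ Submodule.quotEquivOfEq _ _ hP).symm hI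
      · exfalso
        have hlt : P.1 < maximalIdeal S := lt_of_le_of_ne (le_maximalIdeal P.2.ne_top) hP
        obtain ⟨x, hxm, hxP⟩ := SetLike.exists_of_lt hlt
        have h1 := dim_quot P.1 x hxP hxm
        rw [Module.supportDim_eq_of_equiv e, ← h1, Nat.cast_zero,
          ENat.WithBot.add_one_le_zero_iff] at hD
        rw [hD, WithBot.bot_add] at h1
        exact (Module.supportDim_ne_bot_of_nontrivial S (S ⧸ P.1)) h1.symm
    | exact N' N N'' f g hf hg h h1 h2 =>
      obtain ⟨C1, hC1⟩ := h1 (hI.trans (LinearMap.annihilator_le_of_injective f hf))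
        ((Module.supportDim_le_of_injective f hf).trans hD)
      obtain ⟨C2, hC2⟩ := h2 (hI.trans (LinearMap.annihilator_le_of_surjective g hg))
        ((Module.supportDim_le_of_surjective g hg).trans hD)
      refine ⟨C1 + C2, fun m hm G => (G.sub f g hf hg h hI).trans ?_⟩
      rw [Nat.cast_add, add_mul, add_mul]
      exact add_le_add (hC1 m hm G) (hC2 m hm G)
  | succ D ih =>
    induction hN using IsNoetherianRing.induction_on_isQuotientEquivQuotientPrime S with
    | subsingleton N =>
      exact ⟨0, fun m _ G => by rw [G.zero N]; exact zero_le⟩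
    | quotient N P e =>
      have hIP := le_of_equiv_quot hI P.1 e
      by_cases hP : P.1 = maximalIdeal S
      · refine ⟨1, fun m hm G => ?_⟩
        rw [Nat.cast_one, one_mul]
        refine (G.congr_le (e ≪≫ₗ Submodule.quotEquivOfEq _ _ hP).symm hI).trans ?_
        calc G.τ (S ⧸ maximalIdeal S) = 1 * G.τ (S ⧸ maximalIdeal S) := (one_mul _).symm
          _ ≤ m ^ (D + 1) * G.τ (S ⧸ maximalIdeal S) := by
            gcongr
            exact one_le_pow₀ hm
      · have hlt : P.1 < maximalIdeal S := lt_of_le_of_ne (le_maximalIdeal P.2.ne_top) hP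
        obtain ⟨x, hxm, hxP⟩ := SetLike.exists_of_lt hlt
        obtain ⟨k1, k2, k3⟩ := ses_quot_prime P.1 x hxP
        have h1 := dim_quot P.1 x hxP hxm
        have h5 : Module.supportDim S (QuotSMulTop x (S ⧸ P.1)) ≤ D := by
          rw [Module.supportDim_eq_of_equiv e, ← h1] at hD
          have h6 : Module.supportDim S (QuotSMulTop x (S ⧸ P.1)) + 1 ≤
            ((D : WithBot ℕ∞) + 1) := by exact_mod_cast hD
          exact ENat.WithBot.add_le_add_one_right_iff.1 h6
        obtain ⟨C, hC⟩ := ih (QuotSMulTop x (S ⧸ P.1)) ((le_annihilator_quot hIP).trans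
          (LinearMap.annihilator_le_of_surjective _ k2)) h5
        refine ⟨C, fun m hm G => ?_⟩
        refine (G.congr_le e.symm hI).trans ?_
        refine (G.step x _ _ hxm (fun n => rfl) k1 k2 k3 (le_annihilator_quot hIP)).trans ?_
        calc m * G.τ (QuotSMulTop x (S ⧸ P.1)) ≤
            m * (C * m ^ D * G.τ (S ⧸ maximalIdeal S)) := by
              gcongr
              exact hC m hm G
          _ = C * m ^ (D + 1) * G.τ (S ⧸ maximalIdeal S) := by ring
    | exact N' N N'' f g hf hg h h1 h2 =>
      obtain ⟨C1, hC1⟩ := h1 (hI.trans (LinearMap.annihilator_le_of_injective f hf))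
        ((Module.supportDim_le_of_injective f hf).trans hD)
      obtain ⟨C2, hC2⟩ := h2 (hI.trans (LinearMap.annihilator_le_of_surjective g hg))
        ((Module.supportDim_le_of_surjective g hg).trans hD)
      refine ⟨C1 + C2, fun m hm G => (G.sub f g hf hg h hI).trans ?_⟩
      rw [Nat.cast_add, add_mul, add_mul]
      exact add_le_add (hC1 m hm G) (hC2 m hm G)

end Vale.Agent.P177.SL
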