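import Vale.Agent.P177.TH.Supply
import Vale.Agent.P177.Nat.HMod
import Vale.Agent.P177.SL.Chi

/-!
# Euler characteristics over `R = S / E` from Euler characteristics over `S`

`D → B = D / E` a hypersurface, `D` an `S`-algebra, `B` an `R`-algebra, `X` a `D`-module on which
`E` is regular, `Z = X / E X`, `A` an `R`-module: `Tor^D(X, D ⊗[S] A) = Tor^B(Z, B ⊗[R] A)`.
-/

namespace Vale.Agent.P177.SL

open Vale.Agent.P202.Mix Function TensorProduct Vale.Agent.P177.TH
open scoped ENNReal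

universe u

section general

variable {S R D B : Type u} [CommRing S] [CommRing R] [CommRing D] [CommRing B]

/-- `X → X / α X` is a base change along `D → D / α`. -/
theorem hyper_isBaseChange [Algebra D B] {α : D} (H : IsHypersurface D B α) {X Z : Type u}
    [AddCommGroup X] [Module D X] [AddCommGroup Z] [Module D Z] [Module B Z] [IsScalarTower D B Z]
    (χ : X →ₗ[D] Z) (hs : Surjective χ) (hk : ∀ x, χ x = 0 → ∃ y, x = α • y) :
    IsBaseChange B χ := by
  let g : B ⊗[D] X →ₗ[B] Z := χ.liftBaseChange B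
  have hg : ∀ x : X, g ((1 : B) ⊗ₜ[D] x) = χ x := fun x => by
    rw [LinearMap.liftBaseChange_tmul, one_smul]
  have hb : Bijective g := by
    constructor
    · rw [injective_iff_map_eq_zero]
      intro z hz
      obtain ⟨x, rfl⟩ := H.one_tmul_surj z
      rw [hg] at hz
      obtain ⟨y, rfl⟩ := hk x hz
      exact H.smul_tmul_one y
    · intro z
      obtain ⟨x, rfl⟩ := hs z
      exact ⟨(1 : B) ⊗ₜ[D] x, hg x⟩
  exact IsBaseChange.of_equiv (LinearEquiv.ofBijective g hb) hg

variable [Algebra S R] [Algebra S D] [Algebra D B] [Algebra S B] [Algebra R B]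
  [IsScalarTower S D B] [IsScalarTower S R B] {E : S}

/-- `D ⊗[S] A = B ⊗[R] A`. -/
theorem hyper_tensor_equiv (H : IsHypersurface D B (algebraMap S D E))
    (hR : Surjective (algebraMap S R)) (hE : algebraMap S R E = 0)
    (A : Type u) [AddCommGroup A] [Module S A] [Module R A] [IsScalarTower S R A] :
    ∃ e : D ⊗[S] A ≃+ B ⊗[R] A, ∀ (d : D) (x : D ⊗[S] A), e (d • x) = algebraMap D B d • e x := by
  obtain ⟨e1⟩ := exists_toB_equiv H A (fun x => by rw [← algebraMap_smul R, hE, zero_smul])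
  have c1 : TensorProduct.CompatibleSMul S R B A :=
    TensorProduct.CompatibleSMul.of_algebraMap_surjective B A hR
  let e2 : B ⊗[R] A ≃ₗ[B] B ⊗[S] A := TensorProduct.equivOfCompatibleSMul S R B B A
  refine ⟨e1.toAddEquiv.trans e2.symm.toAddEquiv, fun d x => ?_⟩
  change e2.symm (e1 (d • x)) = algebraMap D B d • e2.symm (e1 x)
  rw [map_smul, ← map_smul e2.symm, algebraMap_smul]

/-- **Tor over `S` and over `R = S / E`**, with an opaque module. -/
theorem len_tor_hyper_aux (L : AddLen D) (H : IsHypersurface D B (algebraMap S D E))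
    (hR : Surjective (algebraMap S R)) (hE : algebraMap S R E = 0)
    {X Z : Type u} [AddCommGroup X] [Module D X] [AddCommGroup Z] [Module D Z] [Module B Z]
    [IsScalarTower D B Z] (χ : X →ₗ[D] Z) (hs : Surjective χ)
    (hk : ∀ x, χ x = 0 → ∃ y, x = algebraMap S D E • y)
    (hX : IsSMulRegular X (algebraMap S D E)) (n : ℕ)
    (A : Type u) [AddCommGroup A] [Module S A] [Module R A] [IsScalarTower S R A]
    (N : Type u) [AddCommGroup N] [Module B N] (eN : B ⊗[R] A ≃ₗ[B] N) :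
    L.len (TorM D n X (D ⊗[S] A)) =
      (L.restrict (algebraMap D B)).len (TorM B n Z N) := by
  obtain ⟨e, he⟩ := hyper_tensor_equiv H hR hE A
  let iD : Module D N := Module.compHom N (algebraMap D B)
  have tD : IsScalarTower D B N := IsScalarTower.of_algebraMap_smul fun _ _ => rfl
  let e' : D ⊗[S] A ≃ₗ[D] N :=
    { e.trans eN.toAddEquiv with
      map_smul' := fun d x => by
        change eN (e (d • x)) = algebraMap D B d • eN (e x)
        rw [he, map_smul] }
  have h1 := len_tor_baseChange L H n (hyper_isBaseChange H χ hs hk) hX N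
  have h2 : L.len (TorM D n X (D ⊗[S] A)) = L.len (TorM D n X N) :=
    Vale.Agent.P202.Mix.len_congr L (torCongrRight n X e')
  exact h2.trans h1

/-- **Tor over `S` and over `R = S / E`**. -/
theorem len_tor_hyper (L : AddLen D) (H : IsHypersurface D B (algebraMap S D E))
    (hR : Surjective (algebraMap S R)) (hE : algebraMap S R E = 0)
    {X Z : Type u} [AddCommGroup X] [Module D X] [AddCommGroup Z] [Module D Z] [Module B Z]
    [IsScalarTower D B Z] (χ : X →ₗ[D] Z) (hs : Surjective χ)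
    (hk : ∀ x, χ x = 0 → ∃ y, x = algebraMap S D E • y)
    (hX : IsSMulRegular X (algebraMap S D E)) (n : ℕ)
    (A : Type u) [AddCommGroup A] [Module S A] [Module R A] [IsScalarTower S R A] :
    L.len (TorM D n X (D ⊗[S] A)) =
      (L.restrict (algebraMap D B)).len (TorM B n Z (B ⊗[R] A)) :=
  len_tor_hyper_aux L H hR hE χ hs hk hX n A (B ⊗[R] A) (LinearEquiv.refl B _)

/-- the same with the big module in the second place. -/
theorem tau_hyper (L : AddLen D) (H : IsHypersurface D B (algebraMap S D E))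
    (hR : Surjective (algebraMap S R)) (hE : algebraMap S R E = 0)
    {X Z : Type u} [AddCommGroup X] [Module D X] [AddCommGroup Z] [Module D Z] [Module B Z]
    [IsScalarTower D B Z] (χ : X →ₗ[D] Z) (hs : Surjective χ)
    (hk : ∀ x, χ x = 0 → ∃ y, x = algebraMap S D E • y)
    (hX : IsSMulRegular X (algebraMap S D E)) (n : ℕ)
    (A : Type u) [AddCommGroup A] [Module S A] [Module R A] [IsScalarTower S R A] :
    tau S L n A X = tau R (L.restrict (algebraMap D B)) n A Z := by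
  obtain ⟨e1⟩ := tor_symm (R := D) n (D ⊗[S] A) X
  obtain ⟨e2⟩ := tor_symm (R := B) n (B ⊗[R] A) Z
  unfold tau
  rw [Vale.Agent.P202.Mix.len_congr L e1,
    Vale.Agent.P202.Mix.len_congr (L.restrict (algebraMap D B)) e2]
  exact len_tor_hyper L H hR hE χ hs hk hX n A

theorem chi_hyper (L : AddLen D) (H : IsHypersurface D B (algebraMap S D E))
    (hR : Surjective (algebraMap S R)) (hE : algebraMap S R E = 0)
    {X Z : Type u} [AddCommGroup X] [Module D X] [AddCommGroup Z] [Module D Z] [Module B Z]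
    [IsScalarTower D B Z] (χ : X →ₗ[D] Z) (hs : Surjective χ)
    (hk : ∀ x, χ x = 0 → ∃ y, x = algebraMap S D E • y)
    (hX : IsSMulRegular X (algebraMap S D E)) (n : ℕ)
    (A : Type u) [AddCommGroup A] [Module S A] [Module R A] [IsScalarTower S R A] :
    SL.chi S L n A X = SL.chi R (L.restrict (algebraMap D B)) n A Z := by
  unfold SL.chi
  exact Finset.sum_congr rfl fun i _ => by rw [tau_hyper L H hR hE χ hs hk hX i A]

/-- the two forms of the Euler characteristic. -/
theorem chi_eq_thchi (L : AddLen D) (n : ℕ) (A X : Type u) [AddCommGroup A] [Module S A]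
    [AddCommGroup X] [Module D X] : SL.chi S L n A X = TH.chi L n X (D ⊗[S] A) := by
  unfold SL.chi TH.chi
  refine Finset.sum_congr rfl fun i _ => ?_
  obtain ⟨e1⟩ := tor_symm (R := D) i (D ⊗[S] A) X
  unfold tau
  rw [Vale.Agent.P202.Mix.len_congr L e1]

theorem resLen_eq_restrict (L : AddLen D) : resLen L B = L.restrict (algebraMap D B) := rfl

/-- block L8: an arbitrary base change `φ : X → X'`. -/
theorem thchi_eq_chi (L : AddLen D) (H : IsHypersurface D B (algebraMap S D E))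
    (hR : Surjective (algebraMap S R)) (hE : algebraMap S R E = 0)
    {X X' : Type u} [AddCommGroup X] [Module D X] [AddCommGroup X'] [Module D X'] [Module B X']
    [IsScalarTower D B X'] {φ : X →ₗ[D] X'} (hφ : IsBaseChange B φ)
    (hX : IsSMulRegular X (algebraMap S D E)) (n : ℕ)
    (A : Type u) [AddCommGroup A] [Module S A] [Module R A] [IsScalarTower S R A] :
    TH.chi (TH.resLen L B) n X' (B ⊗[R] A) = SL.chi S L n A X := by
  rw [chi_eq_thchi]
  unfold TH.chi
  refine Finset.sum_congr rfl fun i _ => ?_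
  rw [len_tor_hyper L H hR hE φ (H.baseChange_surj hφ)
    (fun x hx => H.baseChange_eq_zero hφ x hx) hX i A, resLen_eq_restrict]

/-- block L8, the single Tor modules. -/
theorem len_tor_eq_tau (L : AddLen D) (H : IsHypersurface D B (algebraMap S D E))
    (hR : Surjective (algebraMap S R)) (hE : algebraMap S R E = 0)
    {X X' : Type u} [AddCommGroup X] [Module D X] [AddCommGroup X'] [Module D X'] [Module B X']
    [IsScalarTower D B X'] {φ : X →ₗ[D] X'} (hφ : IsBaseChange B φ)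
    (hX : IsSMulRegular X (algebraMap S D E)) (i : ℕ)
    (A : Type u) [AddCommGroup A] [Module S A] [Module R A] [IsScalarTower S R A] :
    (TH.resLen L B).len (TorM B i X' (B ⊗[R] A)) = tau S L i A X := by
  obtain ⟨e1⟩ := tor_symm (R := D) i (D ⊗[S] A) X
  rw [resLen_eq_restrict, ← len_tor_hyper L H hR hE φ (H.baseChange_surj hφ)
    (fun x hx => H.baseChange_eq_zero hφ x hx) hX i A]
  exact (Vale.Agent.P202.Mix.len_congr L e1).symm

end general

section tensor

variable {S R V : Type u} [CommRing S] [CommRing R] [CommRing V]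

variable (V) in
/-- `S ⊗ V → R ⊗ V`. -/
noncomputable def mapSR (Φ : S →+* R) : S ⊗[ℤ] V →+* R ⊗[ℤ] V :=
  (Algebra.TensorProduct.map Φ.toIntAlgHom (AlgHom.id ℤ V)).toRingHom

theorem mapSR_tmul (Φ : S →+* R) (s : S) (v : V) : mapSR V Φ (s ⊗ₜ v) = Φ s ⊗ₜ v :=
  Algebra.TensorProduct.map_tmul _ _ _ _

theorem mapSR_eq (Φ : S →+* R) (x : S ⊗[ℤ] V) :
    mapSR V Φ x = (Φ.toAddMonoidHom.toIntLinearMap).rTensor V x := by
  induction x using TensorProduct.induction_on with
  | zero => rw [map_zero, map_zero]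
  | tmul s v => rw [mapSR_tmul]; rfl
  | add x y hx hy => rw [map_add, map_add, hx, hy]

theorem mapSR_surj {Φ : S →+* R} (hΦ : Surjective Φ) : Surjective (mapSR V Φ) := by
  intro x
  obtain ⟨y, hy⟩ := LinearMap.rTensor_surjective V
    (g := Φ.toAddMonoidHom.toIntLinearMap) hΦ x
  exact ⟨y, (mapSR_eq Φ y).trans hy⟩

theorem rTensor_mul_eq (E : S) (x : S ⊗[ℤ] V) :
    ((AddMonoidHom.mulLeft E).toIntLinearMap).rTensor V x = (E ⊗ₜ (1 : V) : S ⊗[ℤ] V) * x := by
  induction x using TensorProduct.induction_on with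
  | zero => rw [map_zero, mul_zero]
  | tmul s v =>
    rw [Algebra.TensorProduct.tmul_mul_tmul, one_mul]
    rfl
  | add x y hx hy => rw [map_add, mul_add, hx, hy]

theorem mapSR_ker {Φ : S →+* R} (hΦ : Surjective Φ) {E : S}
    (hE : RingHom.ker Φ = Ideal.span {E}) :
    RingHom.ker (mapSR V Φ) = Ideal.span {(E ⊗ₜ (1 : V) : S ⊗[ℤ] V)} := by
  have hex : Exact (AddMonoidHom.mulLeft E).toIntLinearMap Φ.toAddMonoidHom.toIntLinearMap := by
    intro s
    have h1 : Φ.toAddMonoidHom.toIntLinearMap s = 0 ↔ s ∈ RingHom.ker Φ := Iff.rfl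
    rw [h1, hE, Ideal.mem_span_singleton']
    constructor
    · rintro ⟨a, rfl⟩
      exact ⟨a, mul_comm E a⟩
    · rintro ⟨a, rfl⟩
      exact ⟨a, mul_comm a E⟩
  have h2 := rTensor_exact V hex hΦ
  ext x
  rw [RingHom.mem_ker, mapSR_eq, h2 x, Ideal.mem_span_singleton']
  constructor
  · rintro ⟨y, rfl⟩
    exact ⟨y, by rw [rTensor_mul_eq, mul_comm]⟩
  · rintro ⟨y, rfl⟩
    exact ⟨y, by rw [rTensor_mul_eq, mul_comm]⟩

theorem tmul_one_regular [Module.Flat ℤ V] {E : S} (hE : IsSMulRegular S E) :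
    IsSMulRegular (S ⊗[ℤ] V) (E ⊗ₜ (1 : V) : S ⊗[ℤ] V) := by
  have h1 : Injective ((AddMonoidHom.mulLeft E).toIntLinearMap) := hE
  have h2 := Module.Flat.rTensor_preserves_injective_linearMap (M := V) _ h1
  intro x y hxy
  refine h2 ?_
  rw [rTensor_mul_eq, rTensor_mul_eq]
  exact hxy

/-- `R ⊗ V` is a hypersurface in `S ⊗ V`. -/
theorem isHypersurface_mapSR [Module.Flat ℤ V] {Φ : S →+* R} (hΦ : Surjective Φ) {E : S}
    (hE : RingHom.ker Φ = Ideal.span {E}) (hreg : IsSMulRegular S E) :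
    @IsHypersurface (S ⊗[ℤ] V) (R ⊗[ℤ] V) _ _ (mapSR V Φ).toAlgebra
      (E ⊗ₜ (1 : V) : S ⊗[ℤ] V) := by
  let _ := (mapSR V Φ).toAlgebra
  exact ⟨tmul_one_regular hreg, mapSR_surj hΦ, mapSR_ker hΦ hE⟩

end tensor

section mod

open Vale.Agent.P177.PI Vale.Agent.P177.NatG Vale.Agent.P177.NatC

variable (p : ℕ) [hp : Fact p.Prime] {C' : Type u} [CommRing C'] {D : Type u} [CommRing D]

/-- `WI J'`, on which `D` acts through `ρ : D → W(C')`. -/
def XMod (J' : Ideal C') (_ : D →+* WittVector p C') : Type u := WI p J'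

variable {p} {J' : Ideal C'} {ρ : D →+* WittVector p C'}

noncomputable instance : AddCommGroup (XMod p J' ρ) := inferInstanceAs (AddCommGroup (WI p J'))

noncomputable instance : Module (WittVector p C') (XMod p J' ρ) :=
  inferInstanceAs (Module (WittVector p C') (WI p J'))

noncomputable instance : Module D (XMod p J' ρ) := Module.compHom (WI p J') ρ

theorem xmod_smul (d : D) (x : XMod p J' ρ) : d • x = ρ d • x := rfl

variable {S R V : Type u} [CommRing S] [CommRing R] [CommRing V]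

/-- `S ⊗ V → W'`. -/
noncomputable def rhoS {W' : Type u} [CommRing W'] (ψ : S →+* W') (F : V →+* W') :
    S ⊗[ℤ] V →+* W' :=
  (Algebra.TensorProduct.productMap ψ.toIntAlgHom F.toIntAlgHom).toRingHom

theorem rhoS_tmul {W' : Type u} [CommRing W'] (ψ : S →+* W') (F : V →+* W') (s : S) (v : V) :
    rhoS ψ F (s ⊗ₜ v) = ψ s * F v :=
  Algebra.TensorProduct.productMap_apply_tmul _ _ _ _

theorem rhoD_mapSR {W' : Type u} [CommRing W'] (Φ : S →+* R) (hΦ : Surjective Φ) (E : S)
    (hE : RingHom.ker Φ = Ideal.span {E}) (ψ : S →+* W') (F : V →+* W') (d : S ⊗[ℤ] V) :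
    rhoD Φ hΦ E hE ψ F (mapSR V Φ d) = Ideal.Quotient.mk _ (rhoS ψ F d) := by
  induction d using TensorProduct.induction_on with
  | zero => rw [map_zero, map_zero, map_zero, map_zero]
  | tmul s v => rw [mapSR_tmul, rhoD_tmul, rhoR_apply, rhoS_tmul, map_mul]
  | add x y hx hy => rw [map_add, map_add, map_add, map_add, hx, hy]

/-- **Tor over `R ⊗ V` of the honest module `WI J' / ψ E` from Tor over `S ⊗ V` of `WI J'`.** -/
theorem len_tor_xmod [Module.Flat ℤ V] (L : AddLen (S ⊗[ℤ] V)) (Φ : S →+* R)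
    (hΦ : Surjective Φ) (E : S) (hE : RingHom.ker Φ = Ideal.span {E}) (hreg : IsSMulRegular S E)
    (ψ : S →+* WittVector p C') (F : V →+* WittVector p C')
    (hψ : ∀ x ∈ WI p J', ψ E * x = 0 → x = 0) (n : ℕ)
    (A : Type u) [AddCommGroup A] [Module S A] [Module R A] (hA : ∀ (s : S) (a : A), s • a = Φ s • a) :
    L.len (TorM (S ⊗[ℤ] V) n (XMod p J' (rhoS ψ F)) ((S ⊗[ℤ] V) ⊗[S] A)) =
      (L.restrict (mapSR V Φ)).len (TorM (R ⊗[ℤ] V) n (HMod p J' (ψ E) (rhoD Φ hΦ E hE ψ F))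
        ((R ⊗[ℤ] V) ⊗[R] A)) := by
  let i1 : Algebra S R := Φ.toAlgebra
  let i2 : Algebra (S ⊗[ℤ] V) (R ⊗[ℤ] V) := (mapSR V Φ).toAlgebra
  have t2 : IsScalarTower S (S ⊗[ℤ] V) (R ⊗[ℤ] V) := ⟨fun s d r => by
    have h : ∀ x : S ⊗[ℤ] V, mapSR V Φ (s • x) = s • mapSR V Φ x := by
      intro x
      induction x using TensorProduct.induction_on with
      | zero => rw [smul_zero, map_zero, smul_zero]
      | tmul a v =>
        rw [TensorProduct.smul_tmul', mapSR_tmul, mapSR_tmul, TensorProduct.smul_tmul',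
          smul_eq_mul, map_mul]
        rfl
      | add x y hx hy => rw [smul_add, map_add, map_add, smul_add, hx, hy]
    change mapSR V Φ (s • d) * r = s • (mapSR V Φ d * r)
    rw [h, smul_mul_assoc]⟩
  have t3 : IsScalarTower S R A := IsScalarTower.of_algebraMap_smul fun s a => (hA s a).symm
  let m1 : Module (S ⊗[ℤ] V) (HMod p J' (ψ E) (rhoD Φ hΦ E hE ψ F)) :=
    Module.compHom _ (mapSR V Φ)
  have t4 : IsScalarTower (S ⊗[ℤ] V) (R ⊗[ℤ] V) (HMod p J' (ψ E) (rhoD Φ hΦ E hE ψ F)) :=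
    IsScalarTower.of_algebraMap_smul fun _ _ => rfl
  have H : IsHypersurface (S ⊗[ℤ] V) (R ⊗[ℤ] V) (algebraMap S (S ⊗[ℤ] V) E) :=
    isHypersurface_mapSR hΦ hE hreg
  have e0 : ∀ x : XMod p J' (rhoS ψ F), algebraMap S (S ⊗[ℤ] V) E • x = ψ E • x := fun x => by
    have h1 : rhoS ψ F (algebraMap S (S ⊗[ℤ] V) E) = ψ E := by
      have h2 : algebraMap S (S ⊗[ℤ] V) E = E ⊗ₜ (1 : V) := rfl
      rw [h2, rhoS_tmul, map_one, mul_one]
    rw [xmod_smul, h1]
  let χ : XMod p J' (rhoS ψ F) →ₗ[S ⊗[ℤ] V] HMod p J' (ψ E) (rhoD Φ hΦ E hE ψ F) :=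
    { toFun := fun x => hcl (rhoD Φ hΦ E hE ψ F) (show WI p J' from x)
      map_add' := fun x y => rfl
      map_smul' := fun d x => by
        change hcl (rhoD Φ hΦ E hE ψ F) (rhoS ψ F d • (show WI p J' from x)) =
          mapSR V Φ d • hcl (rhoD Φ hΦ E hE ψ F) (show WI p J' from x)
        rw [hmod_smul _ _ (rhoD_mapSR Φ hΦ E hE ψ F d), hcl_smul] }
  refine len_tor_hyper L H hΦ ?_ χ (fun y => hcl_surj y) ?_ ?_ n A
  · have : E ∈ RingHom.ker Φ := by
      rw [hE]
      exact Ideal.mem_span_singleton_self E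
    exact this
  · intro x hx
    obtain ⟨y, hy, hxy⟩ := (hcl_eq_zero (ρ := rhoD Φ hΦ E hE ψ F) (show WI p J' from x)).1 hx
    refine ⟨(show XMod p J' (rhoS ψ F) from ⟨y, hy⟩), ?_⟩
    rw [e0]
    exact Subtype.ext hxy
  · intro x y hxy
    have hxy' : ψ E • x = ψ E • y := by
      rw [← e0, ← e0]
      exact hxy
    have h1 : ψ E • (x - y) = 0 := by rw [smul_sub, hxy', sub_self]
    have h2 : ψ E * ((show WI p J' from (x - y)) : WittVector p C') = 0 :=
      congrArg (Subtype.val : WI p J' → WittVector p C') h1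
    have h3 := hψ _ (show WI p J' from (x - y)).2 h2
    have h4 : x - y = 0 := Subtype.ext h3
    exact sub_eq_zero.1 h4

theorem mapSR_comp_right (V : Type u) [CommRing V] (Φ : S →+* R) :
    (mapSR V Φ).comp (Algebra.TensorProduct.includeRight : V →ₐ[ℤ] S ⊗[ℤ] V).toRingHom =
      (Algebra.TensorProduct.includeRight : V →ₐ[ℤ] R ⊗[ℤ] V).toRingHom := by
  ext v
  have h1 : mapSR V Φ ((1 : S) ⊗ₜ v) = Φ 1 ⊗ₜ v := mapSR_tmul Φ 1 v
  rw [map_one] at h1
  exact h1

/-- lengths pulled back from `V`. -/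
theorem restrict_mapSR_len (L' : AddLen V) (Φ : S →+* R) (M : Type u) [AddCommGroup M]
    [Module (R ⊗[ℤ] V) M] :
    ((L'.restrict (Algebra.TensorProduct.includeRight : V →ₐ[ℤ] S ⊗[ℤ] V).toRingHom).restrict
      (mapSR V Φ)).len M =
      (L'.restrict (Algebra.TensorProduct.includeRight : V →ₐ[ℤ] R ⊗[ℤ] V).toRingHom).len M := by
  have h1 : ((L'.restrict
      (Algebra.TensorProduct.includeRight : V →ₐ[ℤ] S ⊗[ℤ] V).toRingHom).restrict
      (mapSR V Φ)).len M = (L'.restrict ((mapSR V Φ).comp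
        (Algebra.TensorProduct.includeRight : V →ₐ[ℤ] S ⊗[ℤ] V).toRingHom)).len M := rfl
  rw [h1, mapSR_comp_right]

/-- **Tor over `R ⊗ V` of the honest module `WI J' / ψ E` is `tau` of `WI J'` over `S ⊗ V`**,
lengths pulled back from `V`. -/
theorem len_tor_hmod_eq_tau [Module.Flat ℤ V] (L' : AddLen V) (Φ : S →+* R)
    (hΦ : Surjective Φ) (E : S) (hE : RingHom.ker Φ = Ideal.span {E}) (hreg : IsSMulRegular S E)
    (ψ : S →+* WittVector p C') (F : V →+* WittVector p C')
    (hψ : ∀ x ∈ WI p J', ψ E * x = 0 → x = 0) (n : ℕ)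
    (A : Type u) [AddCommGroup A] [Module S A] [Module R A] (hA : ∀ (s : S) (a : A), s • a = Φ s • a) :
    (L'.restrict (Algebra.TensorProduct.includeRight : V →ₐ[ℤ] R ⊗[ℤ] V).toRingHom).len
      (TorM (R ⊗[ℤ] V) n (HMod p J' (ψ E) (rhoD Φ hΦ E hE ψ F)) ((R ⊗[ℤ] V) ⊗[R] A)) =
      tau S (L'.restrict (Algebra.TensorProduct.includeRight : V →ₐ[ℤ] S ⊗[ℤ] V).toRingHom) n A
        (XMod p J' (rhoS ψ F)) := by
  obtain ⟨e1⟩ := tor_symm (R := S ⊗[ℤ] V) n ((S ⊗[ℤ] V) ⊗[S] A) (XMod p J' (rhoS ψ F))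
  rw [← restrict_mapSR_len L' Φ, ← len_tor_xmod _ Φ hΦ E hE hreg ψ F hψ n A hA]
  exact (Vale.Agent.P202.Mix.len_congr _ e1).symm

/-- **The Euler characteristic over `R ⊗ V` of the honest module.** -/
theorem thchi_hmod_eq_chi [Module.Flat ℤ V] (L' : AddLen V) (Φ : S →+* R)
    (hΦ : Surjective Φ) (E : S) (hE : RingHom.ker Φ = Ideal.span {E}) (hreg : IsSMulRegular S E)
    (ψ : S →+* WittVector p C') (F : V →+* WittVector p C')
    (hψ : ∀ x ∈ WI p J', ψ E * x = 0 → x = 0) (n : ℕ)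
    (A : Type u) [AddCommGroup A] [Module S A] [Module R A] (hA : ∀ (s : S) (a : A), s • a = Φ s • a) :
    TH.chi (L'.restrict (Algebra.TensorProduct.includeRight : V →ₐ[ℤ] R ⊗[ℤ] V).toRingHom) n
      (HMod p J' (ψ E) (rhoD Φ hΦ E hE ψ F)) ((R ⊗[ℤ] V) ⊗[R] A) =
      SL.chi S (L'.restrict (Algebra.TensorProduct.includeRight : V →ₐ[ℤ] S ⊗[ℤ] V).toRingHom) n A
        (XMod p J' (rhoS ψ F)) := by
  unfold TH.chi SL.chi
  exact Finset.sum_congr rfl fun i _ => by
    rw [len_tor_hmod_eq_tau L' Φ hΦ E hE hreg ψ F hψ i A hA]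

/-- `S ⊗ V` is flat over `S`. -/
theorem flat_tensor_right [Module.Flat ℤ V] : Module.Flat S (S ⊗[ℤ] V) := inferInstance

end mod

end Vale.Agent.P177.SL
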