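import Vale.Agent.P177.SL.Base
import Vale.Agent.P177.PI.WIdeal

/-!
P177, block B7, piece L9: finiteness of the Koszul homology of `W(C) / W(J)` for a list with one
element less, when a power of `γ` lies in `J`.
-/

namespace Vale.Agent.P177.SL

open Vale.Agent.P202.Mix Function TensorProduct IsLocalRing
open scoped ENNReal

universe u

section gen

variable {D : Type u} [CommRing D] (L : AddLen D) (X : Type u) [AddCommGroup X] [Module D X]

/-- the associated length of `KG`. -/
def toALen {D : Type u} [CommRing D] (L : AddLen D) : KG.ALen D := ⟨L.len, L.zero, L.add⟩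

variable {X} in
theorem KC_smul_X {g : D} (hg : ∀ x : X, g • x = 0) (xs : List D) :
    ∀ (i : ℕ) (z : (KG.KC X xs).X i), g • z = 0 := by
  induction xs with
  | nil =>
    intro i z
    cases i with
    | zero => exact hg z
    | succ i => exact Subsingleton.elim (α := PUnit.{u + 1}) _ _
  | cons x xs ih =>
    intro i z
    cases i with
    | zero => exact ih 0 z
    | succ i => exact Prod.ext (ih (i + 1) z.1) (ih i z.2)

variable {X} in
theorem KC_smul_H {g : D} (hg : ∀ x : X, g • x = 0) (xs : List D) (i : ℕ)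
    (z : (KG.KC X xs).H i) : g • z = 0 := by
  obtain ⟨x, hx, rfl⟩ := (KG.KC X xs).cl_surj i z
  rw [← map_smul]
  refine (KG.KC X xs).cl_eq_zero.2 ?_
  have h1 : g • x = 0 := KC_smul_X hg xs i x
  rw [h1]
  exact Submodule.zero_mem _

theorem exists_uniform_pow (I : Ideal D) (big : List D) (h : ∀ b ∈ big, ∃ l : ℕ, b ^ l ∈ I) :
    ∃ l : ℕ, ∀ b ∈ big, b ^ l ∈ I := by
  induction big with
  | nil => exact ⟨0, fun b hb => absurd hb (by simp)⟩
  | cons a big ih =>
    obtain ⟨l, hl⟩ := ih fun b hb => h b (by simp [hb])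
    obtain ⟨l', hl'⟩ := h a (by simp)
    refine ⟨l + l', fun b hb => ?_⟩
    rcases List.mem_cons.1 hb with rfl | hb
    · rw [pow_add]
      exact Ideal.mul_mem_left _ _ hl'
    · rw [pow_add]
      exact Ideal.mul_mem_right _ _ (hl b hb)

/-- finiteness of the Koszul homology passes to a list `cs` with the same radical. -/
theorem KC_ne_top_of_pow {big cs : List D} (h : ∀ b ∈ big, ∃ l : ℕ, b ^ l ∈ Ideal.ofList cs)
    (hfin : ∀ q, L.len ((KG.KC X big).H q) ≠ ⊤) (q : ℕ) : L.len ((KG.KC X cs).H q) ≠ ⊤ := by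
  obtain ⟨l, hl⟩ := exists_uniform_pow _ big h
  have h1 := KG.KC_growth3' (toALen L) X hl 1 q
  have e1 : cs.map (· ^ 1) = cs := by simp
  rw [e1] at h1
  refine ne_top_of_le_ne_top ?_ h1
  refine ENNReal.mul_ne_top (ENNReal.pow_ne_top (ENNReal.natCast_ne_top _)) ?_
  rw [KG.KFam.bsum]
  exact ENNReal.sum_ne_top.2 fun jq _ =>
    ENNReal.mul_ne_top (ENNReal.natCast_ne_top _) (hfin jq.2)

/-- if `g` kills `X` and the Koszul homology of `X` with respect to `big` is finite, and the
elements of `big` have powers in `(g, ys)`, then the Koszul homology for `ys` is finite. -/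
theorem KC_ne_top_of_kill {big ys : List D} {g : D} (hg : ∀ x : X, g • x = 0)
    (h : ∀ b ∈ big, ∃ l : ℕ, b ^ l ∈ Ideal.ofList (g :: ys))
    (hfin : ∀ q, L.len ((KG.KC X big).H q) ≠ ⊤) (q : ℕ) : L.len ((KG.KC X ys).H q) ≠ ⊤ := by
  have h1 := KC_ne_top_of_pow L X h hfin (q + 1)
  refine ne_top_of_le_ne_top h1 ?_
  refine KG.len_le_of_surj (toALen L) ((KG.KC X ys).prjH g q) fun z => ?_
  exact (KG.KC X ys).exists_prjH g q z (KC_smul_H hg ys q z)

end gen

section W

variable (p : ℕ) [Fact p.Prime] {C : Type u} [CommRing C] [CharP C p] [PerfectRing C p]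

open WittVector

/-- an element with zeroth coefficient in `(s)` lies in `(p, [s])`. -/
theorem mem_of_coeff_zero_mem_span {s : Set C} {𝔞 : Ideal (WittVector p C)}
    (hp : (p : WittVector p C) ∈ 𝔞) (hs : ∀ a ∈ s, teichmuller p a ∈ 𝔞) {x : C}
    (hx : x ∈ Ideal.span s) : ∀ w : WittVector p C, w.coeff 0 = x → w ∈ 𝔞 := by
  have key : ∀ w w' : WittVector p C, w.coeff 0 = w'.coeff 0 → w' ∈ 𝔞 → w ∈ 𝔞 := by
    intro w w' h hw'
    have h1 : (w - w').coeff 0 = 0 := by
      have h2 : WittVector.constantCoeff (w - w') = 0 := by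
        rw [map_sub, WittVector.constantCoeff_apply, WittVector.constantCoeff_apply, h, sub_self]
      rwa [WittVector.constantCoeff_apply] at h2
    have h2 := (WittVector.mem_span_p_iff_coeff_zero_eq_zero (w - w')).2 h1
    have h3 : Ideal.span {(p : WittVector p C)} ≤ 𝔞 := by
      rw [Ideal.span_singleton_le_iff_mem]
      exact hp
    have h4 : w = (w - w') + w' := by ring
    rw [h4]
    exact 𝔞.add_mem (h3 h2) hw'
  induction hx using Submodule.span_induction with
  | mem a ha =>
    intro w hw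
    exact key w (teichmuller p a) (by rw [hw, teichmuller_coeff_zero]) (hs a ha)
  | zero =>
    intro w hw
    exact key w 0 (by rw [hw, WittVector.zero_coeff]) 𝔞.zero_mem
  | add a b _ _ iha ihb =>
    intro w hw
    have h1 := iha (teichmuller p a) (teichmuller_coeff_zero p a)
    have h2 := ihb (w - teichmuller p a) (by
      have h3 : WittVector.constantCoeff (w - teichmuller p a) = b := by
        rw [map_sub, WittVector.constantCoeff_apply, WittVector.constantCoeff_apply, hw,
          teichmuller_coeff_zero, add_sub_cancel_left]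
      rwa [WittVector.constantCoeff_apply] at h3)
    have h4 : w = (w - teichmuller p a) + teichmuller p a := by ring
    rw [h4]
    exact 𝔞.add_mem h2 h1
  | smul c a _ iha =>
    intro w hw
    refine key w (teichmuller p c * teichmuller p a) ?_
      (Ideal.mul_mem_left _ _ (iha _ (teichmuller_coeff_zero p a)))
    rw [hw, ← map_mul, teichmuller_coeff_zero, smul_eq_mul]

theorem te_mem_of_mem_span {s : Set C} {𝔞 : Ideal (WittVector p C)}
    (hp : (p : WittVector p C) ∈ 𝔞) (hs : ∀ a ∈ s, teichmuller p a ∈ 𝔞) {x : C}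
    (hx : x ∈ Ideal.span s) : teichmuller p x ∈ 𝔞 :=
  mem_of_coeff_zero_mem_span p hp hs hx _ (teichmuller_coeff_zero p x)

/-- input for the independence of `J`: a list with one element less. -/
theorem exists_list_ne_top {a d : ℕ} (v : Fin a → C) (y : Fin d → C) (γ : C) (J : Ideal C) (k : ℕ)
    (hγ : γ ^ k ∈ J) (hv : ∀ i, ∃ l : ℕ, v i ^ l ∈ Ideal.span (insert γ (Set.range y)))
    (L : AddLen (WittVector p C))
    (hfin : ∀ q, L.len ((KG.KC (WittVector p C ⧸ PI.WI p J)
      ((p : WittVector p C) :: List.ofFn fun i => teichmuller p (v i))).H q) ≠ ⊤) (q : ℕ) :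
    L.len ((KG.KC (WittVector p C ⧸ PI.WI p J)
      ((p : WittVector p C) :: List.ofFn fun i => teichmuller p (y i))).H q) ≠ ⊤ := by
  refine KC_ne_top_of_kill L _ (g := teichmuller p γ ^ k) ?_ ?_ hfin q
  · intro x
    obtain ⟨w, rfl⟩ := Ideal.Quotient.mk_surjective x
    rw [← map_pow]
    change Ideal.Quotient.mk _ (teichmuller p (γ ^ k) * w) = 0
    rw [Ideal.Quotient.eq_zero_iff_mem]
    exact Ideal.mul_mem_right _ _ (PI.te_mem_WI p hγ)
  · intro b hb
    have hpm : (p : WittVector p C) ∈ Ideal.ofList (teichmuller p γ ^ k ::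
        ((p : WittVector p C) :: List.ofFn fun i => teichmuller p (y i))) :=
      Ideal.subset_span (by simp)
    have key : ∀ i, teichmuller p (v i) ∈ (Ideal.ofList (teichmuller p γ ^ k ::
        ((p : WittVector p C) :: List.ofFn fun i => teichmuller p (y i)))).radical := by
      intro i
      obtain ⟨l, hl⟩ := hv i
      have h1 : teichmuller p (v i ^ l) ∈ (Ideal.ofList (teichmuller p γ ^ k ::
          ((p : WittVector p C) :: List.ofFn fun i => teichmuller p (y i)))).radical := by
        refine te_mem_of_mem_span p (Ideal.le_radical hpm) ?_ hl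
        rintro _ (rfl | ⟨j, rfl⟩)
        · exact ⟨k, Ideal.subset_span (by simp)⟩
        · refine Ideal.le_radical (Ideal.subset_span ?_)
          simp
      rw [map_pow] at h1
      exact Ideal.mem_radical_of_pow_mem h1
    rcases List.mem_cons.1 hb with rfl | hb
    · exact ⟨1, by rw [pow_one]; exact hpm⟩
    · obtain ⟨i, rfl⟩ := (List.mem_ofFn' _ _).1 hb
      exact key i

/-- the elements of the short list lie in the radical of every ideal that contains `p` and
powers of the `[v i]`. -/
theorem te_mem_radical {a : ℕ} (v : Fin a → C) {y : C} (hy : y ∈ Ideal.span (Set.range v))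
    {𝔞 : Ideal (WittVector p C)} (hp : (p : WittVector p C) ∈ 𝔞)
    (h : ∀ i, ∃ l : ℕ, teichmuller p (v i) ^ l ∈ 𝔞) : ∃ l : ℕ, teichmuller p y ^ l ∈ 𝔞 := by
  have h1 : teichmuller p y ∈ 𝔞.radical := by
    refine te_mem_of_mem_span p (Ideal.le_radical hp) ?_ hy
    rintro _ ⟨i, rfl⟩
    exact h i
  exact h1

/-- the existential form. -/
theorem exists_short_list {a d : ℕ} (v : Fin a → C) (y : Fin d → C)
    (hy : ∀ j, y j ∈ Ideal.span (Set.range v)) (γ : C) (J : Ideal C) (k : ℕ)
    (hγ : γ ^ k ∈ J) (hv : ∀ i, ∃ l : ℕ, v i ^ l ∈ Ideal.span (insert γ (Set.range y)))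
    (L : AddLen (WittVector p C))
    (hfin : ∀ q, L.len ((KG.KC (WittVector p C ⧸ PI.WI p J)
      ((p : WittVector p C) :: List.ofFn fun i => teichmuller p (v i))).H q) ≠ ⊤) :
    ∃ ys : List (WittVector p C), ys.length = d ∧
      (∀ q, L.len ((KG.KC (WittVector p C ⧸ PI.WI p J) ((p : WittVector p C) :: ys)).H q) ≠ ⊤) ∧
      ∀ 𝔞 : Ideal (WittVector p C), (p : WittVector p C) ∈ 𝔞 →
        (∀ i, ∃ l : ℕ, teichmuller p (v i) ^ l ∈ 𝔞) → ∀ w ∈ ys, ∃ l : ℕ, w ^ l ∈ 𝔞 := by
  refine ⟨List.ofFn fun i => teichmuller p (y i), List.length_ofFn,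
    exists_list_ne_top p v y γ J k hγ hv L hfin, fun 𝔞 hp h w hw => ?_⟩
  obtain ⟨j, rfl⟩ := (List.mem_ofFn' _ _).1 hw
  exact te_mem_radical p v (hy j) hp h

end W

end Vale.Agent.P177.SL
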