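import Vale.Agent.P177.SL.Eta

/-!
Limits of additive lengths along an ultrafilter, scaling, flat base change.
-/

namespace Vale.Agent.P177.SL

open Vale.Agent.P202.Mix Function TensorProduct Filter
open scoped ENNReal Topology

universe u v

section limLen

variable {R : Type u} [CommRing R] {ι : Type v} (U : Ultrafilter ι) (L : ι → AddLen R)

/-- the limit of a function along an ultrafilter. -/
noncomputable def ulim (f : ι → ℝ≥0∞) : ℝ≥0∞ := (U.map f).lim

theorem tendsto_ulim (f : ι → ℝ≥0∞) : Tendsto f U (𝓝 (ulim U f)) :=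
  Ultrafilter.le_nhds_lim (U.map f)

theorem ulim_eq {f : ι → ℝ≥0∞} {a : ℝ≥0∞} (h : Tendsto f U (𝓝 a)) : ulim U f = a :=
  tendsto_nhds_unique (tendsto_ulim U f) h

theorem ulim_le {f : ι → ℝ≥0∞} {a : ℝ≥0∞} (h : ∀ᶠ e in (U : Filter ι), f e ≤ a) :
    ulim U f ≤ a :=
  le_of_tendsto (tendsto_ulim U f) h

theorem le_ulim {f : ι → ℝ≥0∞} {a : ℝ≥0∞} (h : ∀ᶠ e in (U : Filter ι), a ≤ f e) :
    a ≤ ulim U f :=
  ge_of_tendsto (tendsto_ulim U f) h

theorem ulim_mono {f g : ι → ℝ≥0∞} (h : ∀ᶠ e in (U : Filter ι), f e ≤ g e) :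
    ulim U f ≤ ulim U g :=
  le_of_tendsto_of_tendsto (tendsto_ulim U f) (tendsto_ulim U g) h

theorem ulim_congr {f g : ι → ℝ≥0∞} (h : ∀ᶠ e in (U : Filter ι), f e = g e) :
    ulim U f = ulim U g :=
  le_antisymm (ulim_mono U (h.mono fun _ he => he.le)) (ulim_mono U (h.mono fun _ he => he.ge))

theorem ulim_add (f g : ι → ℝ≥0∞) : ulim U (fun e => f e + g e) = ulim U f + ulim U g :=
  ulim_eq U ((tendsto_ulim U f).add (tendsto_ulim U g))

theorem ulim_const (a : ℝ≥0∞) : ulim U (fun _ => a) = a := ulim_eq U tendsto_const_nhds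

/-- the limit of additive lengths. -/
noncomputable def limLen : AddLen R where
  len M _ _ := ulim U fun e => (L e).len M
  zero := by
    rw [← ulim_const U (0 : ℝ≥0∞)]
    exact ulim_congr U (Eventually.of_forall fun e => (L e).zero)
  add {M N K} _ _ _ _ _ _ f g hf hg h := by
    rw [← ulim_add]
    exact ulim_congr U (Eventually.of_forall fun e => (L e).add f g hf hg h)

theorem limLen_len (M : Type u) [AddCommGroup M] [Module R M] :
    (limLen U L).len M = ulim U fun e => (L e).len M := rfl

end limLen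

section scale

variable {R : Type u} [CommRing R] (L : AddLen R)

/-- scaling an additive length. -/
noncomputable def scaleLen (r : ℝ≥0∞) : AddLen R where
  len M _ _ := r * L.len M
  zero := by rw [L.zero, mul_zero]
  add {M N K} _ _ _ _ _ _ f g hf hg h := by rw [L.add f g hf hg h, mul_add]

end scale

section bc

variable (R : Type u) {R' : Type u} [CommRing R] [CommRing R'] [Algebra R R'] [Module.Flat R R']
  (L : AddLen R')

/-- the length of the flat base change. -/
noncomputable def bcLen : AddLen R where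
  len M _ _ := L.len (R' ⊗[R] M)
  zero := by
    have : Subsingleton (R' ⊗[R] PUnit.{u + 1}) := inferInstance
    exact len_subsingleton L
  add {M N K} _ _ _ _ _ _ f g hf hg h := by
    refine L.add (f.baseChange R') (g.baseChange R') ?_ ?_ ?_
    · rw [LinearMap.baseChange_eq_ltensor]
      exact Module.Flat.lTensor_preserves_injective_linearMap f hf
    · rw [LinearMap.baseChange_eq_ltensor]
      exact LinearMap.lTensor_surjective R' hg
    · rw [LinearMap.baseChange_eq_ltensor, LinearMap.baseChange_eq_ltensor]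
      exact lTensor_exact R' h hg

end bc

end Vale.Agent.P177.SL
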