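import Vale.Agent.P177.SL.Th
import Vale.Agent.P177.SL.Add
import Vale.Agent.P177.SL.Growth
import Vale.Agent.P177.SL.Eta

/-!
Nilpotency of the multiplication maps on the Tor modules of thickenings, up to `h`-torsion, and
the growth of their lengths.
-/

namespace Vale.Agent.P177.SL

open Vale.Agent.P202.Mix Function TensorProduct IsLocalRing
open scoped ENNReal

universe u

section kills

variable {R : Type u} [CommRing R]

/-- the length vanishes on modules killed by `h`. -/
def Kills (L : AddLen R) (h : R) : Prop :=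
  ∀ (M : Type u) [AddCommGroup M] [Module R M], (∀ x : M, h • x = 0) → L.len M = 0

variable {L : AddLen R} {h : R} (hL : Kills L h)
include hL

theorem Kills.pow (j : ℕ) : ∀ (M : Type u) [AddCommGroup M] [Module R M],
    (∀ x : M, h ^ j • x = 0) → L.len M = 0 := by
  induction j with
  | zero =>
    intro M _ _ hM
    have : Subsingleton M := subsingleton_of_forall_eq 0 fun x => by simpa using hM x
    exact len_subsingleton L
  | succ j ih =>
    intro M _ _ hM
    let Y : Submodule R M := LinearMap.range (LinearMap.lsmul R M h)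
    rw [len_sub_quot L Y, ih Y ?_, hL (M ⧸ Y) ?_, add_zero]
    · intro x
      obtain ⟨x, rfl⟩ := Submodule.Quotient.mk_surjective _ x
      rw [← Submodule.Quotient.mk_smul, Submodule.Quotient.mk_eq_zero]
      exact ⟨x, rfl⟩
    · rintro ⟨_, x, rfl⟩
      apply Subtype.ext
      change h ^ j • (h • x) = 0
      rw [smul_smul, ← pow_succ, hM]

theorem Kills.len_eq (j : ℕ) (M : Type u) [AddCommGroup M] [Module R M] :
    L.len M = L.len (etaSub (h ^ j) M) := by
  rw [len_sub_quot L (etaSub (h ^ j) M), hL.pow j (M ⧸ etaSub (h ^ j) M), add_zero]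
  intro x
  obtain ⟨x, rfl⟩ := Submodule.Quotient.mk_surjective _ x
  rw [← Submodule.Quotient.mk_smul, Submodule.Quotient.mk_eq_zero]
  exact ⟨x, rfl⟩

theorem Kills.len_le_of_pow (j m : ℕ) (T : Type u) [AddCommGroup T] [Module R T]
    (φ : T →ₗ[R] T) (hφ : ∀ x : T, h ^ j • (φ ^ m) x = 0) :
    L.len T ≤ m * L.len (T ⧸ LinearMap.range φ) := by
  rw [hL.len_eq j T]
  let Y := etaSub (h ^ j) T
  have hst : ∀ x ∈ Y, φ x ∈ Y := by
    rintro _ ⟨x, rfl⟩
    exact ⟨φ x, (map_smul φ _ _).symm⟩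
  let ψ : Y →ₗ[R] Y := φ.restrict hst
  have hψ : ∀ n (x : Y), ((ψ ^ n) x : T) = (φ ^ n) x := by
    intro n
    induction n with
    | zero => intro x; rfl
    | succ n ihn =>
      intro x
      rw [pow_succ', pow_succ', Module.End.mul_apply, Module.End.mul_apply, ← ihn]
      rfl
  have h0 : ∀ x : Y, (ψ ^ m) x = 0 := by
    rintro ⟨_, x, rfl⟩
    apply Subtype.ext
    rw [hψ]
    change (φ ^ m) (h ^ j • x) = 0
    rw [map_smul, hφ]
  refine (len_le_of_pow_eq_zero L m Y ψ h0).trans (mul_le_mul_right ?_ _)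
  refine len_le_of_surjective L (Submodule.mapQ (LinearMap.range φ) (LinearMap.range ψ)
    (LinearMap.codRestrict Y (LinearMap.lsmul R T (h ^ j)) fun x => ⟨x, rfl⟩) ?_) ?_
  · rintro _ ⟨y, rfl⟩
    rw [Submodule.mem_comap]
    exact ⟨⟨h ^ j • y, y, rfl⟩, Subtype.ext (map_smul φ _ _)⟩
  · intro z
    obtain ⟨⟨_, y, rfl⟩, rfl⟩ := Submodule.Quotient.mk_surjective _ z
    exact ⟨Submodule.Quotient.mk y, rfl⟩

end kills

section nil

variable {S T D : Type u} [CommRing S] [CommRing T] [CommRing D] [Algebra S T] [Algebra S D]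
  (Θ : S →+* T) {N N' N'' : Type u} [AddCommGroup N] [Module S N] [AddCommGroup N'] [Module S N']
  [AddCommGroup N''] [Module S N''] {X : Type u} [AddCommGroup X] [Module D X]

variable (N X) in
/-- the action of `T` on the Tor modules of the thickening. -/
noncomputable def rho (i : ℕ) (a : T) :
    TT S D i (Th Θ T N) X →ₗ[D] TT S D i (Th Θ T N) X := ttMap D X i (thMul Θ a)

theorem rho_add (i : ℕ) (a b : T) (x : TT S D i (Th Θ T N) X) :
    rho Θ N X i (a + b) x = rho Θ N X i a x + rho Θ N X i b x := by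
  have : (thMul Θ (a + b) : Th Θ T N →ₗ[S] Th Θ T N) = thMul Θ a + thMul Θ b := by
    ext x
    exact add_smul a b x
  rw [rho, this, ttMap_add]
  rfl

theorem rho_mul (i : ℕ) (a b : T) (x : TT S D i (Th Θ T N) X) :
    rho Θ N X i (a * b) x = rho Θ N X i a (rho Θ N X i b x) := by
  have : (thMul Θ (a * b) : Th Θ T N →ₗ[S] Th Θ T N) = thMul Θ a ∘ₗ thMul Θ b := by
    ext x
    exact mul_smul a b x
  rw [rho, rho, rho, this, ttMap_comp]

theorem rho_zero (i : ℕ) (x : TT S D i (Th Θ T N) X) : rho Θ N X i (0 : T) x = 0 := by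
  have : (thMul Θ (0 : T) : Th Θ T N →ₗ[S] Th Θ T N) = 0 := by
    ext x
    exact zero_smul T x
  rw [rho, this, ttMap_zero]
  rfl

theorem rho_theta (i : ℕ) (s : S) (x : TT S D i (Th Θ T N) X) :
    rho Θ N X i (Θ s) x = algebraMap S D s • x :=
  ttMap_smul i s _ (fun _ => rfl) x

theorem rho_algebraMap (i : ℕ) (s : S) (f : N →ₗ[S] N) (hf : ∀ n, f n = s • n)
    (x : TT S D i (Th Θ T N) X) :
    rho Θ N X i (algebraMap S T s) x = ttMap D X i (thMap Θ T f) x := by
  have : thMap Θ T f = (thMul Θ (algebraMap S T s) : Th Θ T N →ₗ[S] Th Θ T N) := by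
    ext x
    exact thMap_smul Θ s f hf x
  rw [rho, this]

theorem rho_ann (i : ℕ) (s : S) (hs : s ∈ Module.annihilator S N)
    (x : TT S D i (Th Θ T N) X) : rho Θ N X i (algebraMap S T s) x = 0 := by
  have : (thMul Θ (algebraMap S T s) : Th Θ T N →ₗ[S] Th Θ T N) = 0 := by
    ext x
    have h1 := thMap_smul (Q := T) Θ s (0 : N →ₗ[S] N) (fun n => by
      rw [Module.mem_annihilator.1 hs n]; rfl) x
    rw [thMul_apply, ← h1, thMap_apply]
    exact LinearMap.congr_fun (LinearMap.lTensor_zero T) x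
  rw [rho, this, ttMap_zero]
  rfl

/-- the submodule generated by the images of the elements of an ideal of `T`. -/
noncomputable def idSub (N X : Type u) [AddCommGroup N] [Module S N] [AddCommGroup X] [Module D X]
    (i : ℕ) (J : Ideal T) : Submodule D (TT S D i (Th Θ T N) X) :=
  ⨆ a : J, LinearMap.range (rho Θ N X i (a : T))

theorem rho_mem_idSub (i : ℕ) (J : Ideal T) {a : T} (ha : a ∈ J)
    (x : TT S D i (Th Θ T N) X) : rho Θ N X i a x ∈ idSub Θ N X i J :=
  Submodule.mem_iSup_of_mem (⟨a, ha⟩ : J) ⟨x, rfl⟩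

theorem rho_mem_idSub_mul (i : ℕ) (J K : Ideal T) {a : T} (ha : a ∈ J)
    {x : TT S D i (Th Θ T N) X} (hx : x ∈ idSub Θ N X i K) :
    rho Θ N X i a x ∈ idSub Θ N X i (J * K) := by
  induction hx using Submodule.iSup_induction' with
  | mem b y hy =>
    obtain ⟨z, rfl⟩ := hy
    rw [← rho_mul]
    exact rho_mem_idSub Θ i _ (Ideal.mul_mem_mul ha b.2) z
  | zero =>
    rw [map_zero]
    exact Submodule.zero_mem _
  | add y z _ _ hy hz =>
    rw [map_add]
    exact Submodule.add_mem _ hy hz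

variable {I : Ideal S} {𝔫 : Ideal T} (h𝔫 : ∀ s, Θ s - algebraMap S T s ∈ 𝔫)
include h𝔫

theorem smul_mem_idSub (i : ℕ) (hI : I ≤ Module.annihilator S N) {d : D}
    (hd : d ∈ I.map (algebraMap S D) ⊔ Module.annihilator D X)
    (x : TT S D i (Th Θ T N) X) : d • x ∈ idSub Θ N X i 𝔫 := by
  obtain ⟨a, ha, b, hb, rfl⟩ := Submodule.mem_sup.1 hd
  rw [add_smul]
  have h2 : b • x = 0 := tor_smul_eq_zero_right b (fun m => Module.mem_annihilator.1 hb m) i _ x
  rw [h2, add_zero]
  refine Submodule.span_induction (p := fun a _ => a • x ∈ idSub Θ N X i 𝔫) ?_ ?_ ?_ ?_ ha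
  · rintro _ ⟨s, hs, rfl⟩
    have h3 : algebraMap S D s • x = rho Θ N X i (Θ s - algebraMap S T s) x := by
      rw [← rho_theta Θ i s x]
      have := rho_add Θ i (Θ s - algebraMap S T s) (algebraMap S T s) x
      rw [sub_add_cancel, rho_ann Θ i s (hI hs), add_zero] at this
      exact this
    rw [h3]
    exact rho_mem_idSub Θ i 𝔫 (h𝔫 s) x
  · rw [zero_smul]
    exact Submodule.zero_mem _
  · intro a b _ _ ha hb
    rw [add_smul]
    exact Submodule.add_mem _ ha hb
  · intro a b _ hb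
    rw [smul_eq_mul, mul_smul]
    exact Submodule.smul_mem _ _ hb

/-- the action of `s` through `N` is nilpotent up to `h`-torsion. -/
theorem pow_rho (i : ℕ) (hI : I ≤ Module.annihilator S N) (h : D) (j : ℕ) (s : S)
    (hs : h ^ j * algebraMap S D s ∈ I.map (algebraMap S D) ⊔ Module.annihilator D X)
    (ℓ : ℕ) (x : TT S D i (Th Θ T N) X) :
    h ^ (j * ℓ) • (rho Θ N X i (algebraMap S T s) ^ ℓ) x ∈ idSub Θ N X i (𝔫 ^ ℓ) := by
  induction ℓ with
  | zero =>
    rw [mul_zero, pow_zero, pow_zero, one_smul, pow_zero, Ideal.one_eq_top]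
    have h1 : rho Θ N X i (1 : T) x = x := by
      have := rho_theta Θ i (1 : S) x
      rwa [map_one, map_one, one_smul] at this
    rw [Module.End.one_apply, ← h1]
    exact rho_mem_idSub Θ i ⊤ Submodule.mem_top x
  | succ ℓ ih =>
    have e0 : h ^ (j * (ℓ + 1)) • (rho Θ N X i (algebraMap S T s) ^ (ℓ + 1)) x =
        h ^ j • rho Θ N X i (algebraMap S T s)
          (h ^ (j * ℓ) • (rho Θ N X i (algebraMap S T s) ^ ℓ) x) := by
      rw [map_smul, smul_smul, ← pow_add, mul_add, mul_one, add_comm j, pow_succ' (rho _ _ _ _ _),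
        Module.End.mul_apply]
    rw [e0]
    generalize h ^ (j * ℓ) • (rho Θ N X i (algebraMap S T s) ^ ℓ) x = y at ih ⊢
    -- `h ^ j • rho s y` for `y` in the submodule of `𝔫 ^ ℓ`
    have key : ∀ z : TT S D i (Th Θ T N) X,
        h ^ j • rho Θ N X i (algebraMap S T s) z ∈ idSub Θ N X i 𝔫 := by
      intro z
      have h1 : rho Θ N X i (algebraMap S T s) z =
          algebraMap S D s • z - rho Θ N X i (Θ s - algebraMap S T s) z := by
        have := rho_add Θ i (Θ s - algebraMap S T s) (algebraMap S T s) z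
        rw [sub_add_cancel, rho_theta] at this
        rw [this]
        abel
      rw [h1, smul_sub, smul_smul]
      exact Submodule.sub_mem _ (smul_mem_idSub Θ h𝔫 i hI hs z)
        (Submodule.smul_mem _ _ (rho_mem_idSub Θ i _ (h𝔫 s) z))
    rw [pow_succ 𝔫]
    induction ih using Submodule.iSup_induction' with
    | mem b y hy =>
      obtain ⟨z, rfl⟩ := hy
      have h2 : rho Θ N X i (algebraMap S T s) (rho Θ N X i (b : T) z) =
          rho Θ N X i (b : T) (rho Θ N X i (algebraMap S T s) z) := by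
        rw [← rho_mul, ← rho_mul, mul_comm]
      rw [h2, ← map_smul]
      exact rho_mem_idSub_mul Θ i _ _ b.2 (key z)
    | zero =>
      rw [map_zero, smul_zero]
      exact Submodule.zero_mem _
    | add y z _ _ hy hz =>
      rw [map_add, smul_add]
      exact Submodule.add_mem _ hy hz

theorem pow_rho_eq_zero (i : ℕ) (hI : I ≤ Module.annihilator S N) (h : D) (j : ℕ) (s : S)
    (hs : h ^ j * algebraMap S D s ∈ I.map (algebraMap S D) ⊔ Module.annihilator D X)
    (ℓ : ℕ) (hℓ : 𝔫 ^ ℓ = ⊥) (x : TT S D i (Th Θ T N) X) :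
    h ^ (j * ℓ) • (rho Θ N X i (algebraMap S T s) ^ ℓ) x = 0 := by
  have h1 := pow_rho Θ h𝔫 i hI h j s hs ℓ x
  rw [hℓ] at h1
  have h2 : idSub (D := D) Θ N X i (⊥ : Ideal T) = ⊥ := by
    rw [idSub, iSup_eq_bot]
    rintro ⟨a, ha⟩
    rw [Ideal.mem_bot] at ha
    subst ha
    rw [LinearMap.range_eq_bot]
    ext x
    exact rho_zero Θ i x
  rw [h2, Submodule.mem_bot] at h1
  exact h1

/-- the growth function of the thickening. -/
theorem tau_th_growth [IsLocalRing S] [IsNoetherianRing S] [Module.Flat S D] [Module.Flat S T]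
    {L : AddLen D} {h : D} (hL : Kills L h) (ℓ : ℕ) (hℓ : 𝔫 ^ ℓ = ⊥) (j c : ℕ)
    (hc : ∀ s ∈ maximalIdeal S, h ^ j * algebraMap S D (s ^ c) ∈
      I.map (algebraMap S D) ⊔ Module.annihilator D X) (i : ℕ) :
    Nonempty {G : GrowthFn S I ((c * ℓ : ℕ) : ℝ≥0∞) // ∀ (N : Type u) [AddCommGroup N]
      [Module S N], G.τ N = tau S L i (Th Θ T N) X} := by
  refine ⟨⟨⟨fun N _ _ => tau S L i (Th Θ T N) X, ?_, ?_, ?_⟩, fun N _ _ => rfl⟩⟩
  · intro N _ _ _
    have : Subsingleton (Th Θ T N) := inferInstanceAs (Subsingleton (T ⊗[S] N))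
    exact tau_subsingleton L i
  · intro N' N N'' _ _ _ _ _ _ _ _ _ f g hf hg hfg _
    obtain ⟨k1, k2, k3⟩ := th_ses (Q := T) Θ f g hf hg hfg
    exact tau_le (D := D) L X i _ _ k1 k2 k3
  · intro N N'' _ _ _ _ _ _ s f g hs hfs hf hg hfg hI
    obtain ⟨k1, k2, k3⟩ := th_ses (Q := T) Θ f g hf hg hfg
    obtain ⟨δ, -, -, h3⟩ := exists_ttDelta (D := D) _ _ k1 k2 k3 X
    have hφ : ∀ x : TT S D i (Th Θ T N) X,
        h ^ (j * ℓ) • ((ttMap D X i (thMap Θ T f)) ^ (c * ℓ)) x = 0 := by
      intro x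
      have e1 : ttMap D X i (thMap Θ T f) = rho Θ N X i (algebraMap S T s) := by
        ext x
        exact (rho_algebraMap Θ i s f hfs x).symm
      have e2 : ∀ c' : ℕ, (rho Θ N X i (algebraMap S T s) : TT S D i (Th Θ T N) X →ₗ[D] _) ^ c' =
          rho Θ N X i (algebraMap S T (s ^ c')) := by
        intro c'
        induction c' with
        | zero =>
          ext x
          rw [pow_zero, pow_zero, map_one, Module.End.one_apply]
          have := rho_theta (D := D) Θ (X := X) (N := N) i (1 : S) x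
          rw [map_one, map_one, one_smul] at this
          exact this.symm
        | succ c' ih =>
          ext x
          rw [pow_succ, pow_succ, map_mul, Module.End.mul_apply, ih, rho_mul]
      rw [e1, pow_mul (rho Θ N X i (algebraMap S T s)) c ℓ, e2]
      exact pow_rho_eq_zero Θ h𝔫 i hI h j (s ^ c) (hc s hs) ℓ hℓ x
    refine (hL.len_le_of_pow (j * ℓ) (c * ℓ) _ (ttMap D X i (thMap Θ T f)) hφ).trans
      (mul_le_mul_right ?_ _)
    rw [len_congr L (Submodule.quotEquivOfEq _ (LinearMap.ker (ttMap D X i (thMap Θ T g))) ?_),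
      len_congr L (ttMap D X i (thMap Θ T g)).quotKerEquivRange]
    · exact len_range_le' L _
    · rw [(h3 i).linearMap_ker_eq]

end nil

end Vale.Agent.P177.SL
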