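import Vale.Agent.P177.Perf.KTor
import Vale.Agent.P177.Perf.KzComp
import Vale.Agent.P177.SL.Base

/-!
P177, B7 block L2: powers of a sequence with null higher Koszul homology, and tensor products with
modules of finite length over a discrete valuation ring.
-/

namespace Vale.Agent.P177.KG

open scoped ENNReal Pointwise

universe u

section power

variable {R : Type u} [CommRing R] (L : ALen R) (Q : Type u) [AddCommGroup Q] [Module R Q]

variable {Q} in
theorem mem_sT {x : R} {q : Q} : q ∈ x • (⊤ : Submodule R Q) ↔ ∃ y, x • y = q := by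
  rw [Submodule.mem_smul_pointwise_iff_exists]
  simp

theorem len_quot_pow (x : R) (h : L.len (Submodule.torsionBy R Q x) = 0) (N : ℕ) :
    L.len (QuotSMulTop (x ^ N) Q) = N * L.len (QuotSMulTop x Q) := by
  induction N with
  | zero =>
    have : Subsingleton (QuotSMulTop (x ^ 0) Q) := by
      rw [pow_zero]
      refine ⟨fun a b => ?_⟩
      obtain ⟨a, rfl⟩ := Submodule.mkQ_surjective _ a
      obtain ⟨b, rfl⟩ := Submodule.mkQ_surjective _ b
      rw [← sub_eq_zero, ← map_sub, Submodule.mkQ_apply, Submodule.Quotient.mk_eq_zero, mem_sT]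
      exact ⟨_, one_smul _ _⟩
    rw [len_subsingleton, Nat.cast_zero, zero_mul]
  | succ n ih =>
    let f : QuotSMulTop (x ^ n) Q →ₗ[R] QuotSMulTop (x ^ (n + 1)) Q :=
      Submodule.mapQ _ _ (LinearMap.lsmul R Q x) (by
        intro q hq
        rw [mem_sT] at hq
        obtain ⟨y, rfl⟩ := hq
        rw [Submodule.mem_comap, mem_sT]
        exact ⟨y, by rw [LinearMap.lsmul_apply, smul_smul, pow_succ']⟩)
    let g : QuotSMulTop (x ^ (n + 1)) Q →ₗ[R] QuotSMulTop x Q :=
      Submodule.mapQ _ _ LinearMap.id (by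
        intro q hq
        rw [mem_sT] at hq
        obtain ⟨y, rfl⟩ := hq
        rw [Submodule.mem_comap, mem_sT]
        exact ⟨x ^ n • y, by rw [LinearMap.id_apply, smul_smul, pow_succ']⟩)
    have hg : Function.Surjective g := by
      intro q
      obtain ⟨q, rfl⟩ := Submodule.mkQ_surjective _ q
      exact ⟨Submodule.mkQ _ q, rfl⟩
    have hex : LinearMap.ker g = LinearMap.range f := by
      ext q
      obtain ⟨q, rfl⟩ := Submodule.mkQ_surjective _ q
      rw [LinearMap.mem_ker, LinearMap.mem_range]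
      constructor
      · intro hq
        change (x • (⊤ : Submodule R Q)).mkQ q = 0 at hq
        rw [Submodule.mkQ_apply, Submodule.Quotient.mk_eq_zero, mem_sT] at hq
        obtain ⟨y, rfl⟩ := hq
        exact ⟨Submodule.mkQ _ y, rfl⟩
      · rintro ⟨y, hy⟩
        rw [← hy]
        obtain ⟨y, rfl⟩ := Submodule.mkQ_surjective _ y
        change (x • (⊤ : Submodule R Q)).mkQ (x • y) = 0
        rw [Submodule.mkQ_apply, Submodule.Quotient.mk_eq_zero, mem_sT]
        exact ⟨y, rfl⟩
    let φ : Submodule.torsionBy R Q x →ₗ[R] QuotSMulTop (x ^ n) Q :=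
      (Submodule.mkQ _) ∘ₗ (Submodule.torsionBy R Q x).subtype
    have hker : LinearMap.ker f ≤ LinearMap.range φ := by
      intro q hq
      obtain ⟨q, rfl⟩ := Submodule.mkQ_surjective _ q
      rw [LinearMap.mem_ker] at hq
      change (x ^ (n + 1) • (⊤ : Submodule R Q)).mkQ (x • q) = 0 at hq
      rw [Submodule.mkQ_apply, Submodule.Quotient.mk_eq_zero, mem_sT] at hq
      obtain ⟨y, hy⟩ := hq
      refine ⟨⟨q - x ^ n • y, ?_⟩, ?_⟩
      · rw [Submodule.mem_torsionBy_iff, smul_sub, smul_smul, ← pow_succ', hy, sub_self]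
      · change Submodule.mkQ _ (q - x ^ n • y) = _
        rw [map_sub, sub_eq_self, Submodule.mkQ_apply, Submodule.Quotient.mk_eq_zero, mem_sT]
        exact ⟨y, rfl⟩
    have h0 : L.len (LinearMap.ker f) = 0 := by
      refine le_antisymm ?_ zero_le
      rw [← h]
      exact (len_sub_mono L hker).trans (len_range_le L φ)
    have h1 : L.len (QuotSMulTop (x ^ n) Q) = L.len (LinearMap.range f) := by
      rw [len_sub_quot L (LinearMap.ker f), h0, zero_add, len_congr L f.quotKerEquivRange]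
    have h2 : L.len (QuotSMulTop (x ^ (n + 1)) Q) =
        L.len (LinearMap.range f) + L.len (QuotSMulTop x Q) := by
      rw [len_sub_quot L (LinearMap.ker g), hex,
        ← len_congr L (g.quotKerEquivOfSurjective hg), ← hex]
    rw [h2, ← h1, ih]
    push_cast
    ring

variable {Q} in
theorem len_torsion_congr {Q' : Type u} [AddCommGroup Q'] [Module R Q'] (e : Q ≃ₗ[R] Q') (x : R) :
    L.len (Submodule.torsionBy R Q x) = L.len (Submodule.torsionBy R Q' x) := by
  refine len_congr L (LinearEquiv.ofSubmodules e _ _ ?_)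
  ext y
  simp only [Submodule.mem_map, Submodule.mem_torsionBy_iff]
  constructor
  · rintro ⟨z, hz, rfl⟩
    change x • e z = 0
    rw [← map_smul, hz, map_zero]
  · intro hy
    refine ⟨e.symm y, ?_, by simp⟩
    rw [← map_smul, hy, map_zero]

end power

section cone

variable {R : Type u} [CommRing R] (L : ALen R) (A : Cx R)

theorem ker_incH_zero (y : R) : LinearMap.ker (A.incH y 0) = y • (⊤ : Submodule R (A.H 0)) := by
  ext z
  obtain ⟨a, ha, rfl⟩ := A.cl_surj 0 z
  rw [LinearMap.mem_ker, Cx.incH, Cx.mapH_cl, Cx.cl_eq_zero, Cx.inc_zero, Cx.mem_B_cone_zero,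
    mem_sT]
  constructor
  · rintro ⟨a', b', h⟩
    refine ⟨A.cl 0 ⟨b', A.mem_Z_zero _⟩, ?_⟩
    rw [← map_smul]
    refine A.cl_eq_cl.2 ?_
    refine ⟨-a', ?_⟩
    rw [map_neg]
    change -(A.d 0 a') = y • b' - a
    rw [← h]
    abel
  · rintro ⟨w, hw⟩
    obtain ⟨b', hb', rfl⟩ := A.cl_surj 0 w
    rw [← map_smul] at hw
    obtain ⟨c, hc⟩ := A.cl_eq_cl.1 hw
    refine ⟨-c, b', ?_⟩
    rw [map_neg]
    have h1 : A.d 0 c = y • b' - a := hc
    rw [h1]
    abel

theorem len_H0_cone (y : R) : L.len ((A.cone y).H 0) = L.len (QuotSMulTop y (A.H 0)) := by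
  rw [← len_congr L ((A.incH y 0).quotKerEquivOfSurjective (A.incH_zero_surjective y))]
  exact len_congr L (Submodule.quotEquivOfEq _ _ (ker_incH_zero A y))

theorem len_torsion_H (y : R) (i : ℕ) (h : L.len ((A.cone y).H (i + 1)) = 0) :
    L.len (Submodule.torsionBy R (A.H i) y) = 0 := by
  refine le_antisymm ?_ zero_le
  rw [← h]
  refine (len_sub_mono L ?_).trans (len_range_le L (A.prjH y i))
  intro z hz
  exact A.exists_prjH y i z hz

theorem len_H0_pow_cons (x : R) (N : ℕ) (h : L.len ((A.cone x).H 1) = 0) :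
    L.len ((A.cone (x ^ N)).H 0) = N * L.len ((A.cone x).H 0) := by
  rw [len_H0_cone, len_H0_cone, len_quot_pow L _ x (len_torsion_H L A x 0 h)]

end cone

section list

variable {R : Type u} [CommRing R] (L : ALen R) (M : Type u) [AddCommGroup M] [Module R M]

theorem len_H_map_pow_eq_zero (ys zs : List R) (N i : ℕ)
    (h : L.len ((KC M (ys ++ zs)).H i) = 0) :
    L.len ((KC M (ys.map (· ^ N) ++ zs)).H i) = 0 := by
  refine le_antisymm ?_ zero_le
  refine ((kfam M).len_map_pow_append L ys zs N i).trans ?_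
  have h1 : L.len ((kfam M).H (ys ++ zs) i) = 0 := h
  rw [h1, mul_zero]

theorem len_H0_map_pow_append (ys zs : List R) (N : ℕ)
    (h0 : ∀ i, 1 ≤ i → L.len ((KC M (ys ++ zs)).H i) = 0) :
    L.len ((KC M (ys.map (· ^ N) ++ zs)).H 0) =
      (N : ℝ≥0∞) ^ ys.length * L.len ((KC M (ys ++ zs)).H 0) := by
  induction ys generalizing zs with
  | nil =>
    rw [List.length_nil, pow_zero, one_mul]
    rfl
  | cons y ys ih =>
    have hperm : (ys ++ (y :: zs)).Perm (y :: (ys ++ zs)) := List.perm_middle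
    have h0' : ∀ i, 1 ≤ i → L.len ((KC M (ys ++ (y :: zs))).H i) = 0 := by
      intro i hi
      rw [KC_len_perm L M hperm i]
      exact h0 i hi
    have hperm2 : (ys.map (· ^ N) ++ (y :: zs)).Perm (y :: (ys.map (· ^ N) ++ zs)) :=
      List.perm_middle
    have h1 : L.len ((KC M (y :: (ys.map (· ^ N) ++ zs))).H 1) = 0 := by
      rw [← KC_len_perm L M hperm2 1]
      exact len_H_map_pow_eq_zero L M ys (y :: zs) N 1 (h0' 1 le_rfl)
    have h2 : L.len ((KC M (y ^ N :: (ys.map (· ^ N) ++ zs))).H 0) =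
        N * L.len ((KC M (y :: (ys.map (· ^ N) ++ zs))).H 0) :=
      len_H0_pow_cons L (KC M (ys.map (· ^ N) ++ zs)) y N h1
    rw [List.map_cons, List.cons_append, h2, ← KC_len_perm L M hperm2 0, ih (y :: zs) h0',
      KC_len_perm L M hperm 0, List.length_cons, pow_succ, List.cons_append]
    ring

end list

end Vale.Agent.P177.KG

namespace Vale.Agent.P177.SL

open Vale.Agent.P202.Mix Function TensorProduct IsLocalRing
open scoped ENNReal Pointwise

universe u

section

variable {D : Type u} [CommRing D] (L : AddLen D) (X : Type u) [AddCommGroup X] [Module D X]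

/-- **(L2)**, first part. -/
theorem len_H0_pow (ys : List D) (h0 : ∀ i, 1 ≤ i → L.len ((KG.KC X ys).H i) = 0) (u : ℕ) :
    L.len ((KG.KC X (ys.map (· ^ u))).H 0) =
      (u : ℝ≥0∞) ^ ys.length * L.len ((KG.KC X ys).H 0) := by
  have h := KG.len_H0_map_pow_append (KG.ALen.of L) X ys [] u (by
    intro i hi
    rw [List.append_nil]
    exact h0 i hi)
  rw [List.append_nil, List.append_nil] at h
  exact h

end

section ten

variable {D : Type u} [CommRing D] (L : KG.ALen D)
  {W₀ : Type u} [CommRing W₀] [Algebra W₀ D] (Y : Type u) [AddCommGroup Y] [Module D Y]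
  [Module W₀ Y] [IsScalarTower W₀ D Y]

/-- `y ↦ y ⊗ m`. -/
def tmR {M : Type u} [AddCommGroup M] [Module W₀ M] (m : M) : Y →ₗ[D] Y ⊗[W₀] M where
  toFun y := y ⊗ₜ m
  map_add' a b := add_tmul a b m
  map_smul' d y := by rw [RingHom.id_apply, smul_tmul']

/-- `id ⊗ f`. -/
noncomputable def idT {M N : Type u} [AddCommGroup M] [Module W₀ M] [AddCommGroup N] [Module W₀ N]
    (f : M →ₗ[W₀] N) : Y ⊗[W₀] M →ₗ[D] Y ⊗[W₀] N := AlgebraTensorModule.lTensor D Y f

theorem idT_apply {M N : Type u} [AddCommGroup M] [Module W₀ M] [AddCommGroup N] [Module W₀ N]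
    (f : M →ₗ[W₀] N) (x : Y ⊗[W₀] M) : idT (D := D) Y f x = f.lTensor Y x := by
  induction x using TensorProduct.induction_on with
  | zero => rw [map_zero, map_zero]
  | tmul y m => rfl
  | add x y hx hy => rw [map_add, map_add, hx, hy]

variable {Y} in
omit [CommRing D] [Algebra W₀ D] [Module D Y] [IsScalarTower W₀ D Y] in
theorem eq_tmul_one (z : Y ⊗[W₀] W₀) : z = (TensorProduct.rid W₀ Y z) ⊗ₜ (1 : W₀) := by
  rw [← TensorProduct.rid_symm_apply, LinearEquiv.symm_apply_apply]

/-- kernel of `Y → Y ⊗ K`, `K = W₀ m̄ ≅ W₀ / π`. -/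
theorem ker_tmR (π : W₀) {K : Type u} [AddCommGroup K] [Module W₀ K] (m : K)
    (hm : ∀ w : W₀, w • m = 0 ↔ ∃ w', w = π * w') (hgen : ∀ k : K, ∃ w : W₀, w • m = k) :
    Surjective (tmR (D := D) (W₀ := W₀) Y m) ∧
      LinearMap.ker (tmR (D := D) (W₀ := W₀) Y m) =
        algebraMap W₀ D π • (⊤ : Submodule D Y) := by
  constructor
  · intro x
    induction x using TensorProduct.induction_on with
    | zero => exact ⟨0, map_zero _⟩
    | tmul y k =>
      obtain ⟨w, rfl⟩ := hgen k
      exact ⟨w • y, by change (w • y) ⊗ₜ m = _; rw [smul_tmul]⟩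
    | add x y hx hy =>
      obtain ⟨a, ha⟩ := hx
      obtain ⟨b, hb⟩ := hy
      exact ⟨a + b, by rw [map_add, ha, hb]⟩
  · ext y
    rw [LinearMap.mem_ker, KG.mem_sT]
    let φ : W₀ →ₗ[W₀] K := LinearMap.toSpanSingleton W₀ K m
    let ψ : W₀ →ₗ[W₀] W₀ := LinearMap.toSpanSingleton W₀ W₀ π
    have hex : Exact ψ φ := by
      intro w
      change w • m = 0 ↔ _
      rw [hm w]
      constructor
      · rintro ⟨w', rfl⟩
        exact ⟨w', by change w' • π = _; rw [smul_eq_mul, mul_comm]⟩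
      · rintro ⟨w', hw'⟩
        exact ⟨w', by rw [← hw']; change w' • π = _; rw [smul_eq_mul, mul_comm]⟩
    have hsurj : Surjective φ := fun k => hgen k
    constructor
    · intro hy
      have h1 : φ.lTensor Y (y ⊗ₜ (1 : W₀)) = 0 := by
        rw [LinearMap.lTensor_tmul]
        change y ⊗ₜ ((1 : W₀) • m) = 0
        rw [one_smul]
        exact hy
      obtain ⟨z, hz⟩ := ((lTensor_exact Y hex hsurj) _).1 h1
      rw [eq_tmul_one z, LinearMap.lTensor_tmul] at hz
      refine ⟨TensorProduct.rid W₀ Y z, ?_⟩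
      have h2 := congrArg (TensorProduct.rid W₀ Y) hz
      rw [TensorProduct.rid_tmul, TensorProduct.rid_tmul, one_smul] at h2
      rw [← h2, algebraMap_smul]
      change _ = ((1 : W₀) • π) • _
      rw [one_smul]
    · rintro ⟨z, rfl⟩
      change (algebraMap W₀ D π • z) ⊗ₜ m = 0
      rw [algebraMap_smul, smul_tmul, (hm π).2 ⟨1, (mul_one π).symm⟩, tmul_zero]

/-- kernel of `Y ⊗ N → Y ⊗ M` for `M / N ≅ W₀ / π`. -/
theorem ker_idT_le (π : W₀) {M : Type u} [AddCommGroup M] [Module W₀ M] (N : Submodule W₀ M)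
    (m : M) (hm : ∀ w : W₀, w • m ∈ N ↔ ∃ w', w = π * w')
    (hgen : ∀ k : M, ∃ w : W₀, k - w • m ∈ N) (x : Y ⊗[W₀] N)
    (hx : idT (D := D) Y N.subtype x = 0) :
    ∃ y : Y, algebraMap W₀ D π • y = 0 ∧ x = y ⊗ₜ (⟨π • m, (hm π).2 ⟨1, (mul_one π).symm⟩⟩ : N) := by
  let m' : N := ⟨π • m, (hm π).2 ⟨1, (mul_one π).symm⟩⟩
  let φ : (N × W₀) →ₗ[W₀] M := N.subtype.coprod (LinearMap.toSpanSingleton W₀ M m)
  let ψ : W₀ →ₗ[W₀] (N × W₀) :=
    (-(LinearMap.toSpanSingleton W₀ N m')).prod (LinearMap.toSpanSingleton W₀ W₀ π)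
  have hex : Exact ψ φ := by
    rintro ⟨k, w⟩
    change (k : M) + w • m = 0 ↔ _
    constructor
    · intro h
      have h1 : w • m ∈ N := by
        rw [← neg_eq_of_add_eq_zero_right h]
        exact N.neg_mem k.2
      obtain ⟨w', rfl⟩ := (hm w).1 h1
      refine ⟨w', Prod.ext (Subtype.ext ?_) ?_⟩
      · change -(w' • (π • m)) = (k : M)
        rw [smul_smul, mul_comm w' π]
        exact (eq_neg_of_add_eq_zero_left h).symm
      · change w' • π = _
        rw [smul_eq_mul, mul_comm]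
    · rintro ⟨w', hw'⟩
      have h1 : -(w' • (π • m)) = (k : M) := congrArg Subtype.val (congrArg Prod.fst hw')
      have h2 : w' • π = w := congrArg Prod.snd hw'
      rw [← h1, ← h2, smul_smul, smul_eq_mul, neg_add_cancel]
  have hsurj : Surjective φ := by
    intro k
    obtain ⟨w, hw⟩ := hgen k
    exact ⟨(⟨_, hw⟩, w), sub_add_cancel _ _⟩
  have h1 : φ.lTensor Y ((LinearMap.inl W₀ N W₀).lTensor Y x) = 0 := by
    rw [← LinearMap.comp_apply, ← LinearMap.lTensor_comp]
    have h2 : φ ∘ₗ LinearMap.inl W₀ N W₀ = N.subtype := by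
      ext k
      simp [φ]
    rw [h2, ← idT_apply (D := D)]
    exact hx
  obtain ⟨z, hz⟩ := ((lTensor_exact Y hex hsurj) _).1 h1
  rw [eq_tmul_one z, LinearMap.lTensor_tmul] at hz
  set y : Y := TensorProduct.rid W₀ Y z with hy
  refine ⟨-y, ?_, ?_⟩
  · have h2 := congrArg ((LinearMap.snd W₀ N W₀).lTensor Y) hz
    have h20 : (LinearMap.snd W₀ N W₀).lTensor Y ((LinearMap.inl W₀ N W₀).lTensor Y x) = 0 := by
      rw [← LinearMap.comp_apply, ← LinearMap.lTensor_comp,
        LinearMap.snd_comp_inl, LinearMap.lTensor_zero, LinearMap.zero_apply]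
    rw [LinearMap.lTensor_tmul, h20] at h2
    have h3 := congrArg (TensorProduct.rid W₀ Y) h2
    rw [map_zero, TensorProduct.rid_tmul] at h3
    have h4 : (LinearMap.snd W₀ N W₀) (ψ 1) = π := by
      change (1 : W₀) • π = π
      rw [one_smul]
    rw [h4] at h3
    rw [algebraMap_smul, smul_neg, h3, neg_zero]
  · have h2 := congrArg ((LinearMap.fst W₀ N W₀).lTensor Y) hz
    have h20 : (LinearMap.fst W₀ N W₀).lTensor Y ((LinearMap.inl W₀ N W₀).lTensor Y x) = x := by
      rw [← LinearMap.comp_apply, ← LinearMap.lTensor_comp,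
        LinearMap.fst_comp_inl, LinearMap.lTensor_id, LinearMap.id_apply]
    rw [LinearMap.lTensor_tmul, h20] at h2
    rw [← h2]
    have h4 : (LinearMap.fst W₀ N W₀) (ψ 1) = -m' := by
      change -((1 : W₀) • m') = -m'
      rw [one_smul]
    rw [h4, tmul_neg, neg_tmul]

/-- the core estimate. -/
theorem le_len_of_isFiniteLength [IsLocalRing W₀] (π : W₀)
    (hπ : maximalIdeal W₀ = Ideal.span {π})
    (hY : L.len (Submodule.torsionBy D Y (algebraMap W₀ D π)) = 0)
    {M : Type u} [AddCommGroup M] [Module W₀ M] (hM : IsFiniteLength W₀ M) (l : ℕ)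
    (hl : (l : ℕ∞) ≤ Module.length W₀ M) :
    (l : ℝ≥0∞) * L.len (QuotSMulTop (algebraMap W₀ D π) Y) ≤ L.len (Y ⊗[W₀] M) := by
  induction hM generalizing l with
  | of_subsingleton =>
    rw [Module.length_eq_zero] at hl
    have h0 : l = 0 := by
      have : (l : ℕ∞) ≤ 0 := hl
      exact_mod_cast le_antisymm this bot_le
    rw [h0, Nat.cast_zero, zero_mul]
    exact zero_le
  | @of_simple_quotient M _ _ N hs hN ih =>
    rcases Nat.eq_zero_or_pos l with rfl | hl0
    · rw [Nat.cast_zero, zero_mul]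
      exact zero_le
    obtain ⟨l, rfl⟩ : ∃ l', l = l' + 1 := ⟨l - 1, by omega⟩
    have hlen : Module.length W₀ M = Module.length W₀ N + 1 := by
      rw [Module.length_eq_add_of_exact N.subtype N.mkQ N.injective_subtype N.mkQ_surjective
        (by rw [LinearMap.exact_iff, Submodule.ker_mkQ, Submodule.range_subtype])]
      congr 1
      exact Module.length_eq_one W₀ (M ⧸ N)
    rw [hlen] at hl
    have hl' : (l : ℕ∞) ≤ Module.length W₀ N := by
      push_cast at hl
      exact (ENat.add_le_add_iff_right (by simp)).1 hl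
    have ih' := ih l hl'
    -- the simple quotient
    obtain ⟨m, hm⟩ : ∃ m : M, m ∉ N := by
      by_contra hcon
      push Not at hcon
      have h1 : N = ⊤ := (Submodule.eq_top_iff').2 hcon
      have h2 : Nontrivial (M ⧸ N) := IsSimpleModule.nontrivial W₀ (M ⧸ N)
      have h3 : Subsingleton (M ⧸ N) := Submodule.Quotient.subsingleton_iff.2 h1
      exact false_of_nontrivial_of_subsingleton (M ⧸ N)
    have hmk : N.mkQ m ≠ 0 := by
      rw [Submodule.mkQ_apply, ne_eq, Submodule.Quotient.mk_eq_zero]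
      exact hm
    have hgen : ∀ k : M ⧸ N, ∃ w : W₀, w • N.mkQ m = k := by
      intro k
      have h1 := IsSimpleModule.toSpanSingleton_surjective W₀ hmk
      exact h1 k
    have hann : ∀ w : W₀, w • N.mkQ m = 0 ↔ ∃ w', w = π * w' := by
      intro w
      have h1 : Ideal.torsionOf W₀ (M ⧸ N) (N.mkQ m) = maximalIdeal W₀ := by
        have h2 : (Ideal.torsionOf W₀ (M ⧸ N) (N.mkQ m)).IsMaximal := by
          have h3 := IsSimpleModule.ker_toSpanSingleton_isMaximal W₀ hmk
          exact h3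
        exact IsLocalRing.eq_maximalIdeal h2
      have h2 : w • N.mkQ m = 0 ↔ w ∈ Ideal.torsionOf W₀ (M ⧸ N) (N.mkQ m) := Iff.rfl
      rw [h2, h1, hπ, Ideal.mem_span_singleton']
      exact ⟨fun ⟨a, ha⟩ => ⟨a, by rw [← ha, mul_comm]⟩, fun ⟨a, ha⟩ => ⟨a, by rw [ha, mul_comm]⟩⟩
    obtain ⟨hs1, hk1⟩ := ker_tmR (D := D) Y π (N.mkQ m) hann hgen
    have e1 : L.len (Y ⊗[W₀] (M ⧸ N)) = L.len (QuotSMulTop (algebraMap W₀ D π) Y) := by
      rw [← KG.len_congr L ((tmR (D := D) (W₀ := W₀) Y (N.mkQ m)).quotKerEquivOfSurjective hs1)]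
      exact KG.len_congr L (Submodule.quotEquivOfEq _ _ hk1)
    -- the exact sequence
    have hann' : ∀ w : W₀, w • m ∈ N ↔ ∃ w', w = π * w' := by
      intro w
      rw [← hann w, ← map_smul, Submodule.mkQ_apply, Submodule.Quotient.mk_eq_zero]
    have hgen' : ∀ k : M, ∃ w : W₀, k - w • m ∈ N := by
      intro k
      obtain ⟨w, hw⟩ := hgen (N.mkQ k)
      refine ⟨w, ?_⟩
      rw [← Submodule.Quotient.mk_eq_zero, ← Submodule.mkQ_apply, map_sub, map_smul, hw, sub_self]
    set f := idT (D := D) Y N.subtype with hf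
    set g := idT (D := D) Y N.mkQ with hg
    have hexf : LinearMap.ker g = LinearMap.range f := by
      have h1 : Exact (N.subtype.lTensor Y) (N.mkQ.lTensor Y) :=
        lTensor_exact Y (by rw [LinearMap.exact_iff, Submodule.ker_mkQ, Submodule.range_subtype])
          N.mkQ_surjective
      ext x
      rw [LinearMap.mem_ker, hg, idT_apply, h1 x]
      constructor
      · rintro ⟨z, hz⟩
        exact ⟨z, by rw [hf, idT_apply, hz]⟩
      · rintro ⟨z, hz⟩
        exact ⟨z, by rw [← hz, hf, idT_apply]⟩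
    have hgs : Surjective g := by
      intro x
      obtain ⟨z, hz⟩ := LinearMap.lTensor_surjective Y N.mkQ_surjective x
      exact ⟨z, by rw [hg, idT_apply, hz]⟩
    have hker0 : L.len (LinearMap.ker f) = 0 := by
      let m' : N := ⟨π • m, (hann' π).2 ⟨1, (mul_one π).symm⟩⟩
      let φ : Submodule.torsionBy D Y (algebraMap W₀ D π) →ₗ[D] Y ⊗[W₀] N :=
        (tmR (D := D) (W₀ := W₀) Y m') ∘ₗ (Submodule.torsionBy D Y (algebraMap W₀ D π)).subtype
      refine le_antisymm ?_ zero_le
      rw [← hY]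
      refine (KG.len_sub_mono L ?_).trans (KG.len_range_le L φ)
      intro x hx
      obtain ⟨y, hy, hxy⟩ := ker_idT_le (D := D) Y π N m hann' hgen' x hx
      exact ⟨⟨y, hy⟩, hxy.symm⟩
    have e2 : L.len (Y ⊗[W₀] N) = L.len (LinearMap.range f) := by
      rw [KG.len_sub_quot L (LinearMap.ker f), hker0, zero_add, KG.len_congr L f.quotKerEquivRange]
    have e3 : L.len (Y ⊗[W₀] M) = L.len (LinearMap.range f) + L.len (Y ⊗[W₀] (M ⧸ N)) := by
      rw [KG.len_sub_quot L (LinearMap.ker g), hexf,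
        ← KG.len_congr L (g.quotKerEquivOfSurjective hgs), ← hexf]
    rw [e3, ← e2, e1]
    push_cast
    rw [add_mul, one_mul]
    exact add_le_add ih' le_rfl

end ten

section

variable {D : Type u} [CommRing D] (L : AddLen D) (X : Type u) [AddCommGroup X] [Module D X]

/-- **(L2)**, second part. -/
theorem le_len_ten {W₀ : Type u} [CommRing W₀] [IsDomain W₀] [IsDiscreteValuationRing W₀]
    [Algebra W₀ D] [Module W₀ X] [IsScalarTower W₀ D X] (π : W₀) (hπ : Irreducible π)
    (ys : List D)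
    (h0 : ∀ i, 1 ≤ i → L.len ((KG.KC X (algebraMap W₀ D π :: ys)).H i) = 0) (u : ℕ)
    (M : Type u) [AddCommGroup M] [Module W₀ M] (l : ℕ) (hl : (l : ℕ∞) ≤ Module.length W₀ M)
    (hM : IsFiniteLength W₀ M) :
    (l : ℝ≥0∞) * ((u : ℝ≥0∞) ^ ys.length * L.len ((KG.KC X (algebraMap W₀ D π :: ys)).H 0)) ≤
      L.len ((X ⧸ (Ideal.ofList (ys.map (· ^ u)) • ⊤ : Submodule D X)) ⊗[W₀] M) := by
  set x := algebraMap W₀ D π with hx
  set ys' := ys.map (· ^ u) with hys'
  set L' := KG.ALen.of L with hL'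
  have hperm : (ys ++ [x]).Perm (x :: ys) := by
    have := List.perm_middle (a := x) (l₁ := ys) (l₂ := [])
    rwa [List.append_nil] at this
  have hperm2 : (ys' ++ [x]).Perm (x :: ys') := by
    have := List.perm_middle (a := x) (l₁ := ys') (l₂ := [])
    rwa [List.append_nil] at this
  have h0' : ∀ i, 1 ≤ i → L'.len ((KG.KC X (ys ++ [x])).H i) = 0 := by
    intro i hi
    rw [KG.KC_len_perm L' X hperm i]
    exact h0 i hi
  have h1 : L'.len ((KG.KC X (x :: ys')).H 1) = 0 := by
    rw [← KG.KC_len_perm L' X hperm2 1]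
    exact KG.len_H_map_pow_eq_zero L' X ys [x] u 1 (h0' 1 le_rfl)
  have h2 : L'.len ((KG.KC X (x :: ys')).H 0) =
      (u : ℝ≥0∞) ^ ys.length * L'.len ((KG.KC X (x :: ys)).H 0) := by
    rw [← KG.KC_len_perm L' X hperm2 0, ← KG.KC_len_perm L' X hperm 0]
    exact KG.len_H0_map_pow_append L' X ys [x] u h0'
  -- `Y = X / (ys ^ u) X`
  let e : (X ⧸ (Ideal.ofList ys' • ⊤ : Submodule D X)) ≃ₗ[D] (KG.KC X ys').H 0 :=
    (Submodule.quotEquivOfEq _ _ (KG.ker_u0 X ys').symm).trans
      ((KG.u0 X ys').quotKerEquivOfSurjective (KG.u0_surjective X ys'))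
  have h3 : L'.len (Submodule.torsionBy D (X ⧸ (Ideal.ofList ys' • ⊤ : Submodule D X)) x) = 0 := by
    rw [KG.len_torsion_congr L' e x]
    exact KG.len_torsion_H L' (KG.KC X ys') x 0 h1
  have h4 : L'.len (QuotSMulTop x (X ⧸ (Ideal.ofList ys' • ⊤ : Submodule D X))) =
      L'.len ((KG.KC X (x :: ys')).H 0) := by
    rw [KG.len_congr L' (QuotSMulTop.congr x e)]
    exact (KG.len_H0_cone L' (KG.KC X ys') x).symm
  have h5 := le_len_of_isFiniteLength L' (W₀ := W₀)
    (X ⧸ (Ideal.ofList ys' • ⊤ : Submodule D X)) π hπ.maximalIdeal_eq h3 hM l hl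
  rw [← hx, h4, h2] at h5
  exact h5

end

end Vale.Agent.P177.SL
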