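import Vale.Agent.P177.SL.LimLen

/-!
Additive lengths on the modules over the Witt vectors of a product of rings.
-/

namespace Vale.Agent.P177.SL

open Vale.Agent.P202.Mix Function TensorProduct Filter
open scoped ENNReal Topology

universe u

/-- projections to direct factors are flat. -/
theorem flat_of_idem {R R' : Type u} [CommRing R] [CommRing R'] [Algebra R R']
    (hs : Surjective (algebraMap R R')) (ε : R) (h1 : algebraMap R R' ε = 1)
    (h0 : ∀ x, algebraMap R R' x = 0 → ε * x = 0) : Module.Flat R R' := by
  choose g hg using hs
  let i : R' →ₗ[R] R :=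
    { toFun := fun x => ε * g x
      map_add' := fun x y => by
        rw [← mul_add, ← sub_eq_zero, ← mul_sub]
        apply h0
        rw [map_sub, map_add, hg, hg, hg, sub_self]
      map_smul' := fun a x => by
        rw [RingHom.id_apply, smul_eq_mul, ← mul_assoc, mul_comm a ε, mul_assoc, ← sub_eq_zero,
          ← mul_sub]
        apply h0
        rw [map_sub, map_mul, hg, hg, Algebra.smul_def, sub_self] }
  refine Module.Flat.of_retract i (Algebra.linearMap R R') ?_
  ext x
  change algebraMap R R' (ε * g x) = x
  rw [map_mul, h1, one_mul, hg]

section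

variable (p : ℕ) [Fact p.Prime] {ι : Type u} (C : ι → Type u) [∀ e, CommRing (C e)]

/-- the projection of the Witt vectors of a product. -/
noncomputable def prW (e : ι) : WittVector p (∀ e, C e) →+* WittVector p (C e) :=
  WittVector.map (Pi.evalRingHom C e)

theorem prW_coeff (e : ι) (x : WittVector p (∀ e, C e)) (n : ℕ) :
    (prW p C e x).coeff n = x.coeff n e := by
  rw [prW, WittVector.map_coeff]
  rfl

theorem prW_ext {x y : WittVector p (∀ e, C e)} (h : ∀ e, prW p C e x = prW p C e y) : x = y := by
  ext n e
  rw [← prW_coeff, ← prW_coeff, h]

theorem prW_surjective (e : ι) : Surjective (prW p C e) := by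
  classical
  intro y
  refine ⟨WittVector.mk p fun n => Pi.single e (y.coeff n), ?_⟩
  ext n
  rw [prW_coeff]
  simp

theorem prW_teichmuller (e : ι) (c : ∀ e, C e) :
    prW p C e (WittVector.teichmuller p c) = WittVector.teichmuller p (c e) := by
  rw [prW, WittVector.map_teichmuller]
  rfl

theorem flat_prW (e : ι) : letI := (prW p C e).toAlgebra
    Module.Flat (WittVector p (∀ e, C e)) (WittVector p (C e)) := by
  classical
  let _ := (prW p C e).toAlgebra
  refine flat_of_idem (prW_surjective p C e)
    (WittVector.teichmuller p (Pi.single e 1 : ∀ e, C e)) ?_ ?_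
  · change prW p C e _ = 1
    rw [prW_teichmuller, Pi.single_eq_same, map_one]
  · intro x hx
    change prW p C e x = 0 at hx
    apply prW_ext
    intro f
    rw [map_mul, prW_teichmuller, map_zero]
    by_cases hf : f = e
    · subst hf
      rw [hx, mul_zero]
    · rw [Pi.single_eq_of_ne hf, WittVector.teichmuller_zero, zero_mul]

/-- the length of the component `e`. -/
noncomputable def compLen (e : ι) (L : AddLen (WittVector p (C e))) :
    AddLen (WittVector p (∀ e, C e)) :=
  letI := (prW p C e).toAlgebra
  haveI := flat_prW p C e
  bcLen (WittVector p (∀ e, C e)) L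

/-- the limit length on the modules over the Witt vectors of the product. -/
noncomputable def massU (U : Ultrafilter ι) (L : ∀ e, AddLen (WittVector p (C e))) :
    AddLen (WittVector p (∀ e, C e)) :=
  limLen U fun e => compLen p C e (L e)

/-- the mass: the limit length with the torsion of `[η]` killed. -/
noncomputable def mass (U : Ultrafilter ι) (L : ∀ e, AddLen (WittVector p (C e)))
    (η : ∀ e, C e) : AddLen (WittVector p (∀ e, C e)) :=
  etaLen (massU p C U L) (WittVector.teichmuller p η)

end

end Vale.Agent.P177.SL
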