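import Vale.Agent.P177.SL.Growth
import Vale.Agent.P177.SL.LenPow
import Vale.Agent.P177.SL.Nil
import Vale.Agent.P177.B8.Dev

/-!
P177, block RHO, part A: if a nonzero element `γ` of the base acts by null maps on the modules
`Tor_j(E ⊗ N, Y)`, `N` of finite length, then the Euler characteristic of `E ⊗ k` and `Y` is zero.
-/

namespace Vale.Agent.P177.SL

open Vale.Agent.P202.Mix Function TensorProduct IsLocalRing
open scoped ENNReal Pointwise

universe u

section lenL

variable (Λ : Type u) [CommRing Λ]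

/-- the usual length as an additive length. -/
noncomputable def lengthLen : AddLen Λ where
  len M _ _ := ENat.toENNReal (Module.length Λ M)
  zero := by
    rw [Module.length_eq_zero_iff.2 inferInstance]
    exact ENat.toENNReal_zero
  add f g hf hg h := by
    rw [Module.length_eq_add_of_exact f g hf hg h, ENat.toENNReal_add]

theorem lengthLen_len (M : Type u) [AddCommGroup M] [Module Λ M] :
    (lengthLen Λ).len M = ENat.toENNReal (Module.length Λ M) := rfl

end lenL

section A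

variable {Λ E : Type u} [CommRing Λ] [CommRing E] [Algebra Λ E] [Module.Flat Λ E] (L : AddLen E)
  (Y : Type u) [AddCommGroup Y] [Module E Y]

/-- the length of `Tor_j(E ⊗ N, Y)` is at most `length N` times that of `Tor_j(E ⊗ k, Y)`. -/
theorem tl_le_length_mul [IsLocalRing Λ] (j : ℕ) (N : Type u) [AddCommGroup N] [Module Λ N]
    (hN : IsFiniteLength Λ N) :
    B8.tl L Y j (E ⊗[Λ] N) ≤ ENat.toENNReal (Module.length Λ N) *
      B8.tl L Y j (E ⊗[Λ] (Λ ⧸ maximalIdeal Λ)) := by
  induction hN with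
  | of_subsingleton =>
    rename_i M _ _ _
    have : Subsingleton (E ⊗[Λ] M) := by
      refine ⟨fun a b => ?_⟩
      have h : ∀ a : E ⊗[Λ] M, a = 0 := by
        intro a
        induction a using TensorProduct.induction_on with
        | zero => rfl
        | tmul x y =>
          have : y = 0 := Subsingleton.elim _ _
          rw [this, TensorProduct.tmul_zero]
        | add a b ha hb => rw [ha, hb, add_zero]
      rw [h a, h b]
    rw [B8.tl_subsingleton L Y j]
    exact zero_le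
  | of_simple_quotient hN ih =>
    rename_i M _ _ N _
    obtain ⟨m, hm, ⟨e⟩⟩ := isSimpleModule_iff_quot_maximal.mp (‹IsSimpleModule Λ (M ⧸ N)›)
    obtain rfl := IsLocalRing.eq_maximalIdeal hm
    have q1 := B8.tl_baseChange_congr L Y e j
    have hf : Function.Injective (N.subtype.baseChange E) :=
      Module.Flat.lTensor_preserves_injective_linearMap (M := E) N.subtype N.injective_subtype
    have hg : Function.Surjective (N.mkQ.baseChange E) :=
      LinearMap.lTensor_surjective E N.mkQ_surjective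
    have hex : Function.Exact N.subtype N.mkQ := by
      rw [LinearMap.exact_iff, Submodule.ker_mkQ, Submodule.range_subtype]
    have hfg : Function.Exact (N.subtype.baseChange E) (N.mkQ.baseChange E) :=
      lTensor_exact E hex N.mkQ_surjective
    refine (B8.tl_le_add L Y _ _ hf hg hfg j).trans ?_
    have h1 : Module.length Λ M = Module.length Λ N + 1 := by
      rw [Module.length_eq_add_of_exact N.subtype N.mkQ N.injective_subtype N.mkQ_surjective hex]
      congr 1
      exact Module.length_eq_one (R := Λ) (M := M ⧸ N)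
    rw [h1, q1, ENat.toENNReal_add, add_mul, ENat.toENNReal_one, one_mul]
    exact add_le_add ih le_rfl

/-- The lengths of `Tor_j(E ⊗ N, Y)` when the multiplication by `γ` is null. -/
theorem tl_le_of_null [IsLocalRing Λ] (γ : Λ) (j : ℕ) (N : Type u) [AddCommGroup N] [Module Λ N]
    (hN : IsFiniteLength Λ N)
    (hnull : L.len (LinearMap.range (LinearMap.lsmul E (TorM E j (E ⊗[Λ] N) Y)
      (algebraMap Λ E γ))) = 0) :
    B8.tl L Y j (E ⊗[Λ] N) ≤ ENat.toENNReal (Module.length Λ (N ⧸ LinearMap.range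
      (LinearMap.lsmul Λ N γ))) * (B8.tl L Y j (E ⊗[Λ] (Λ ⧸ maximalIdeal Λ)) +
        B8.tl L Y (j + 1) (E ⊗[Λ] (Λ ⧸ maximalIdeal Λ))) := by
  obtain ⟨hN1, hN2⟩ := isFiniteLength_iff_isNoetherian_isArtinian.1 hN
  let f : N →ₗ[Λ] N := LinearMap.lsmul Λ N γ
  let K := LinearMap.ker f
  let I := LinearMap.range f
  let π : N →ₗ[Λ] I := f.rangeRestrict
  have hK : IsFiniteLength Λ K := isFiniteLength_iff_isNoetherian_isArtinian.2
    ⟨inferInstance, inferInstance⟩
  have hQ : IsFiniteLength Λ (N ⧸ I) := isFiniteLength_iff_isNoetherian_isArtinian.2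
    ⟨inferInstance, inferInstance⟩
  have hlen : Module.length Λ K = Module.length Λ (N ⧸ I) := by
    have h1 := Module.length_eq_add_of_exact K.subtype π K.injective_subtype
      f.surjective_rangeRestrict (by
        rw [LinearMap.exact_iff, LinearMap.ker_rangeRestrict, Submodule.range_subtype])
    have h2 := Module.length_eq_add_of_exact I.subtype I.mkQ I.injective_subtype
      I.mkQ_surjective (by rw [LinearMap.exact_iff, Submodule.ker_mkQ, Submodule.range_subtype])
    have h3 : Module.length Λ I ≠ ⊤ := Module.length_ne_top_iff.2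
      (isFiniteLength_iff_isNoetherian_isArtinian.2 ⟨inferInstance, inferInstance⟩)
    rw [h1, add_comm] at h2
    exact (ENat.add_right_injective_of_ne_top h3) h2
  -- exact sequences
  have e1 : Exact (K.subtype.baseChange E) (π.baseChange E) := by
    refine lTensor_exact E ?_ f.surjective_rangeRestrict
    rw [LinearMap.exact_iff, LinearMap.ker_rangeRestrict, Submodule.range_subtype]
  have e1i : Injective (K.subtype.baseChange E) :=
    Module.Flat.lTensor_preserves_injective_linearMap (M := E) K.subtype K.injective_subtype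
  have e1s : Surjective (π.baseChange E) :=
    LinearMap.lTensor_surjective E f.surjective_rangeRestrict
  have e2 : Exact (I.subtype.baseChange E) (I.mkQ.baseChange E) := by
    refine lTensor_exact E ?_ I.mkQ_surjective
    rw [LinearMap.exact_iff, Submodule.ker_mkQ, Submodule.range_subtype]
  have e2i : Injective (I.subtype.baseChange E) :=
    Module.Flat.lTensor_preserves_injective_linearMap (M := E) I.subtype I.injective_subtype
  have e2s : Surjective (I.mkQ.baseChange E) :=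
    LinearMap.lTensor_surjective E I.mkQ_surjective
  obtain ⟨δ1, -, -, x1⟩ := exists_torDelta _ _ e1i e1s e1 Y
  obtain ⟨δ2, -, x2, -⟩ := exists_torDelta _ _ e2i e2s e2 Y
  let A := torMap j (π.baseChange E) Y
  let B := torMap j (I.subtype.baseChange E) Y
  have hBA : ∀ x, B (A x) = algebraMap Λ E γ • x := by
    intro x
    have h1 : B (A x) = torMap j ((I.subtype ∘ₗ π).baseChange E) Y x := by
      rw [LinearMap.baseChange_comp, torMap_comp]
      rfl
    rw [h1]
    refine torMap_smul_id j (algebraMap Λ E γ) _ (baseChange_smul_eq γ _ fun m => ?_) x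
    rfl
  have h1 : B8.tl L Y j (E ⊗[Λ] N) = L.len (LinearMap.ker A) + L.len (LinearMap.range A) :=
    len_ker_add_range L A
  have h2 : L.len (LinearMap.ker A) ≤ B8.tl L Y j (E ⊗[Λ] K) := by
    rw [(x1 j).linearMap_ker_eq]
    exact len_range_le L _
  -- the range of `A`
  let B' := B ∘ₗ (LinearMap.range A).subtype
  have h3 : L.len (LinearMap.range B') = 0 := by
    have h4 : LinearMap.range B' ≤ LinearMap.range (LinearMap.lsmul E (TorM E j (E ⊗[Λ] N) Y)
        (algebraMap Λ E γ)) := by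
      rintro _ ⟨⟨_, x, rfl⟩, rfl⟩
      exact ⟨x, (hBA x).symm⟩
    exact le_antisymm ((len_mono L h4).trans hnull.le) bot_le
  have h4 : L.len (LinearMap.ker B') ≤ B8.tl L Y (j + 1) (E ⊗[Λ] (N ⧸ I)) := by
    have h5 : L.len (LinearMap.ker B') ≤ L.len (LinearMap.ker B) := by
      refine len_le_of_injective L (((LinearMap.range A).subtype ∘ₗ
        (LinearMap.ker B').subtype).codRestrict (LinearMap.ker B) fun x => x.2) ?_
      intro x y hxy
      have h6 := congrArg Subtype.val hxy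
      exact Subtype.ext (Subtype.ext h6)
    refine h5.trans ?_
    rw [(x2 j).linearMap_ker_eq]
    exact len_range_le L _
  have h5 : L.len (LinearMap.range A) ≤ B8.tl L Y (j + 1) (E ⊗[Λ] (N ⧸ I)) := by
    rw [len_ker_add_range L B', h3, add_zero]
    exact h4
  rw [h1, mul_add]
  refine add_le_add (h2.trans ?_) (h5.trans ?_)
  · rw [← hlen]
    exact tl_le_length_mul L Y j K hK
  · exact tl_le_length_mul L Y (j + 1) (N ⧸ I) hQ

end A

section growth

variable {Λ : Type u} [CommRing Λ]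

theorem ofList_pow_le (ys : List Λ) (m : ℕ) :
    Ideal.ofList ys ^ (ys.length * m + 1) ≤ Ideal.ofList (ys.map (· ^ m)) := by
  induction ys with
  | nil =>
    rw [List.length_nil, Nat.zero_mul, pow_add, pow_zero, pow_one, one_mul, List.map_nil]
  | cons y ys ih =>
    rw [List.length_cons, add_mul, one_mul, show ys.length * m + m + 1 =
      m + (ys.length * m + 1) by ring, Ideal.ofList_cons, List.map_cons, Ideal.ofList_cons]
    refine (Ideal.sup_pow_add_le_pow_sup_pow).trans (sup_le_sup ?_ ih)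
    rw [Ideal.span_singleton_pow]

/-- the length of `N / q N` as a growth function. -/
noncomputable def quoFn [IsLocalRing Λ] (q : Ideal Λ) (m : ℕ) (hq : maximalIdeal Λ ^ m ≤ q) :
    GrowthFn Λ ⊥ m where
  τ N _ _ := (lengthLen Λ).len (N ⧸ (q • ⊤ : Submodule Λ N))
  zero N _ _ _ := len_subsingleton _
  sub {N' N N''} _ _ _ _ _ _ _ _ _ f g hf hg h _ := by
    refine len_le_of_exact (lengthLen Λ)
      (Submodule.mapQ (q • ⊤) (q • ⊤) f (by
        rw [← Submodule.map_le_iff_le_comap, Submodule.map_smul'']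
        exact Submodule.smul_mono le_rfl le_top))
      (Submodule.mapQ (q • ⊤) (q • ⊤) g (by
        rw [← Submodule.map_le_iff_le_comap, Submodule.map_smul'']
        exact Submodule.smul_mono le_rfl le_top)) ?_
    intro x
    obtain ⟨x, rfl⟩ := Submodule.Quotient.mk_surjective _ x
    constructor
    · intro hx
      rw [Submodule.mapQ_apply, Submodule.Quotient.mk_eq_zero] at hx
      have h1 : g x ∈ Submodule.map g (q • ⊤ : Submodule Λ N) := by
        rw [Submodule.map_smul'', Submodule.map_top, LinearMap.range_eq_top.2 hg]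
        exact hx
      obtain ⟨y, hy, hyx⟩ := h1
      obtain ⟨z, hz⟩ := (h (x - y)).1 (by rw [map_sub, hyx, sub_self])
      refine ⟨Submodule.Quotient.mk z, ?_⟩
      rw [Submodule.mapQ_apply, hz, Submodule.Quotient.eq]
      rw [show x - y - x = -y by abel]
      exact neg_mem hy
    · rintro ⟨z, hz⟩
      obtain ⟨z, rfl⟩ := Submodule.Quotient.mk_surjective _ z
      rw [← hz, Submodule.mapQ_apply, Submodule.mapQ_apply, h.apply_apply_eq_zero]
      rfl
  step {N N''} _ _ _ _ _ _ s f g hs hf _ hg h _ := by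
    let V := N ⧸ (q • ⊤ : Submodule Λ N)
    let φ : V →ₗ[Λ] V := LinearMap.lsmul Λ V s
    have hφ : ∀ x : V, (φ ^ m) x = 0 := by
      intro x
      have h1 : ∀ k, (φ ^ k) x = s ^ k • x := by
        intro k
        induction k with
        | zero => rw [pow_zero, pow_zero, one_smul]; rfl
        | succ k ih =>
          rw [pow_succ', Module.End.mul_apply, ih, pow_succ', mul_smul]
          rfl
      rw [h1]
      obtain ⟨x, rfl⟩ := Submodule.Quotient.mk_surjective _ x
      rw [← Submodule.Quotient.mk_smul, Submodule.Quotient.mk_eq_zero]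
      exact Submodule.smul_mem_smul (hq (Ideal.pow_mem_pow hs m)) Submodule.mem_top
    refine (len_le_of_pow_eq_zero (lengthLen Λ) m V φ hφ).trans (mul_le_mul_right ?_ _)
    -- the surjection
    let ψ : N →ₗ[Λ] (V ⧸ LinearMap.range φ) :=
      (LinearMap.range φ).mkQ ∘ₗ (q • ⊤ : Submodule Λ N).mkQ
    have hψ : LinearMap.ker g ≤ LinearMap.ker ψ := by
      intro x hx
      obtain ⟨y, rfl⟩ := (h x).1 hx
      rw [LinearMap.mem_ker]
      show Submodule.Quotient.mk (Submodule.Quotient.mk (f y)) = _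
      rw [hf, Submodule.Quotient.mk_eq_zero]
      exact ⟨Submodule.Quotient.mk y, rfl⟩
    let ψ' : N'' →ₗ[Λ] (V ⧸ LinearMap.range φ) :=
      (Submodule.liftQ _ ψ hψ) ∘ₗ (g.quotKerEquivOfSurjective hg).symm.toLinearMap
    have hψ' : ∀ x, ψ' (g x) = ψ x := by
      intro x
      have h1 : (g.quotKerEquivOfSurjective hg).symm (g x) = Submodule.Quotient.mk x := by
        rw [LinearEquiv.symm_apply_eq]
        rfl
      show (Submodule.liftQ _ ψ hψ) ((g.quotKerEquivOfSurjective hg).symm (g x)) = _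
      rw [h1]
      rfl
    have hker : (q • ⊤ : Submodule Λ N'') ≤ LinearMap.ker ψ' := by
      rw [Submodule.smul_le]
      intro a ha x _
      obtain ⟨x, rfl⟩ := hg x
      rw [LinearMap.mem_ker, map_smul, hψ']
      show a • Submodule.Quotient.mk (Submodule.Quotient.mk x) = _
      rw [← Submodule.Quotient.mk_smul, ← Submodule.Quotient.mk_smul]
      have h1 : (Submodule.Quotient.mk (a • x) : V) = 0 := by
        rw [Submodule.Quotient.mk_eq_zero]
        exact Submodule.smul_mem_smul ha Submodule.mem_top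
      rw [h1]
      rfl
    refine len_le_of_surjective (lengthLen Λ) (Submodule.liftQ _ ψ' hker) ?_
    intro y
    obtain ⟨y, rfl⟩ := Submodule.Quotient.mk_surjective _ y
    obtain ⟨y, rfl⟩ := Submodule.Quotient.mk_surjective _ y
    refine ⟨Submodule.Quotient.mk (g y), ?_⟩
    rw [Submodule.liftQ_apply, hψ']
    rfl

theorem quoFn_τ [IsLocalRing Λ] (q : Ideal Λ) (m : ℕ) (hq : maximalIdeal Λ ^ m ≤ q)
    (N : Type u) [AddCommGroup N] [Module Λ N] : (quoFn q m hq).τ N =
      ENat.toENNReal (Module.length Λ (N ⧸ (q • ⊤ : Submodule Λ N))) := rfl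

/-- the length of `Λ / (γ, y^m)` has growth of lower order. -/
theorem exists_growth_quot [IsLocalRing Λ] [IsNoetherianRing Λ] [IsDomain Λ] (ys : List Λ)
    (hys : Ideal.ofList ys = maximalIdeal Λ) (D : ℕ) (hdim : ringKrullDim Λ = (D + 1 : ℕ))
    (γ : Λ) (hγ : γ ≠ 0) (hγm : γ ∈ maximalIdeal Λ) :
    ∃ K : ℕ, ∀ m : ℕ, ENat.toENNReal (Module.length Λ ((Λ ⧸ Ideal.ofList (ys.map (· ^ m))) ⧸
      LinearMap.range (LinearMap.lsmul Λ (Λ ⧸ Ideal.ofList (ys.map (· ^ m))) γ))) ≤
        K * ((ys.length * m + 1 : ℕ) : ℝ≥0∞) ^ D := by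
  have h1 : Module.supportDim Λ (QuotSMulTop γ Λ) ≤ (D : WithBot ℕ∞) := by
    have h2 := Module.supportDim_quotSMulTop_succ_eq_supportDim (R := Λ) (M := Λ) (x := γ)
      (fun a b hab => mul_left_cancel₀ hγ hab) hγm
    rw [Module.supportDim_self_eq_ringKrullDim, hdim] at h2
    have h3 : Module.supportDim Λ (QuotSMulTop γ Λ) + 1 ≤ ((D : WithBot ℕ∞) + 1) := by
      rw [h2]
      push_cast
      rfl
    exact ENat.WithBot.add_le_add_one_right_iff.1 h3
  obtain ⟨K, hK⟩ := growth (⊥ : Ideal Λ) D (QuotSMulTop γ Λ) bot_le h1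
  refine ⟨K, fun m => ?_⟩
  have hq : maximalIdeal Λ ^ (ys.length * m + 1) ≤ Ideal.ofList (ys.map (· ^ m)) := by
    rw [← hys]
    exact ofList_pow_le ys m
  set q := Ideal.ofList (ys.map (· ^ m)) with hqdef
  have h2 := hK ((ys.length * m + 1 : ℕ) : ℝ≥0∞) (by
    have : (1 : ℕ) ≤ ys.length * m + 1 := by omega
    exact_mod_cast this) (quoFn q _ hq)
  have h3 : (quoFn q _ hq).τ (Λ ⧸ maximalIdeal Λ) ≤ 1 := by
    have h4 : (quoFn q _ hq).τ (Λ ⧸ maximalIdeal Λ) ≤
        (lengthLen Λ).len (Λ ⧸ maximalIdeal Λ) :=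
      len_le_of_surjective (lengthLen Λ) (Submodule.mkQ _) (Submodule.mkQ_surjective _)
    refine h4.trans ?_
    rw [lengthLen_len]
    have : IsSimpleModule Λ (Λ ⧸ maximalIdeal Λ) :=
      isSimpleModule_iff_quot_maximal.2 ⟨_, inferInstance, ⟨LinearEquiv.refl _ _⟩⟩
    rw [Module.length_eq_one, ENat.toENNReal_one]
  have h4 : ENat.toENNReal (Module.length Λ ((Λ ⧸ q) ⧸
      LinearMap.range (LinearMap.lsmul Λ (Λ ⧸ q) γ))) ≤ (quoFn q _ hq).τ (QuotSMulTop γ Λ) := by
    let T := (Λ ⧸ q) ⧸ LinearMap.range (LinearMap.lsmul Λ (Λ ⧸ q) γ)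
    let ψ : Λ →ₗ[Λ] T := (LinearMap.range (LinearMap.lsmul Λ (Λ ⧸ q) γ)).mkQ ∘ₗ q.mkQ
    have hψ1 : γ • (⊤ : Submodule Λ Λ) ≤ LinearMap.ker ψ := by
      intro x hx
      obtain ⟨y, -, rfl⟩ := (Submodule.mem_smul_pointwise_iff_exists _ _ _).1 hx
      rw [LinearMap.mem_ker]
      show Submodule.Quotient.mk (Submodule.Quotient.mk (γ • y)) = _
      rw [Submodule.Quotient.mk_eq_zero]
      exact ⟨Submodule.Quotient.mk y, rfl⟩
    let ψ2 : QuotSMulTop γ Λ →ₗ[Λ] T := Submodule.liftQ _ ψ hψ1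
    have hψ2 : (q • ⊤ : Submodule Λ (QuotSMulTop γ Λ)) ≤ LinearMap.ker ψ2 := by
      rw [Submodule.smul_le]
      intro a ha x _
      obtain ⟨x, rfl⟩ := Submodule.Quotient.mk_surjective _ x
      rw [LinearMap.mem_ker, map_smul]
      show a • Submodule.Quotient.mk (Submodule.Quotient.mk x) = _
      rw [← Submodule.Quotient.mk_smul, ← Submodule.Quotient.mk_smul]
      have h1 : (Submodule.Quotient.mk (a • x) : Λ ⧸ q) = 0 := by
        rw [Submodule.Quotient.mk_eq_zero]
        exact Ideal.mul_mem_right _ _ ha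
      rw [h1]
      rfl
    refine len_le_of_surjective (lengthLen Λ) (Submodule.liftQ _ ψ2 hψ2) ?_
    intro y
    obtain ⟨y, rfl⟩ := Submodule.Quotient.mk_surjective _ y
    obtain ⟨y, rfl⟩ := Submodule.Quotient.mk_surjective _ y
    exact ⟨Submodule.Quotient.mk (Submodule.Quotient.mk y), rfl⟩
  refine h4.trans (h2.trans ?_)
  calc (K : ℝ≥0∞) * ((ys.length * m + 1 : ℕ) : ℝ≥0∞) ^ D * (quoFn q _ hq).τ (Λ ⧸ maximalIdeal Λ)
      ≤ K * ((ys.length * m + 1 : ℕ) : ℝ≥0∞) ^ D * 1 := by gcongr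
    _ = _ := by rw [mul_one]

end growth

section main

variable {Λ E : Type u} [CommRing Λ] [CommRing E] [Algebra Λ E] [Module.Flat Λ E] (L : AddLen E)
  (Y : Type u) [AddCommGroup Y] [Module E Y]

/-- **Vanishing of the Euler characteristic** when a nonzero element of the base acts by null
maps. -/
theorem chi_eq_zero_of_null [IsLocalRing Λ] [IsNoetherianRing Λ] [IsDomain Λ] (ys : List Λ)
    (hys : Ideal.ofList ys = maximalIdeal Λ) (D : ℕ) (hlen : ys.length = D + 1)
    (hdim : ringKrullDim Λ = (D + 1 : ℕ)) (b : ℕ)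
    (hfin : ∀ j, B8.tl L Y j (E ⊗[Λ] (Λ ⧸ maximalIdeal Λ)) ≠ ⊤)
    (hvan : ∀ j, b ≤ j → B8.tl L Y j (E ⊗[Λ] (Λ ⧸ maximalIdeal Λ)) = 0)
    (γ : Λ) (hγ : γ ≠ 0)
    (hnull : ∀ (N : Type u) [AddCommGroup N] [Module Λ N], IsFiniteLength Λ N → ∀ j,
      L.len (LinearMap.range (LinearMap.lsmul E (TorM E j (E ⊗[Λ] N) Y)
        (algebraMap Λ E γ))) = 0) :
    B8.chi L Y (b + 1) (E ⊗[Λ] (Λ ⧸ maximalIdeal Λ)) = 0 := by
  classical
  -- reduce to `γ` in the maximal ideal
  wlog hγm : γ ∈ maximalIdeal Λ generalizing γ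
  · have h1 : maximalIdeal Λ ≠ ⊥ := by
      intro h
      have h2 : IsField Λ := IsLocalRing.isField_iff_maximalIdeal_eq.2 h
      have h3 := ringKrullDim_eq_zero_of_isField h2
      rw [hdim] at h3
      norm_cast at h3
    obtain ⟨y, hy, hy0⟩ := Submodule.exists_mem_ne_zero_of_ne_bot h1
    refine this (y * γ) (mul_ne_zero hy0 hγ) (fun N _ _ hN j => ?_) (Ideal.mul_mem_right _ _ hy)
    refine le_antisymm ((len_mono L ?_).trans (hnull N hN j).le) bot_le
    rintro _ ⟨x, rfl⟩
    refine ⟨algebraMap Λ E y • x, ?_⟩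
    show algebraMap Λ E γ • algebraMap Λ E y • x = algebraMap Λ E (y * γ) • x
    rw [smul_smul, map_mul, mul_comm]
  obtain ⟨K, hK⟩ := exists_growth_quot ys hys D hdim γ hγ hγm
  -- the sums
  set τ : ℕ → ℝ≥0∞ := fun j => B8.tl L Y j (E ⊗[Λ] (Λ ⧸ maximalIdeal Λ)) with hτ
  set T : ℝ := ∑ j ∈ Finset.range (b + 1), (τ j + τ (j + 1)).toReal with hT
  set χ := B8.chi L Y (b + 1) (E ⊗[Λ] (Λ ⧸ maximalIdeal Λ)) with hχ
  have hT0 : 0 ≤ T := Finset.sum_nonneg fun _ _ => ENNReal.toReal_nonneg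
  have key : ∀ m : ℕ, 1 ≤ m →
      (m : ℝ) ^ (D + 1) * |χ| ≤ (K : ℝ) * ((ys.length * m + 1 : ℕ) : ℝ) ^ D * T := by
    intro m hm
    set q := Ideal.ofList (ys.map (· ^ m)) with hq
    have hqm : maximalIdeal Λ ^ (ys.length * m + 1) ≤ q := by
      rw [← hys]
      exact ofList_pow_le ys m
    have hN : IsFiniteLength Λ (Λ ⧸ q) := by
      refine isFiniteLength_of_pow_smul_eq_zero (ys.length * m + 1) fun a ha x => ?_
      obtain ⟨x, rfl⟩ := Submodule.Quotient.mk_surjective _ x
      rw [← Submodule.Quotient.mk_smul, Submodule.Quotient.mk_eq_zero]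
      exact Ideal.mul_mem_right _ _ (hqm ha)
    obtain ⟨-, -, hdev⟩ := B8.devissage L Y b hfin hvan (Λ ⧸ q) hN
    have hlow : ((m ^ (D + 1) : ℕ) : ℕ∞) ≤ Module.length Λ (Λ ⧸ q) := by
      have h1 := pow_le_length Λ ys (fun z hz => by
        rw [← hys]
        exact Ideal.subset_span hz) (by
          rw [Module.supportDim_self_eq_ringKrullDim, hdim, hlen]) m hm
      rw [hlen] at h1
      refine h1.trans (le_of_eq ?_)
      rw [show (Ideal.ofList (ys.map (· ^ m)) • ⊤ : Submodule Λ Λ) = q by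
        rw [smul_eq_mul, Ideal.mul_top]]
    have hlow' : (m : ℝ) ^ (D + 1) ≤ ((Module.length Λ (Λ ⧸ q)).toNat : ℝ) := by
      have h1 : Module.length Λ (Λ ⧸ q) ≠ ⊤ := Module.length_ne_top_iff.2 hN
      have h2 := ENat.toNat_le_toNat hlow h1
      rw [ENat.toNat_natCast] at h2
      exact_mod_cast h2
    -- upper bound
    have hup : |B8.chi L Y (b + 1) (E ⊗[Λ] (Λ ⧸ q))| ≤
        (K : ℝ) * ((ys.length * m + 1 : ℕ) : ℝ) ^ D * T := by
      unfold B8.chi
      refine (Finset.abs_sum_le_sum_abs _ _).trans ?_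
      rw [hT, Finset.mul_sum]
      refine Finset.sum_le_sum fun j _ => ?_
      rw [abs_mul, abs_pow, abs_neg, abs_one, one_pow, one_mul,
        abs_of_nonneg ENNReal.toReal_nonneg]
      have h1 := (tl_le_of_null L Y γ j (Λ ⧸ q) hN (hnull _ hN j)).trans
        (mul_le_mul_left (hK m) _)
      have h2 : ((K : ℝ≥0∞) * ((ys.length * m + 1 : ℕ) : ℝ≥0∞) ^ D) * (τ j + τ (j + 1)) ≠ ⊤ := by
        refine ENNReal.mul_ne_top (ENNReal.mul_ne_top (ENNReal.natCast_ne_top _)
          (ENNReal.pow_ne_top (ENNReal.natCast_ne_top _))) (ENNReal.add_ne_top.2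
            ⟨hfin _, hfin _⟩)
      have h3 := ENNReal.toReal_mono h2 h1
      rwa [ENNReal.toReal_mul, ENNReal.toReal_mul, ENNReal.toReal_pow, ENNReal.toReal_natCast,
        ENNReal.toReal_natCast] at h3
    rw [hdev, abs_mul, abs_of_nonneg (Nat.cast_nonneg _)] at hup
    exact (mul_le_mul_of_nonneg_right hlow' (abs_nonneg _)).trans hup
  -- conclusion
  by_contra hne
  have hpos : 0 < |χ| := abs_pos.2 hne
  set A : ℝ := (K : ℝ) * ((ys.length + 1 : ℕ) : ℝ) ^ D * T with hA
  obtain ⟨m, hm⟩ := exists_nat_gt (A / |χ|)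
  have h1 := key (m + 1) (by omega)
  have h2 : ((ys.length * (m + 1) + 1 : ℕ) : ℝ) ≤ ((ys.length + 1 : ℕ) : ℝ) * ((m + 1 : ℕ) : ℝ) := by
    push_cast
    nlinarith [Nat.cast_nonneg (α := ℝ) m]
  have h3 : (((m + 1 : ℕ) : ℝ)) ^ (D + 1) * |χ| ≤ A * ((m + 1 : ℕ) : ℝ) ^ D := by
    refine h1.trans ?_
    rw [hA]
    have h4 : ((ys.length * (m + 1) + 1 : ℕ) : ℝ) ^ D ≤
        (((ys.length + 1 : ℕ) : ℝ) * ((m + 1 : ℕ) : ℝ)) ^ D :=
      pow_le_pow_left₀ (Nat.cast_nonneg _) h2 D
    rw [mul_pow] at h4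
    have h5 : (0 : ℝ) ≤ K := Nat.cast_nonneg _
    calc (K : ℝ) * ((ys.length * (m + 1) + 1 : ℕ) : ℝ) ^ D * T
        ≤ (K : ℝ) * (((ys.length + 1 : ℕ) : ℝ) ^ D * ((m + 1 : ℕ) : ℝ) ^ D) * T := by gcongr
      _ = _ := by ring
  have h4 : (0 : ℝ) < ((m + 1 : ℕ) : ℝ) ^ D := by positivity
  have h5 : ((m + 1 : ℕ) : ℝ) * |χ| ≤ A := by
    rw [pow_succ] at h3
    refine le_of_mul_le_mul_right ?_ h4
    calc ((m + 1 : ℕ) : ℝ) * |χ| * ((m + 1 : ℕ) : ℝ) ^ D =
        ((m + 1 : ℕ) : ℝ) ^ D * ((m + 1 : ℕ) : ℝ) * |χ| := by ring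
      _ ≤ _ := h3
  have h6 : A < m * |χ| := (div_lt_iff₀ hpos).1 hm
  push_cast at h5
  nlinarith

end main

end Vale.Agent.P177.SL
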