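import Vale.Agent.P177.SL.Len
import Vale.Agent.P177.LocalCrit

/-!
Lengths of the Tor modules `Tor^D(D ⊗_S N, X)` for an additive length over a flat algebra `D / S`.
-/

namespace Vale.Agent.P177.SL

open Vale.Agent.P202.Mix Function TensorProduct
open scoped ENNReal

universe u

section

variable (S D : Type u) [CommRing S] [CommRing D] [Algebra S D]

/-- the Tor modules of the base change of `N` with `X`. -/
noncomputable abbrev TT (i : ℕ) (N : Type u) [AddCommGroup N] [Module S N] (X : Type u)
    [AddCommGroup X] [Module D X] : ModuleCat.{u} D := TorM D i (D ⊗[S] N) X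

variable {D}

/-- the lengths of the Tor modules. -/
noncomputable def tau (L : AddLen D) (i : ℕ) (N : Type u) [AddCommGroup N] [Module S N]
    (X : Type u) [AddCommGroup X] [Module D X] : ℝ≥0∞ := L.len (TT S D i N X)

end

section

variable {S D : Type u} [CommRing S] [CommRing D] [Algebra S D] (L : AddLen D)
  {N N' N'' K : Type u} [AddCommGroup N] [Module S N] [AddCommGroup N'] [Module S N']
  [AddCommGroup N''] [Module S N''] [AddCommGroup K] [Module S K]
  {X X' X'' : Type u} [AddCommGroup X] [Module D X] [AddCommGroup X'] [Module D X']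
  [AddCommGroup X''] [Module D X'']

variable (D X) in
/-- functoriality in the first variable. -/
noncomputable def ttMap (i : ℕ) (f : N →ₗ[S] N') : TT S D i N X →ₗ[D] TT S D i N' X :=
  torMap i (f.baseChange D) X

theorem ttMap_comp (i : ℕ) (f : N →ₗ[S] N') (g : N' →ₗ[S] N'') (x : TT S D i N X) :
    ttMap D X i (g ∘ₗ f) x = ttMap D X i g (ttMap D X i f x) := by
  rw [ttMap, LinearMap.baseChange_comp, torMap_comp]
  rfl

theorem ttMap_smul (i : ℕ) (s : S) (f : N →ₗ[S] N) (hf : ∀ n, f n = s • n)
    (x : TT S D i N X) : ttMap D X i f x = algebraMap S D s • x :=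
  torMap_smul_id i (algebraMap S D s) _ (baseChange_smul_eq s f hf) x

theorem exists_ttDelta [Module.Flat S D] (f : N' →ₗ[S] N) (g : N →ₗ[S] N'') (hf : Injective f)
    (hg : Surjective g) (h : Exact f g) (X : Type u) [AddCommGroup X] [Module D X] :
    ∃ δ : ∀ n, TT S D (n + 1) N'' X →ₗ[D] TT S D n N' X,
      (∀ n, Exact (ttMap D X (n + 1) g) (δ n)) ∧
      (∀ n, Exact (δ n) (ttMap D X n f)) ∧
      (∀ n, Exact (ttMap D X n f) (ttMap D X n g)) := by
  obtain ⟨k1, k2, k3⟩ := baseChange_ses (B := D) f g hf hg h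
  exact exists_torDelta _ _ k1 k2 k3 X

theorem tau_congr (i : ℕ) (e : N ≃ₗ[S] N') : tau S L i N X = tau S L i N' X :=
  len_congr L (torCongrLeft i (e.baseChange S D _ _) X)

theorem tau_congr_right (i : ℕ) (e : X ≃ₗ[D] X') : tau S L i N X = tau S L i N X' :=
  len_congr L (torCongrRight i _ e)

variable (N) in
theorem tt_subsingleton (i : ℕ) [Subsingleton N] : Subsingleton (TT S D i N X) := by
  have : Subsingleton (D ⊗[S] N) := inferInstance
  have h1 := tor_smul_eq_zero_left (R := D) (M := D ⊗[S] N) 1 (fun m => Subsingleton.elim _ _) i X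
  exact ⟨fun x y => by rw [← one_smul D x, ← one_smul D y, h1, h1]⟩

theorem tau_subsingleton (i : ℕ) [Subsingleton N] : tau S L i N X = 0 := by
  have := tt_subsingleton (S := S) (D := D) (X := X) N i
  exact len_subsingleton L

variable (X) in
theorem tau_le [Module.Flat S D] (i : ℕ) (f : N' →ₗ[S] N) (g : N →ₗ[S] N'') (hf : Injective f)
    (hg : Surjective g) (h : Exact f g) : tau S L i N X ≤ tau S L i N' X + tau S L i N'' X := by
  obtain ⟨δ, -, -, h3⟩ := exists_ttDelta (D := D) f g hf hg h X
  exact len_le_of_exact L _ _ (h3 i)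

variable (X) in
/-- the growth step. -/
theorem tau_step [Module.Flat S D] (i : ℕ) (f : N →ₗ[S] N) (g : N →ₗ[S] N'')
    (hf : Injective f) (hg : Surjective g) (h : Exact f g) (m : ℕ)
    (hm : ∀ x : TT S D i N X, (ttMap D X i f ^ m) x = 0) :
    tau S L i N X ≤ m * tau S L i N'' X := by
  obtain ⟨δ, -, -, h3⟩ := exists_ttDelta (D := D) f g hf hg h X
  refine (len_le_of_pow_eq_zero L m _ (ttMap D X i f) hm).trans (mul_le_mul_right ?_ _)
  rw [len_congr L (Submodule.quotEquivOfEq _ (LinearMap.ker (ttMap D X i g)) ?_),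
    len_congr L (ttMap D X i g).quotKerEquivRange]
  · exact len_range_le' L _
  · rw [(h3 i).linearMap_ker_eq]

variable (X) in
/-- the step for the positivity: the endomorphism `f` factors through `K`. -/
theorem tau_factor [Module.Flat S D] (i : ℕ) (f : N →ₗ[S] N) (g : N →ₗ[S] N'')
    (hf : Injective f) (hg : Surjective g) (h : Exact f g)
    (a : N →ₗ[S] K) (b : K →ₗ[S] N) (hab : ∀ n, b (a n) = f n) :
    tau S L i N X ≤ tau S L i K X + tau S L i N'' X := by
  obtain ⟨δ, -, -, h3⟩ := exists_ttDelta (D := D) f g hf hg h X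
  have h1 := len_eq_of_exact L _ _ (h3 i)
  have h2 : L.len (LinearMap.range (ttMap D X i f)) ≤ L.len (LinearMap.range (ttMap D X i b)) := by
    apply len_mono
    rintro _ ⟨y, rfl⟩
    refine ⟨ttMap D X i a y, ?_⟩
    rw [← ttMap_comp]
    congr 1
    have : b ∘ₗ a = f := by
      ext n
      rw [← hab]
      rfl
    rw [this]
  rw [tau, h1]
  exact add_le_add (h2.trans (len_range_le L _)) (len_range_le' L _)

end

end Vale.Agent.P177.SL
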