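import Vale.Agent.P177.SL.Th
import Vale.Agent.P177.SL.Box
import Vale.Agent.P177.CohenSurj
import Vale.Agent.P177.CNormA
import Vale.Agent.P177.CPs
import Vale.Agent.P177.EPres

/-!
The Taylor homomorphism `S → S[X]/(X_i ^ t)`, `x_i ↦ x_i + X_i`, of a power series ring.
-/

namespace Vale.Agent.P177.SL

open Function TensorProduct IsLocalRing

universe u

section complete

/-- A finite algebra over a complete Noetherian ring is complete, for every ideal that is
equivalent to the ideal of definition. -/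
theorem isAdicComplete_of_finite_alg {A T : Type u} [CommRing A] [IsNoetherianRing A]
    [CommRing T] [Algebra A T] [Module.Finite A T] (I : Ideal A) [IsAdicComplete I A]
    (J : Ideal T) (hIJ : I.map (algebraMap A T) ≤ J) (c : ℕ)
    (hJ : J ^ c ≤ I.map (algebraMap A T)) : IsAdicComplete J T := by
  have hjac : I ≤ Ideal.jacobson ⊥ := IsAdicComplete.le_jacobson_bot I
  have hprec : IsPrecomplete I T := isPrecomplete_of_finite _ _
  have hhaus : IsHausdorff I T := IsHausdorff.of_le_jacobson _ _ hjac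
  have hcomp : IsAdicComplete I T := { hprec, hhaus with }
  have h : IsAdicComplete (I.map (algebraMap A T)) T := (IsAdicComplete.map_algebraMap_iff _ _).2 hcomp
  set K := I.map (algebraMap A T) with hK
  have h1 : ∀ n, (J ^ (c * n) • (⊤ : Submodule T T)) ≤ K ^ n • (⊤ : Submodule T T) := by
    intro n
    rw [pow_mul]
    exact Submodule.smul_mono_left (Ideal.pow_right_mono hJ n)
  have h2 : ∀ n, (K ^ n • (⊤ : Submodule T T)) ≤ J ^ n • (⊤ : Submodule T T) := fun n =>
    Submodule.smul_mono_left (Ideal.pow_right_mono hIJ n)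
  refine { haus' := ?_, prec' := ?_ }
  · intro x hx
    apply h.haus'
    intro n
    exact (hx (c * n)).mono (h1 n)
  · intro f hf
    obtain ⟨L, hL⟩ := h.prec' (fun n => f ((c + 1) * n)) (by
      intro m n hmn
      refine SModEq.mono ?_ (hf (Nat.mul_le_mul_left (c + 1) hmn))
      refine le_trans ?_ (h1 m)
      apply Submodule.smul_mono_left
      exact Ideal.pow_le_pow_right (by linarith))
    refine ⟨L, fun n => ?_⟩
    have h3 : f n ≡ f ((c + 1) * n) [SMOD (J ^ n • (⊤ : Submodule T T))] :=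
      hf (by nlinarith only [])
    exact h3.trans ((hL n).mono (h2 n))

end complete

section taylor

variable {d : ℕ} {W : Type u} [CommRing W]

/-- Polynomials are dense. -/
theorem exists_poly_sub_mem (n : ℕ) (s : MvPowerSeries (Fin d) W) :
    ∃ q : MvPolynomial (Fin d) W, s - (q : MvPowerSeries (Fin d) W) ∈
      Ideal.span (Set.range (MvPowerSeries.X : Fin d → MvPowerSeries (Fin d) W)) ^ n := by
  induction n generalizing s with
  | zero => exact ⟨0, by simp⟩
  | succ n ih =>
    have h1 := mem_span_X_of_constantCoeff_eq_zero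
      (s - MvPowerSeries.C (MvPowerSeries.constantCoeff s)) (by simp)
    obtain ⟨a, ha⟩ := Ideal.mem_span_range_iff_exists_fun.1 h1
    choose q hq using fun i => ih (a i)
    refine ⟨MvPolynomial.C (MvPowerSeries.constantCoeff s) + ∑ i, q i * MvPolynomial.X i, ?_⟩
    have h2 : s - ((MvPolynomial.C (MvPowerSeries.constantCoeff s) +
        ∑ i, q i * MvPolynomial.X i : MvPolynomial (Fin d) W) : MvPowerSeries (Fin d) W) =
        ∑ i, (a i - (q i : MvPowerSeries (Fin d) W)) * MvPowerSeries.X i := by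
      have h3 : (((∑ i, q i * MvPolynomial.X i : MvPolynomial (Fin d) W)) :
          MvPowerSeries (Fin d) W) = ∑ i, (q i : MvPowerSeries (Fin d) W) * MvPowerSeries.X i := by
        rw [← MvPolynomial.coeToMvPowerSeries.ringHom_apply, map_sum]
        refine Finset.sum_congr rfl fun i _ => ?_
        rw [map_mul]
        simp
      rw [MvPolynomial.coe_add, MvPolynomial.coe_C, h3, ← sub_sub, ← ha,
        ← Finset.sum_sub_distrib]
      refine Finset.sum_congr rfl fun i _ => ?_
      rw [sub_mul]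
    rw [h2, pow_succ]
    exact Ideal.sum_mem _ fun i _ => Ideal.mul_mem_mul (hq i) (Ideal.subset_span ⟨i, rfl⟩)

/-- Ring homomorphisms which agree on constants and variables agree on polynomials. -/
theorem poly_agree {B : Type*} [CommRing B] (φ ψ : MvPowerSeries (Fin d) W →+* B)
    (hC : ∀ w, φ (MvPowerSeries.C w) = ψ (MvPowerSeries.C w))
    (hX : ∀ i, φ (MvPowerSeries.X i) = ψ (MvPowerSeries.X i)) (q : MvPolynomial (Fin d) W) :
    φ (q : MvPowerSeries (Fin d) W) = ψ (q : MvPowerSeries (Fin d) W) := by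
  have h3 : φ.comp (MvPolynomial.coeToMvPowerSeries.ringHom (σ := Fin d) (R := W)) =
      ψ.comp (MvPolynomial.coeToMvPowerSeries.ringHom (σ := Fin d) (R := W)) := by
    apply MvPolynomial.ringHom_ext
    · intro w
      change φ ((MvPolynomial.C w : MvPolynomial (Fin d) W) : MvPowerSeries (Fin d) W) =
        ψ ((MvPolynomial.C w : MvPolynomial (Fin d) W) : MvPowerSeries (Fin d) W)
      rw [MvPolynomial.coe_C, hC]
    · intro i
      change φ ((MvPolynomial.X i : MvPolynomial (Fin d) W) : MvPowerSeries (Fin d) W) =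
        ψ ((MvPolynomial.X i : MvPolynomial (Fin d) W) : MvPowerSeries (Fin d) W)
      rw [MvPolynomial.coe_X, hX]
  exact RingHom.congr_fun h3 q

/-- Two ring homomorphisms which agree on polynomials are equal modulo powers. -/
theorem sub_mem_of_poly {B : Type*} [CommRing B] (φ ψ : MvPowerSeries (Fin d) W →+* B)
    (h : ∀ q : MvPolynomial (Fin d) W, φ (q : MvPowerSeries (Fin d) W) =
      ψ (q : MvPowerSeries (Fin d) W)) (J : Ideal B)
    (hJ : ∀ i, φ (MvPowerSeries.X i) ∈ J) (s : MvPowerSeries (Fin d) W) (n : ℕ) :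
    φ s - ψ s ∈ J ^ n := by
  obtain ⟨q, hq⟩ := exists_poly_sub_mem n s
  have h1 : ∀ f : MvPowerSeries (Fin d) W →+* B, (∀ i, f (MvPowerSeries.X i) ∈ J) →
      f (s - q) ∈ J ^ n := by
    intro f hf
    have h2 : (Ideal.span (Set.range (MvPowerSeries.X : Fin d → MvPowerSeries (Fin d) W)) ^ n).map
        f ≤ J ^ n := by
      rw [Ideal.map_pow, Ideal.map_span]
      apply Ideal.pow_right_mono
      rw [Ideal.span_le]
      rintro _ ⟨_, ⟨i, rfl⟩, rfl⟩
      exact hf i
    exact h2 (Ideal.mem_map_of_mem f hq)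
  have h3 : ∀ i, ψ (MvPowerSeries.X i) ∈ J := by
    intro i
    rw [← MvPolynomial.coe_X, ← h, MvPolynomial.coe_X]
    exact hJ i
  have h4 := Ideal.sub_mem _ (h1 φ hJ) (h1 ψ h3)
  rw [map_sub, map_sub, h q] at h4
  simpa using h4

end taylor

section box

variable {d : ℕ} {W : Type u} [CommRing W] (t : ℕ)

/-- The augmentation `T → S`, `X_i ↦ 0`. -/
theorem exists_aug (S : Type u) [CommRing S] (d : ℕ) (ht : 1 ≤ t) :
    ∃ g : (MvPolynomial (Fin d) S ⧸ boxI S (fun _ : Fin d => t)) →+* S,
      (∀ q : MvPolynomial (Fin d) S, g (Ideal.Quotient.mk _ q) = MvPolynomial.constantCoeff q) ∧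
      ∀ x, g x = 0 → x ∈ Ideal.span (Set.range fun i : Fin d =>
        (Ideal.Quotient.mk (boxI S (fun _ : Fin d => t)) (MvPolynomial.X i))) := by
  have h1 : ∀ q ∈ boxI S (fun _ : Fin d => t), MvPolynomial.constantCoeff q = 0 := by
    intro q hq
    rw [mem_boxI'] at hq
    exact hq 0 fun i => by
      simp only [Finsupp.coe_zero, Pi.zero_apply]
      omega
  refine ⟨Ideal.Quotient.lift _ MvPolynomial.constantCoeff h1, fun q => rfl, ?_⟩
  intro x hx
  obtain ⟨q, rfl⟩ := Ideal.Quotient.mk_surjective x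
  have h2 : MvPolynomial.constantCoeff q = 0 := hx
  have h3 : q ∈ Ideal.span (Set.range (MvPolynomial.X : Fin d → MvPolynomial (Fin d) S)) := by
    rw [← boxI_one, boxI_one_eq_ker, RingHom.mem_ker]
    exact h2
  have h4 := Ideal.mem_map_of_mem (Ideal.Quotient.mk (boxI S (fun _ : Fin d => t))) h3
  rw [Ideal.map_span, ← Set.range_comp] at h4
  exact h4

/-- The Taylor homomorphism. -/
theorem exists_taylor_gen [IsNoetherianRing W] (ht : 1 ≤ t) :
    ∃ Θ : MvPowerSeries (Fin d) W →+* (MvPolynomial (Fin d) (MvPowerSeries (Fin d) W) ⧸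
        boxI (MvPowerSeries (Fin d) W) (fun _ : Fin d => t)),
      (∀ i, Θ (MvPowerSeries.X i) = Ideal.Quotient.mk _ (MvPolynomial.C (MvPowerSeries.X i)) +
        Ideal.Quotient.mk _ (MvPolynomial.X i)) ∧
      (∀ w, Θ (MvPowerSeries.C w) =
        Ideal.Quotient.mk _ (MvPolynomial.C (MvPowerSeries.C w))) ∧
      ∀ s, Θ s - algebraMap _ _ s ∈ Ideal.span (Set.range fun i : Fin d =>
        (Ideal.Quotient.mk (boxI (MvPowerSeries (Fin d) W) (fun _ : Fin d => t))
          (MvPolynomial.X i))) := by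
  let S := MvPowerSeries (Fin d) W
  let T := MvPolynomial (Fin d) S ⧸ boxI S (fun _ : Fin d => t)
  have hS : IsNoetherianRing S := inferInstanceAs (IsNoetherianRing (MvPowerSeries (Fin d) W))
  have hT : IsNoetherianRing T := inferInstance
  let I : Ideal S := Ideal.span (Set.range MvPowerSeries.X)
  have hI : IsAdicComplete I S := inferInstance
  let xi : Fin d → T := fun i => Ideal.Quotient.mk _ (MvPolynomial.X i)
  let J : Ideal T := I.map (algebraMap S T) ⊔ Ideal.span (Set.range xi)
  have hJ1 : J ≤ (I.map (algebraMap S T)).radical := by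
    refine sup_le Ideal.le_radical ?_
    rw [Ideal.span_le]
    rintro _ ⟨i, rfl⟩
    refine ⟨t, ?_⟩
    have h := box_X_pow (S := S) (fun _ : Fin d => t) i
    change xi i ^ t = 0 at h
    rw [h]
    exact zero_mem _
  obtain ⟨c, hc⟩ := Ideal.exists_pow_le_of_le_radical_of_fg hJ1
    ((isNoetherianRing_iff_ideal_fg T).1 hT J)
  have hcomp : IsAdicComplete J T := isAdicComplete_of_finite_alg I J le_sup_left c hc
  let σ : W →+* T := (algebraMap S T).comp (MvPowerSeries.C (σ := Fin d))
  obtain ⟨Θ, hΘ⟩ := exists_evalHom J σ (fun i => algebraMap S T (MvPowerSeries.X i) + xi i)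
    (fun i => Ideal.add_mem _ (Ideal.mem_sup_left (Ideal.mem_map_of_mem _
      (Ideal.subset_span ⟨i, rfl⟩))) (Ideal.mem_sup_right (Ideal.subset_span ⟨i, rfl⟩)))
  have h1 : ∀ i, Θ (MvPowerSeries.X i) = algebraMap S T (MvPowerSeries.X i) + xi i := by
    intro i
    rw [← MvPolynomial.coe_X, hΘ]
    simp
  have h2 : ∀ w, Θ (MvPowerSeries.C w) = algebraMap S T (MvPowerSeries.C w) := by
    intro w
    rw [← MvPolynomial.coe_C, hΘ]
    simp [σ]
  refine ⟨Θ, h1, h2, fun s => ?_⟩
  obtain ⟨g, hg1, hg2⟩ := exists_aug t S d ht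
  apply hg2
  have hga : ∀ a : S, g (algebraMap S T a) = a := by
    intro a
    have h := hg1 (MvPolynomial.C a)
    rw [MvPolynomial.constantCoeff_C] at h
    exact h
  have hgx : ∀ i, g (xi i) = 0 := by
    intro i
    have h := hg1 (MvPolynomial.X i)
    rw [MvPolynomial.constantCoeff_X] at h
    exact h
  have hpoly : ∀ q : MvPolynomial (Fin d) W, (g.comp Θ) (q : MvPowerSeries (Fin d) W) =
      (RingHom.id S) (q : MvPowerSeries (Fin d) W) := by
    refine poly_agree _ _ (fun w => ?_) (fun i => ?_)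
    · rw [RingHom.comp_apply, h2, hga, RingHom.id_apply]
    · rw [RingHom.comp_apply, h1, map_add, hga, hgx, add_zero, RingHom.id_apply]
  rw [map_sub, hga]
  apply IsHausdorff.haus (I := I) (M := S) inferInstance
  intro n
  rw [SModEq.zero, smul_eq_mul, Ideal.mul_top]
  exact sub_mem_of_poly (g.comp Θ) (RingHom.id S) hpoly I
    (fun i => by
      have h := hpoly (MvPolynomial.X i)
      rw [MvPolynomial.coe_X, RingHom.id_apply] at h
      rw [h]
      exact Ideal.subset_span ⟨i, rfl⟩) s n

variable [IsLocalRing W]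

/-- The residue field thickened by the Taylor homomorphism. -/
theorem th_residue_gen (ϖ : W) (hϖ : maximalIdeal W = Ideal.span {ϖ})
    (Θ : MvPowerSeries (Fin d) W →+* (MvPolynomial (Fin d) (MvPowerSeries (Fin d) W) ⧸
        boxI (MvPowerSeries (Fin d) W) (fun _ : Fin d => t)))
    (h1 : ∀ i, Θ (MvPowerSeries.X i) =
      Ideal.Quotient.mk _ (MvPolynomial.C (MvPowerSeries.X i)) +
        Ideal.Quotient.mk _ (MvPolynomial.X i))
    (h2 : ∀ w, Θ (MvPowerSeries.C w) =
      Ideal.Quotient.mk _ (MvPolynomial.C (MvPowerSeries.C w))) :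
    Nonempty (Th Θ (MvPolynomial (Fin d) (MvPowerSeries (Fin d) W) ⧸
        boxI (MvPowerSeries (Fin d) W) (fun _ : Fin d => t))
        (MvPowerSeries (Fin d) W ⧸ maximalIdeal (MvPowerSeries (Fin d) W))
      ≃ₗ[MvPowerSeries (Fin d) W] MvPowerSeries (Fin d) W ⧸
        Ideal.ofList (MvPowerSeries.C ϖ :: List.ofFn fun i : Fin d =>
          (MvPowerSeries.X i : MvPowerSeries (Fin d) W) ^ t)) := by
  let S := MvPowerSeries (Fin d) W
  let T := MvPolynomial (Fin d) S ⧸ boxI S (fun _ : Fin d => t)
  let m : Ideal S := maximalIdeal S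
  let I : Ideal S := Ideal.ofList (MvPowerSeries.C ϖ :: List.ofFn fun i : Fin d =>
    (MvPowerSeries.X i : MvPowerSeries (Fin d) W) ^ t)
  let M : Ideal T := m.map (algebraMap S T)
  let xi : Fin d → T := fun i => Ideal.Quotient.mk _ (MvPolynomial.X i)
  have hxi : ∀ i, xi i ^ t = 0 := fun i => box_X_pow (S := S) (fun _ : Fin d => t) i
  have h1' : ∀ i, Θ (MvPowerSeries.X i) = algebraMap S T (MvPowerSeries.X i) + xi i := h1
  have h2' : ∀ w, Θ (MvPowerSeries.C w) = algebraMap S T (MvPowerSeries.C w) := h2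
  have hm : m = (maximalIdeal W).map (MvPowerSeries.C (σ := Fin d)) ⊔
      Ideal.span (Set.range MvPowerSeries.X) := mvPowerSeries_maximalIdeal_gen
  have hIC : MvPowerSeries.C ϖ ∈ I := Ideal.subset_span (by simp)
  have hIX : ∀ i : Fin d, (MvPowerSeries.X i : S) ^ t ∈ I := fun i =>
    Ideal.subset_span (by simp)
  have hmX : ∀ i : Fin d, (MvPowerSeries.X i : S) ∈ m := by
    intro i
    rw [hm]
    exact Ideal.mem_sup_right (Ideal.subset_span ⟨i, rfl⟩)
  have hmC : (MvPowerSeries.C ϖ : S) ∈ m := by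
    rw [hm, hϖ]
    exact Ideal.mem_sup_left (Ideal.mem_map_of_mem _ (Ideal.mem_span_singleton_self ϖ))
  have hcc : ∀ s ∈ m, MvPowerSeries.constantCoeff s ∈ maximalIdeal W := by
    intro s hs
    by_contra hne
    rw [mem_maximalIdeal, mem_nonunits_iff, not_not] at hne
    exact (mem_maximalIdeal s).mp hs (MvPowerSeries.isUnit_iff_constantCoeff.mpr hne)
  -- the tensor product
  have hten : ∀ a : T, (a ⊗ₜ[S] (1 : S ⧸ m) : T ⊗[S] (S ⧸ m)) = 0 ↔ a ∈ M := by
    intro a
    rw [← (TensorProduct.tensorQuotEquivQuotSMul T m).map_eq_zero_iff]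
    have h3 : TensorProduct.tensorQuotEquivQuotSMul T m (a ⊗ₜ[S] (1 : S ⧸ m)) =
        Submodule.Quotient.mk ((1 : S) • a) :=
      TensorProduct.tensorQuotEquivQuotSMul_tmul_mk m a 1
    rw [h3, one_smul, Submodule.Quotient.mk_eq_zero, Ideal.smul_top_eq_map]
    rfl
  have hten2 : ∀ x : T ⊗[S] (S ⧸ m), ∃ a : T, x = a ⊗ₜ[S] (1 : S ⧸ m) := by
    intro x
    obtain ⟨a, ha⟩ := Submodule.Quotient.mk_surjective _
      (TensorProduct.tensorQuotEquivQuotSMul T m x)
    refine ⟨a, ?_⟩
    rw [← TensorProduct.tensorQuotEquivQuotSMul_symm_mk, ha, LinearEquiv.symm_apply_apply]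
  -- the map
  let F : S →ₗ[S] Th Θ T (S ⧸ m) :=
    LinearMap.toSpanSingleton S (Th Θ T (S ⧸ m)) (show T ⊗[S] (S ⧸ m) from 1 ⊗ₜ[S] 1)
  have hF : ∀ s, F s = (show T ⊗[S] (S ⧸ m) from Θ s ⊗ₜ[S] 1) := by
    intro s
    change Θ s • (1 ⊗ₜ[S] 1 : T ⊗[S] (S ⧸ m)) = _
    rw [TensorProduct.smul_tmul', smul_eq_mul, mul_one]
  have hsur : ∀ q : MvPolynomial (Fin d) S, ∃ s : S, Θ s - Ideal.Quotient.mk _ q ∈ M := by
    intro q
    induction q using MvPolynomial.induction_on with
    | C s =>
      refine ⟨MvPowerSeries.C (MvPowerSeries.constantCoeff s), ?_⟩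
      rw [h2']
      change algebraMap S T _ - algebraMap S T s ∈ M
      rw [← map_sub]
      apply Ideal.mem_map_of_mem
      rw [hm]
      exact Ideal.mem_sup_right (mem_span_X_of_constantCoeff_eq_zero _ (by simp))
    | add p q hp hq =>
      obtain ⟨a, ha⟩ := hp
      obtain ⟨b, hb⟩ := hq
      refine ⟨a + b, ?_⟩
      have h3 := Ideal.add_mem _ ha hb
      rw [map_add, map_add]
      convert h3 using 1
      ring
    | mul_X q i hq =>
      obtain ⟨a, ha⟩ := hq
      refine ⟨a * MvPowerSeries.X i, ?_⟩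
      rw [map_mul, map_mul, h1']
      have h3 := Ideal.add_mem M (M.mul_mem_right (xi i) ha) (M.mul_mem_left (Θ a)
        (Ideal.mem_map_of_mem (algebraMap S T) (hmX i)))
      convert h3 using 1
      ring
  have hFsur : Surjective F := by
    intro x
    obtain ⟨a, rfl⟩ := hten2 x
    obtain ⟨q, rfl⟩ := Ideal.Quotient.mk_surjective a
    obtain ⟨s, hs⟩ := hsur q
    refine ⟨s, ?_⟩
    rw [hF]
    have h3 := (hten _).2 hs
    rw [TensorProduct.sub_tmul, sub_eq_zero] at h3
    exact h3
  have hker : LinearMap.ker F = I := by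
    ext s
    have h6 : F s = 0 ↔ Θ s ∈ M :=
      ⟨fun h => (hten (Θ s)).1 ((hF s).symm.trans h),
        fun h => (hF s).trans ((hten (Θ s)).2 h)⟩
    rw [LinearMap.mem_ker, h6]
    constructor
    · intro hs
      let g0 : MvPolynomial (Fin d) S →+* S ⧸ I :=
        MvPolynomial.eval₂Hom ((Ideal.Quotient.mk I).comp
          ((MvPowerSeries.C (σ := Fin d)).comp MvPowerSeries.constantCoeff))
          (fun i => Ideal.Quotient.mk I (MvPowerSeries.X i))
      have hg0 : ∀ q ∈ boxI S (fun _ : Fin d => t), g0 q = 0 := by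
        have h3 : boxI S (fun _ : Fin d => t) ≤ RingHom.ker g0 := by
          rw [boxI, Ideal.span_le]
          rintro _ ⟨i, rfl⟩
          change g0 (MvPolynomial.X i ^ t) = 0
          rw [map_pow]
          change (MvPolynomial.eval₂ _ _ (MvPolynomial.X i)) ^ t = 0
          rw [MvPolynomial.eval₂_X, ← map_pow, Ideal.Quotient.eq_zero_iff_mem]
          exact hIX i
        exact fun q hq => h3 hq
      let g : T →+* S ⧸ I := Ideal.Quotient.lift _ g0 hg0
      have hg1 : ∀ a : S, g (algebraMap S T a) =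
          Ideal.Quotient.mk I (MvPowerSeries.C (MvPowerSeries.constantCoeff a)) := by
        intro a
        change MvPolynomial.eval₂ _ _ (MvPolynomial.C a) = _
        rw [MvPolynomial.eval₂_C]
        rfl
      have hg2 : ∀ i, g (xi i) = Ideal.Quotient.mk I (MvPowerSeries.X i) := by
        intro i
        change MvPolynomial.eval₂ _ _ (MvPolynomial.X i) = _
        rw [MvPolynomial.eval₂_X]
      have hgM : ∀ x ∈ M, g x = 0 := by
        have h3 : M ≤ RingHom.ker g := by
          rw [Ideal.map_le_iff_le_comap]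
          intro a ha
          rw [Ideal.mem_comap, RingHom.mem_ker, hg1, Ideal.Quotient.eq_zero_iff_mem]
          have h4 := hcc a ha
          rw [hϖ, Ideal.mem_span_singleton] at h4
          obtain ⟨w, hw⟩ := h4
          rw [hw, map_mul]
          exact I.mul_mem_right _ hIC
        exact fun x hx => h3 hx
      have hpoly := poly_agree (g.comp Θ) (Ideal.Quotient.mk I)
        (fun w => by
          rw [RingHom.comp_apply, h2', hg1, MvPowerSeries.constantCoeff_C])
        (fun i => by
          rw [RingHom.comp_apply, h1', map_add, hg1, hg2, MvPowerSeries.constantCoeff_X, map_zero,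
            map_zero, zero_add])
      let J : Ideal (S ⧸ I) := Ideal.span (Set.range fun i : Fin d =>
        Ideal.Quotient.mk I (MvPowerSeries.X i))
      have hJ1 : J ≤ (⊥ : Ideal (S ⧸ I)).radical := by
        rw [Ideal.span_le]
        rintro _ ⟨i, rfl⟩
        refine ⟨t, ?_⟩
        rw [← map_pow, Ideal.Quotient.eq_zero_iff_mem.2 (hIX i)]
        exact zero_mem _
      have hJfg : J.FG := Submodule.fg_span (Set.finite_range _)
      obtain ⟨n, hn⟩ := Ideal.exists_pow_le_of_le_radical_of_fg hJ1 hJfg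
      have h5 := hn (sub_mem_of_poly (g.comp Θ) (Ideal.Quotient.mk I) hpoly J
        (fun i => by
          have h := hpoly (MvPolynomial.X i)
          rw [MvPolynomial.coe_X] at h
          rw [h]
          exact Ideal.subset_span ⟨i, rfl⟩) s n)
      rw [Ideal.mem_bot, RingHom.comp_apply, hgM _ hs, zero_sub, neg_eq_zero,
        Ideal.Quotient.eq_zero_iff_mem] at h5
      exact h5
    · have h3 : I ≤ M.comap Θ := by
        refine Ideal.span_le.2 ?_
        intro x hx
        rcases List.mem_cons.1 hx with rfl | hx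
        · rw [SetLike.mem_coe, Ideal.mem_comap, h2']
          exact Ideal.mem_map_of_mem _ hmC
        · obtain ⟨i, rfl⟩ := List.mem_ofFn.1 hx
          rw [SetLike.mem_coe, Ideal.mem_comap, map_pow, h1', ← Ideal.Quotient.eq_zero_iff_mem,
            map_pow, map_add, Ideal.Quotient.eq_zero_iff_mem.2
              (Ideal.mem_map_of_mem (algebraMap S T) (hmX i)), zero_add, ← map_pow, hxi,
            map_zero]
      exact fun hs => h3 hs
  exact ⟨((Submodule.quotEquivOfEq _ _ hker).symm.trans
    (F.quotKerEquivOfSurjective hFsur)).symm⟩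

end box

section witt

variable (p : ℕ) [Fact p.Prime] (k : Type u) [Field k] [CharP k p] [PerfectRing k p] (d t : ℕ)

/-- The Taylor homomorphism for power series over the Witt vectors. -/
theorem exists_taylor (ht : 1 ≤ t) :
    ∃ Θ : MvPowerSeries (Fin d) (WittVector p k) →+*
        (MvPolynomial (Fin d) (MvPowerSeries (Fin d) (WittVector p k)) ⧸
          boxI (MvPowerSeries (Fin d) (WittVector p k)) (fun _ : Fin d => t)),
      (∀ i, Θ (MvPowerSeries.X i) = Ideal.Quotient.mk _ (MvPolynomial.C (MvPowerSeries.X i)) +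
        Ideal.Quotient.mk _ (MvPolynomial.X i)) ∧
      (∀ w, Θ (MvPowerSeries.C w) =
        Ideal.Quotient.mk _ (MvPolynomial.C (MvPowerSeries.C w))) ∧
      ∀ s, Θ s - algebraMap _ _ s ∈ Ideal.span (Set.range fun i : Fin d =>
        (Ideal.Quotient.mk (boxI (MvPowerSeries (Fin d) (WittVector p k)) (fun _ : Fin d => t))
          (MvPolynomial.X i))) :=
  exists_taylor_gen t ht

/-- The residue field thickened by the Taylor homomorphism. -/
theorem th_residue
    (Θ : MvPowerSeries (Fin d) (WittVector p k) →+*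
        (MvPolynomial (Fin d) (MvPowerSeries (Fin d) (WittVector p k)) ⧸
          boxI (MvPowerSeries (Fin d) (WittVector p k)) (fun _ : Fin d => t)))
    (h1 : ∀ i, Θ (MvPowerSeries.X i) =
      Ideal.Quotient.mk _ (MvPolynomial.C (MvPowerSeries.X i)) +
        Ideal.Quotient.mk _ (MvPolynomial.X i))
    (h2 : ∀ w, Θ (MvPowerSeries.C w) =
      Ideal.Quotient.mk _ (MvPolynomial.C (MvPowerSeries.C w))) :
    Nonempty (Th Θ (MvPolynomial (Fin d) (MvPowerSeries (Fin d) (WittVector p k)) ⧸
        boxI (MvPowerSeries (Fin d) (WittVector p k)) (fun _ : Fin d => t))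
        (MvPowerSeries (Fin d) (WittVector p k) ⧸
          maximalIdeal (MvPowerSeries (Fin d) (WittVector p k)))
      ≃ₗ[MvPowerSeries (Fin d) (WittVector p k)] MvPowerSeries (Fin d) (WittVector p k) ⧸
        Ideal.ofList (MvPowerSeries.C (p : WittVector p k) :: List.ofFn fun i : Fin d =>
          (MvPowerSeries.X i : MvPowerSeries (Fin d) (WittVector p k)) ^ t)) := by
  obtain ⟨_, h, _⟩ := witt_dim_one k p
  exact th_residue_gen t (p : WittVector p k) h Θ h1 h2

end witt

end Vale.Agent.P177.SL
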