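import Vale.Agent.P177.SL.Chi

/-!
Thickening of modules: base change to an `S`-algebra `T` followed by restriction of scalars along
a second ring homomorphism `Θ : S → T`.
-/

namespace Vale.Agent.P177.SL

open Vale.Agent.P202.Mix Function TensorProduct
open scoped ENNReal

universe u

section

variable {S T : Type u} [CommRing S] [CommRing T] [Algebra S T]

/-- `Q ⊗_S N` with the structure of `S`-module through `Θ : S → T` on `Q`. -/
def Th (_ : S →+* T) (Q : Type u) [AddCommGroup Q] [Module S Q] (N : Type u)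
    [AddCommGroup N] [Module S N] : Type u := Q ⊗[S] N

variable (Θ : S →+* T) (Q Q' Q'' : Type u) [AddCommGroup Q] [Module S Q] [Module T Q]
  [IsScalarTower S T Q] [AddCommGroup Q'] [Module S Q'] [Module T Q'] [IsScalarTower S T Q']
  [AddCommGroup Q''] [Module S Q''] [Module T Q''] [IsScalarTower S T Q'']
  (N N' N'' : Type u) [AddCommGroup N] [Module S N] [AddCommGroup N'] [Module S N']
  [AddCommGroup N''] [Module S N'']

noncomputable instance : AddCommGroup (Th Θ Q N) := inferInstanceAs (AddCommGroup (Q ⊗[S] N))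

noncomputable instance : Module T (Th Θ Q N) := inferInstanceAs (Module T (Q ⊗[S] N))

noncomputable instance : Module S (Th Θ Q N) := Module.compHom (Th Θ Q N) Θ

/-- the identity, to the tensor product. -/
def toTen : Th Θ Q N → Q ⊗[S] N := id

variable {Q Q' Q'' N N' N''}

theorem th_smul (s : S) (x : Th Θ Q N) : s • x = Θ s • x := rfl

/-- a `T`-linear map of the tensor products as a map of thickenings. -/
noncomputable def thRes (f : Q ⊗[S] N →ₗ[T] Q' ⊗[S] N') : Th Θ Q N →ₗ[S] Th Θ Q' N' where
  toFun := f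
  map_add' := f.map_add
  map_smul' s x := f.map_smul (Θ s) x

variable (Q) in
/-- functoriality in `N`. -/
noncomputable def thMap (f : N →ₗ[S] N') : Th Θ Q N →ₗ[S] Th Θ Q N' :=
  thRes Θ (AlgebraTensorModule.lTensor T Q f)

theorem thMap_apply (f : N →ₗ[S] N') (x : Th Θ Q N) : thMap Θ Q f x = f.lTensor Q x := rfl

theorem thMap_comp (f : N →ₗ[S] N') (g : N' →ₗ[S] N'') (x : Th Θ Q N) :
    thMap Θ Q (g ∘ₗ f) x = thMap Θ Q g (thMap Θ Q f x) := by
  rw [thMap_apply, thMap_apply, thMap_apply, LinearMap.lTensor_comp]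
  rfl

variable (N) in
/-- functoriality in `Q`. -/
noncomputable def thMapQ (f : Q →ₗ[T] Q') : Th Θ Q N →ₗ[S] Th Θ Q' N :=
  thRes Θ (AlgebraTensorModule.rTensor S N f)

theorem thMapQ_apply (f : Q →ₗ[T] Q') (x : Th Θ Q N) :
    thMapQ Θ N f x = (f.restrictScalars S).rTensor N x := rfl

theorem th_ses [Module.Flat S Q] (f : N' →ₗ[S] N) (g : N →ₗ[S] N'') (hf : Injective f)
    (hg : Surjective g) (h : Exact f g) :
    Injective (thMap Θ Q f) ∧ Surjective (thMap Θ Q g) ∧ Exact (thMap Θ Q f) (thMap Θ Q g) :=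
  ⟨Module.Flat.lTensor_preserves_injective_linearMap f hf, LinearMap.lTensor_surjective Q hg,
    lTensor_exact Q h hg⟩

theorem th_sesQ [Module.Flat S Q''] (f : Q' →ₗ[T] Q) (g : Q →ₗ[T] Q'') (hf : Injective f)
    (hg : Surjective g) (h : Exact f g) :
    Injective (thMapQ Θ N f) ∧ Surjective (thMapQ Θ N g) ∧
      Exact (thMapQ Θ N f) (thMapQ Θ N g) := by
  let f' : Q' →ₗ[S] Q := f.restrictScalars S
  let g' : Q →ₗ[S] Q'' := g.restrictScalars S
  have hf' : Injective f' := hf
  have hg' : Surjective g' := hg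
  have h' : Exact f' g' := h
  have k1 : Injective (f'.rTensor N) := by
    rw [← LinearMap.lTensor_inj_iff_rTensor_inj]
    exact LinearMap.lTensor_injective_of_exact_of_flat g' hg' f' hf' h' N
  have k2 : Surjective (g'.rTensor N) := LinearMap.rTensor_surjective N hg'
  have k3 : Exact (f'.rTensor N) (g'.rTensor N) := rTensor_exact N h' hg'
  exact ⟨k1, k2, k3⟩

/-- multiplication by an element of `T`. -/
noncomputable def thMul (a : T) : Th Θ Q N →ₗ[S] Th Θ Q N where
  toFun x := a • x
  map_add' := smul_add a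
  map_smul' s x := by
    rw [th_smul, th_smul, smul_smul, smul_smul, mul_comm]
    rfl

theorem thMul_apply (a : T) (x : Th Θ Q N) : thMul Θ a x = a • x := rfl

theorem thMap_smul (s : S) (f : N →ₗ[S] N) (hf : ∀ n, f n = s • n) (x : Th Θ Q N) :
    thMap Θ Q f x = algebraMap S T s • x := by
  rw [thMap_apply]
  change (f.lTensor Q : Q ⊗[S] N →ₗ[S] Q ⊗[S] N) x =
    (algebraMap S T s • (show Q ⊗[S] N from x) : Q ⊗[S] N)
  generalize (show Q ⊗[S] N from x) = y
  induction y using TensorProduct.induction_on with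
  | zero => simp
  | tmul b m =>
    rw [LinearMap.lTensor_tmul, hf, TensorProduct.tmul_smul, TensorProduct.smul_tmul',
      TensorProduct.smul_tmul', algebraMap_smul]
  | add y z hy hz => rw [map_add, smul_add, hy, hz]

end

end Vale.Agent.P177.SL
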