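import Vale.Agent.P177.SL.Base
import Vale.Agent.P177.SL.Taylor
import Vale.Agent.P177.OEndC
import Vale.Agent.P177.CBase
import Vale.Agent.P177.PI.Choice

/-!
The thickenings of the power series ring over the Witt vectors (block F1 of B7).
-/

namespace Vale.Agent.P177.SL

open Vale.Agent.P202.Mix Function TensorProduct IsLocalRing RingTheory.Sequence
open scoped ENNReal

universe u

section PS

variable (p : ℕ) [Fact p.Prime] (k : Type u) [Field k] [CharP k p] [PerfectRing k p] (d : ℕ)

/-- The thickenings of the power series ring over the Witt vectors. -/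
theorem exists_thick :
    ∃ T : Thick (MvPowerSeries (Fin d) (WittVector p k)) d
      (MvPowerSeries.C (p : WittVector p k)) MvPowerSeries.X,
      ∀ t w, T.Θ t (MvPowerSeries.C w) =
        algebraMap (MvPowerSeries (Fin d) (WittVector p k))
          (TB (MvPowerSeries (Fin d) (WittVector p k)) d t) (MvPowerSeries.C w) := by
  have h : ∀ t : ℕ, ∃ Θ : MvPowerSeries (Fin d) (WittVector p k) →+*
      TB (MvPowerSeries (Fin d) (WittVector p k)) d t,
      (∀ i, Θ (MvPowerSeries.X i) = Ideal.Quotient.mk _ (MvPolynomial.C (MvPowerSeries.X i)) +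
        Ideal.Quotient.mk _ (MvPolynomial.X i)) ∧
      (∀ w, Θ (MvPowerSeries.C w) =
        Ideal.Quotient.mk _ (MvPolynomial.C (MvPowerSeries.C w))) ∧
      ∀ s, Θ s - algebraMap _ _ s ∈ Ideal.span (Set.range fun i : Fin d =>
        (Ideal.Quotient.mk (boxI (MvPowerSeries (Fin d) (WittVector p k)) (fun _ : Fin d => t))
          (MvPolynomial.X i))) := by
    intro t
    rcases Nat.eq_zero_or_pos t with rfl | ht
    · by_cases hd : d = 0
      · subst hd
        refine ⟨algebraMap _ _, fun i => i.elim0, fun w => rfl, fun s => ?_⟩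
        rw [sub_self]
        exact zero_mem _
      · have i0 : Fin d := ⟨0, Nat.pos_of_ne_zero hd⟩
        have hs : Subsingleton (TB (MvPowerSeries (Fin d) (WittVector p k)) d 0) := by
          rw [Ideal.Quotient.subsingleton_iff, Ideal.eq_top_iff_one]
          have h1 := X_pow_mem_boxI (S := MvPowerSeries (Fin d) (WittVector p k))
            (fun _ : Fin d => 0) i0
          rwa [pow_zero] at h1
        refine ⟨algebraMap _ _, fun i => Subsingleton.elim _ _, fun w => Subsingleton.elim _ _,
          fun s => ?_⟩
        rw [sub_self]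
        exact zero_mem _
    · exact exists_taylor p k d t ht
  choose Θ h1 h2 h3 using h
  refine ⟨⟨Θ, h1, h3, fun t _ => ?_⟩, h2⟩
  exact th_residue p k d t (Θ t) (h1 t) (h2 t)

/-- Polynomials are dense. -/
theorem ps_gen (s : MvPowerSeries (Fin d) (WittVector p k)) (M : ℕ) :
    ∃ q : MvPolynomial (Fin d) (WittVector p k),
      s - MvPolynomial.aeval (MvPowerSeries.X : Fin d → MvPowerSeries (Fin d) (WittVector p k)) q ∈
        Ideal.span (Set.range (MvPowerSeries.X :
          Fin d → MvPowerSeries (Fin d) (WittVector p k))) ^ M := by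
  obtain ⟨q, hq⟩ := exists_poly_sub_mem M s
  refine ⟨q, ?_⟩
  have h1 : MvPolynomial.aeval (MvPowerSeries.X : Fin d → MvPowerSeries (Fin d) (WittVector p k))
      q = (q : MvPowerSeries (Fin d) (WittVector p k)) := by
    have h2 : (MvPolynomial.aeval (R := WittVector p k)
        (MvPowerSeries.X : Fin d → MvPowerSeries (Fin d) (WittVector p k))).toRingHom =
        MvPolynomial.coeToMvPowerSeries.ringHom := by
      apply MvPolynomial.ringHom_ext
      · intro w
        change MvPolynomial.aeval _ (MvPolynomial.C w) =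
          ((MvPolynomial.C w : MvPolynomial (Fin d) (WittVector p k)) :
            MvPowerSeries (Fin d) (WittVector p k))
        rw [MvPolynomial.aeval_C, MvPolynomial.coe_C]
        rfl
      · intro i
        change MvPolynomial.aeval _ (MvPolynomial.X i) =
          ((MvPolynomial.X i : MvPolynomial (Fin d) (WittVector p k)) :
            MvPowerSeries (Fin d) (WittVector p k))
        rw [MvPolynomial.aeval_X, MvPolynomial.coe_X]
    exact RingHom.congr_fun h2 q
  rw [h1]
  exact hq

/-- The maximal ideal. -/
theorem ps_reg (t : ℕ) (ht : 1 ≤ t) :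
    IsWeaklyRegular (MvPowerSeries (Fin d) (WittVector p k))
      (pz (MvPowerSeries.C (p : WittVector p k))
        (MvPowerSeries.X : Fin d → MvPowerSeries (Fin d) (WittVector p k)) t) := by
  obtain ⟨h0, hdim, hmax⟩ := ch_regular k p d
  have hpm : (MvPowerSeries.C (p : WittVector p k) : MvPowerSeries (Fin d) (WittVector p k)) ∈
      maximalIdeal (MvPowerSeries (Fin d) (WittVector p k)) := by
    rw [map_natCast, hmax]
    exact Ideal.subset_span (Or.inl rfl)
  have hXm : ∀ i : Fin d, (MvPowerSeries.X i : MvPowerSeries (Fin d) (WittVector p k)) ∈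
      maximalIdeal (MvPowerSeries (Fin d) (WittVector p k)) := by
    intro i
    rw [hmax]
    exact Ideal.subset_span (Or.inr ⟨i, rfl⟩)
  refine isWeaklyRegular_of_sop hdim _ (by simp [pz]) ?_ ?_
  · intro z hz
    rcases List.mem_cons.1 hz with rfl | hz
    · exact hpm
    · obtain ⟨i, rfl⟩ := List.mem_ofFn.1 hz
      exact Ideal.pow_mem_of_mem _ (hXm i) _ (by omega)
  · conv_lhs => rw [hmax]
    rw [Ideal.span_le]
    rintro x (hx | ⟨i, rfl⟩)
    · rw [Set.mem_singleton_iff] at hx
      subst hx
      refine Ideal.le_radical (Ideal.subset_span ?_)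
      rw [← map_natCast (MvPowerSeries.C (σ := Fin d) (R := WittVector p k))]
      exact List.mem_cons_self
    · refine ⟨t, Ideal.subset_span ?_⟩
      exact List.mem_cons_of_mem _ (List.mem_ofFn.2 ⟨i, rfl⟩)

/-- Vanishing of the Tor lengths in large degrees. -/
theorem ps_tor {D : Type u} [CommRing D] [Algebra (MvPowerSeries (Fin d) (WittVector p k)) D]
    [Module.Flat (MvPowerSeries (Fin d) (WittVector p k)) D] (L : AddLen D)
    (N : Type u) [AddCommGroup N] [Module (MvPowerSeries (Fin d) (WittVector p k)) N]
    [Module.Finite (MvPowerSeries (Fin d) (WittVector p k)) N]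
    (X : Type u) [AddCommGroup X] [Module D X] (n : ℕ) (hn : d + 2 ≤ n) :
    tau (MvPowerSeries (Fin d) (WittVector p k)) L n N X = 0 := by
  obtain ⟨h0, hdim, hmax⟩ := ch_regular k p d
  have := tor_vanish_baseChange (R := MvPowerSeries (Fin d) (WittVector p k)) (T := D) (d + 1) N
    (fun j hj I => regular_tor_vanish _ (d + 1) hdim N _ j hj) n (by omega) X
  exact len_subsingleton L

end PS

end Vale.Agent.P177.SL
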