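import Vale.Agent.P177.SL.Vanish
import Vale.Agent.P177.SL.Mult

/-!
The higher Tor modules of the thickenings of `S / P`.
-/

namespace Vale.Agent.P177.SL

open Vale.Agent.P202.Mix Function TensorProduct IsLocalRing
open scoped ENNReal

universe u

section upper

variable {S D : Type u} [CommRing S] [IsLocalRing S] [IsNoetherianRing S] [CommRing D]
  [Algebra S D] [Module.Flat S D] {L : AddLen D} {d : ℕ} {π : S} {z : Fin d → S}
  (T : Thick S d π z) {X : Type u} [AddCommGroup X] [Module D X] {m : ℕ}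
  (hG : BaseGrowth L π z m X)
include hG

/-- the higher Tor modules of the thickenings grow more slowly. -/
theorem tau_higher (P : Ideal S) [P.IsPrime] (hXP : Nilp D P X) {K : Type u} [AddCommGroup K]
    [Module S K] (hK : ∀ i, 1 ≤ i → tau S L i K X = 0) (s : S) (hs : s ∉ P)
    (α : S ⧸ P →ₗ[S] K) (β : K →ₗ[S] S ⧸ P) (hαβ : ∀ x, β (α x) = s • x) (a : ℕ)
    (ha : Module.supportDim S (S ⧸ P) ≤ a) :
    ∃ C : ℝ≥0∞, C < ⊤ ∧ ∀ t : ℕ, 1 ≤ t → ∀ i, 1 ≤ i →
      (t : ℝ≥0∞) * tau S L i (Th (T.Θ t) (TB S d t) (S ⧸ P)) X ≤ C * (t : ℝ≥0∞) ^ (a + m) := by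
  let Q := QuotSMulTop s (S ⧸ P)
  obtain ⟨q1, q2, q3⟩ := ses_quot_prime P s hs
  have hcomp : β ∘ₗ α = LinearMap.lsmul S (S ⧸ P) s := LinearMap.ext hαβ
  have hstep : ∀ t i, 1 ≤ i → tau S L i (Th (T.Θ t) (TB S d t) (S ⧸ P)) X ≤
      tau S L i (Th (T.Θ t) (TB S d t) Q) X := by
    intro t i hi
    obtain ⟨k1, k2, k3⟩ := th_ses (Q := TB S d t) (T.Θ t) _ _ q1 q2 q3
    have h1 := tau_factor (D := D) L X i _ _ k1 k2 k3 (thMap (T.Θ t) (TB S d t) α)
      (thMap (T.Θ t) (TB S d t) β) (fun n => by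
        rw [← thMap_comp, hcomp])
    have h2 := tau_thick_le L (T.Θ t) (T.near t) K X i
    rw [hK i hi, mul_zero] at h2
    refine h1.trans ?_
    rw [le_zero_iff.1 h2, zero_add]
  have hQI : P ≤ Module.annihilator S Q := by
    intro x hx
    rw [Module.mem_annihilator]
    intro y
    obtain ⟨y, rfl⟩ := Submodule.mkQ_surjective _ y
    obtain ⟨y, rfl⟩ := Ideal.Quotient.mk_surjective y
    rw [← map_smul]
    have : x • (Ideal.Quotient.mk P y) = 0 := by
      change Ideal.Quotient.mk P (x * y) = 0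
      exact Ideal.Quotient.eq_zero_iff_mem.2 (P.mul_mem_right y hx)
    rw [this, map_zero]
  have hsub : Subsingleton Q → ∃ C : ℝ≥0∞, C < ⊤ ∧ ∀ t : ℕ, 1 ≤ t → ∀ i, 1 ≤ i →
      (t : ℝ≥0∞) * tau S L i (Th (T.Θ t) (TB S d t) (S ⧸ P)) X ≤
        C * (t : ℝ≥0∞) ^ (a + m) := by
    intro hQ
    refine ⟨0, ENNReal.zero_lt_top, fun t _ i hi => ?_⟩
    have hTh : Subsingleton (Th (T.Θ t) (TB S d t) Q) :=
      inferInstanceAs (Subsingleton (TB S d t ⊗[S] Q))
    have h1 := hstep t i hi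
    have h0 : tau S L i (Th (T.Θ t) (TB S d t) Q) X = 0 := tau_subsingleton L i
    rw [h0] at h1
    rw [le_zero_iff.1 h1, mul_zero]
    exact zero_le
  by_cases hsm : s ∈ maximalIdeal S
  · have hd := dim_quot P s hs hsm
    cases a with
    | zero =>
      apply hsub
      rw [← Module.supportDim_eq_bot_iff_subsingleton (R := S)]
      by_contra hne
      have h0 : (0 : WithBot ℕ∞) ≤ Module.supportDim S Q := by
        obtain ⟨v, hv⟩ := WithBot.ne_bot_iff_exists.1 hne
        rw [← hv]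
        exact_mod_cast zero_le
      rw [← hd] at ha
      have h3 : (0 : WithBot ℕ∞) + 1 ≤ 0 := (add_le_add_left h0 1).trans (by simpa using ha)
      exact absurd h3 (by decide)
    | succ a =>
      have h1 : Module.supportDim S Q ≤ a := by
        rw [← hd] at ha
        have h6 : Module.supportDim S Q + 1 ≤ ((a : WithBot ℕ∞) + 1) := by exact_mod_cast ha
        exact ENat.WithBot.add_le_add_one_right_iff.1 h6
      obtain ⟨C, hC, h2⟩ := tau_thick_growth T hG hXP Q hQI a h1
      refine ⟨C, hC, fun t ht i hi => ?_⟩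
      calc (t : ℝ≥0∞) * tau S L i (Th (T.Θ t) (TB S d t) (S ⧸ P)) X
          ≤ t * (C * (t : ℝ≥0∞) ^ (a + m)) := by
            gcongr
            exact (hstep t i hi).trans (h2 t ht i)
        _ = C * (t : ℝ≥0∞) ^ (a + 1 + m) := by
            rw [show a + 1 + m = a + m + 1 by ring, pow_succ]
            ring
  · apply hsub
    have hu : IsUnit s := by
      by_contra h
      exact hsm ((mem_maximalIdeal s).2 h)
    obtain ⟨v, hv⟩ := hu.exists_left_inv
    refine ⟨fun x y => ?_⟩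
    have key : ∀ x : Q, x = 0 := by
      intro x
      obtain ⟨x, rfl⟩ := Submodule.mkQ_surjective _ x
      rw [Submodule.mkQ_apply, Submodule.Quotient.mk_eq_zero]
      rw [← one_smul S x, ← hv, mul_comm, mul_smul]
      exact Submodule.smul_mem_pointwise_smul _ s _ Submodule.mem_top
    rw [key x, key y]

end upper

end Vale.Agent.P177.SL
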